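import Claimed.Open.R282.Statement

/-!
# Result 282: checks of the definitions of `Statement.lean`

* Section A: `lorentz : SL(2,ℂ) → Mat₄(ℝ)` is a homomorphism into the Lorentz group, `Sim.mul` is the
  composition of similarities, and the Jacobian of a similarity is `e^{4s}`.
* Section D: a model of all the hypotheses (`Background`, `FieldSystem`, `Cyclic`, `StressData`), in which
  the conclusion holds: the vacuum theory with the identity field.

## Further checked files (most of them import this one, so it cannot import them)

`SanityAll.lean` imports all of them: `lake build Claimed.Open.R282.SanityAll` is one build target for every check.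
The model of Section D lives on `H = ℂ`; the stronger models and the checks of the single definitions are here:

* `SanityStaticInf.lean`: `SanityStaticInf.static_conclusion_general`, `SanityStaticInf.theorem_checked_on_L2`: Theorem 1.1 proved
  for ALL static theories on an arbitrary Hilbert space; hypotheses and conclusion together on `L²[0,1]`, `X = M_x`.
* `SanityWard.lean`: `SanityWard.U_eq_one_of_affineWard_zero`, `SanityWard.not_affineWard_zero`, `SanityWard.statement_zero_currents`: the hypothesis
  `StressData.ward` has teeth: in a cyclic theory `T = V = 0` pass the affine Ward identities iff `U = 1`; Theorem 1.1 proved for ALL theories with `T = V = 0`;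
  if some `U(g) ≠ 1` the conclusion forces `t ≠ 0` (`SanityWard.ne_zero_of_conformalWard`).
* `SanityAlgebra.lean`: `SanityAlgebra.improved_clauses`, `SanityAlgebra.trace_T4`, `SanityAlgebra.par_adj`, `SanityAlgebra.trace_improvedWith_eq_zero_iff`: no model,
  EVERY field system: the split of Section 2.3; `t` is symmetric, conserved, traceless as soon as `∂^μ V⁽³⁾_μ = □ L`; the coefficient `1/3` is forced.
* `SanityLorentz.lean`: `SanityLorentz.rho_der`, `SanityLorentz.improved_props`: no model, EVERY field system: `ρ(Λ) ∂_μ = Λ^β{}_μ ∂_β ρ(Λ)` follows from `op_cov`;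
  `t` is a Hermitian even Lorentz tensor of dimension four.
* `SanityCharge.lean`: `SanityCharge.comm_charge_improved`, `SanityCharge.affineWard_improved_iff`, `SanityCharge.virial_gradient_of_conformalWard`: no model, EVERY field
  system: on `localAlg` the affine charges of `t` without virial term are those of `T` with the virial field `∂_μ L`; Poincare charges unchanged.
* `SanityScale.lean`, `SanityHerm.lean`: `SanityScale.first_clause_local`, `SanityScale.stressData4`, `SanityHerm.ward_herm_even`, `SanityScale.affineWard_improved_iff_flux`: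
  no model, EVERY field system: Section 2.3 complete: `T⁽⁴⁾`, `V⁽³⁾` keep the affine Ward identities on `localAlg` (first clause of `Conclusion` there).
* `SanityIndep.lean`: `SanityIndep.comm_charge_indep`, `SanityIndep.indep_improved`, `SanityIndep.exists_potential`: no model, EVERY field system: on `localAlg` the charges
  of all conformal Killing fields do not depend on the slab (clause `ConformalWard.indep` there).
* `SanityExtension.lean`: `SanityExtension.trans`, `SanityExtension.isVacuumWord_unique`, `SanityExtension.derSpan_le_iff`, `SanityExtension.grade_eq_map`: no model, EVERY field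
  system: extensions compose and keep `𝓓_old`; `IsVacuumWord` is the graph of a map; `derSpan S` is the smallest `∂`-stable submodule over `S`; admitting `L` adds no
  label outside the dimensions `2 + ℕ`.
* `SanityRestrict.lean`: `SanityRestrict.U_mem_Dfact`, `SanityRestrict.restrict`, `SanityRestrict.hypotheses_restrict`, `SanityRestrict.conclusion_restrict`: no model, EVERY
  cyclic field system: `𝓓_fact` is invariant under `U`, all clauses of `FieldSystem` and `StressData` restrict to it; `Extension` and all clauses of `Conclusion` but the first see only the restriction.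
* `SanityBounded.lean`: `SanityBounded.exists_bounded_of_mem_jointAlg`, `SanityBounded.preserve_open`, `SanityBounded.indep_region`, `SanityBounded.affineWard_indep`: no model, EVERY field
  system: `𝔓_c(O)`, `O` open, is exhausted by bounded regions; `ConformalWard` gives `δ_X 𝔓_c(O) ⊆ 𝔓_c(O)` for every open `O`; `δ_X P` does not depend on the region or the slab.
* `SanityHermitian.lean`: `SanityHermitian.charge_symmetric`, `SanityHermitian.charge_improved_symmetric`, `SanityHermitian.comm_adjoint`, `SanityHermitian.vacuum_of_affineWard`: no model, EVERY field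
  system: the charges of Hermitian currents (`T⁽⁴⁾`, `V⁽³⁾`, `t`) are symmetric operators; `AffineWardOn` implies the vacuum Ward identity of the affine charges.
* `SanityTransport.lean`: `SanityTransport.primary_scalar_translation`, `SanityTransport.primary_tensor_translation`, `SanityTransport.primary_tensor_dilation`: no model, EVERY field system:
  `PrimaryLaws` read on translations (`i[Q_c, A(f)] = (c·∂A)(f)`) and on the dilation field (weights `2` and `2 + 2 = 4`).
* `SanityAlg.lean`: `SanityAlg.centralizer_centralizer_alg`, `SanityAlg.alg_mono_of_closure`, `SanityAlg.alg_local`, `SanityAlg.alg_cov`: no model, EVERY background: the extended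
  net `R ↦ 𝓜(R)` of `Background.alg` satisfies `𝓜(R)'' = 𝓜(R)`, is isotonous (`alg_mono`, `alg_mono_of_closure`; the case left out: see `CLAIM.md`), (twisted) local and covariant for ARBITRARY regions.
* `SanityGroup.lean`: `SanityGroup.simGroup`, `SanityGroup.U_inv`, `SanityGroup.Urep`, `SanityGroup.net_spin`: `Sim` is a group under `Sim.mul`, `Sim.one`; for EVERY background
  `U(g⁻¹) = U(g)^*` and `U` is a homomorphism into the unitary group; the rotation by `2π` is central of order two, acts trivially on space-time and normalises every local algebra.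
* `SanityScaleZero.lean`: `SanityScaleZero.comm_comp_eq_zero`, `SanityScaleZero.vacuum_of_ward`, `SanityScaleZero.vacuum_T4`: no model, EVERY field system: the components of
  `T`, `V` of the other dimensions have no affine charges (last sentence of the scaling argument); the affine Ward identities imply the vacuum Ward identity.
* `SanityLinear.lean`: `SanityLinear.ckSpace`, `SanityLinear.charge_add`, `SanityLinear.comm_charge_smul`, `SanityLinear.transportT_add`: the conformal Killing fields form a real vector
  space; for EVERY field system `σ_X`, the charge `Q_X(F)`, the Ward commutator and `transportT X f` are `ℝ`-linear in the smooth field `X`.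
* `SanityJointLocal.lean`: `SanityJointLocal.indep_improved_joint`, `SanityJointLocal.comm_op_of_van_joint`, `SanityJointLocal.affine_clause_iff`, `SanityJointLocal.tensor_total_local`: no
  model, EVERY field system: locality on `jointAlg`; the field `indep` of `ConformalWard` for the tensor of `Conclusion`, word for word, follows from `∂^μ V⁽³⁾_μ = □ L` and `par L = L`.
* `SanityInvariant.lean`: `SanityInvariant.invariant_eq_integral`: translation invariant distributions are multiples of the integral.
* `SanityFull.lean`: `SanityFull.theorem_checked_on_C2`, `SanityFull.static_conclusion_unconditional`: hypotheses and every clause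
  of `Conclusion` on `ℂ²`, with a non-scalar field.
* `SanityStatic.lean`: `SanityStatic.static_conclusion`: every clause of `Conclusion` over static backgrounds of finite dimension.
* `SanityTwo.lean`: `SanityTwo.Datum.hypotheses_met`, `SanityTwo.hypotheses_met_C2`, `SanityTwo.hypotheses_met_L2`: all hypotheses met on
  `ℂ²` and on the infinite-dimensional `L²[0,1]`.
* `SanityLinfty.lean`: `SanityTwo.exists_eq_MulOp_of_comm`, `SanityTwo.mem_vn_datumL2_iff`, `SanityTwo.norm_MulOp`: the net `{M_x}''` of the model on
  `L²[0,1]` is `L^∞[0,1]` acting by multiplication (maximal abelian, isometrically).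
* `SanityOps.lean`: `SanityOps.hypotheses_can_be_met_C2`, `SanityOps.twoSys_not_cyclic`: second family of models; non-example for `Cyclic`.
* `SanityPrimary.lean`: `SanityPrimary.eq_zero_of_primaryLaws`: the primary law (8.32) fails for every `L ≠ 0` of dimension zero.
* `SanityJoint.lean`: `SanityJoint.tensor_total`, `SanityJoint.existsUnique_isJointDist`: product tests are total, joint distributions are unique.
* `SanitySpectrum.lean`: `SanitySpectrum.spectrumCondition_character_iff`: sharp momentum `p` satisfies `SpectrumCondition` iff `p` is in the closed forward cone.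
* `SanitySlab.lean`: `SanitySlab.exists_slab_of_isBounded`, `SanitySlab.not_isSlabFor_smul`: slabs exist, so no Ward identity is vacuous; unit flux is imposed.
* `SanityTest.lean`: `SanityTest.existsUnique_push`, `SanityTest.classical_cov`: relational clauses determine their object; signs checked on classical fields.
* `SanityKilling.lean`: `SanityKilling.isConformalKilling_kField`, `SanityKilling.lieBracket_pField_kField`: the fifteen generators, their `σ`, their brackets; non-examples.
* `SanityTangent.lean`: `SanityTangent.exists_isTangent_iff`: `IsTangent` is exactly the Lie algebra of Poincare and dilations.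
* `SanityCone.lean`: `SanityCone.isDoubleCone_image_act`: similarities map double cones onto double cones, `Λ(A)` is orthochronous.
-/

open scoped Distributions ContDiff InnerProductSpace ComplexConjugate Topology SchwartzMap
open scoped LinearPMap
open TopologicalSpace MeasureTheory

noncomputable section

namespace Claimed.Open.R282
namespace Sanity

/-! ## A. The covering map and the similarity group -/

/-- `x^μ σ_μ`. -/
def herm (x : M4) : Matrix (Fin 2) (Fin 2) ℂ := ∑ μ, (x μ : ℂ) • pauli μ

lemma herm_eq (x : M4) : herm x =
    !![(x 0 + x 3 : ℂ), x 1 - Complex.I * x 2; x 1 + Complex.I * x 2, x 0 - x 3] := by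
  ext i j
  fin_cases i <;> fin_cases j <;>
    simp [herm, pauli, Fin.sum_univ_four, Matrix.add_apply] <;> ring

/-- `det (x^μ σ_μ) = x·x`. -/
lemma det_herm (x : M4) : (herm x).det = (mink x x : ℂ) := by
  rw [herm_eq, Matrix.det_fin_two_of]
  simp [mink, eta, Fin.sum_univ_four]
  ring_nf
  simp [Complex.I_sq]
  ring

/-- Every Hermitian 2x2 matrix is `herm` of the vector of its Pauli coefficients. -/
lemma herm_coeff (Y : Matrix (Fin 2) (Fin 2) ℂ) (hY : Y.conjTranspose = Y) :
    herm (fun μ => ((pauli μ * Y).trace).re / 2) = Y := by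
  have h00 : (starRingEnd ℂ) (Y 0 0) = Y 0 0 := by
    have := congrFun (congrFun hY 0) 0; simpa [Matrix.conjTranspose_apply] using this
  have h11 : (starRingEnd ℂ) (Y 1 1) = Y 1 1 := by
    have := congrFun (congrFun hY 1) 1; simpa [Matrix.conjTranspose_apply] using this
  have h01 : (starRingEnd ℂ) (Y 1 0) = Y 0 1 := by
    have := congrFun (congrFun hY 0) 1; simpa [Matrix.conjTranspose_apply] using this
  have i00 : (Y 0 0).im = 0 := Complex.conj_eq_iff_im.mp h00
  have i11 : (Y 1 1).im = 0 := Complex.conj_eq_iff_im.mp h11
  have r01 : (Y 0 1).re = (Y 1 0).re := by rw [← h01]; simp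
  have m01 : (Y 0 1).im = -(Y 1 0).im := by rw [← h01]; simp
  rw [herm_eq]
  ext i j
  fin_cases i <;> fin_cases j <;>
    apply Complex.ext <;>
    simp [pauli, Matrix.trace, Fin.sum_univ_two, Matrix.vecMul, dotProduct,
      i00, i11, r01, m01] <;> ring

lemma herm_conjTranspose (x : M4) : (herm x).conjTranspose = herm x := by
  rw [herm_eq]
  ext i j
  fin_cases i <;> fin_cases j <;> simp [Matrix.conjTranspose_apply] <;> ring

lemma herm_injective : Function.Injective herm := by
  intro x y h
  rw [herm_eq, herm_eq] at h
  have h00 := congrFun (congrFun h 0) 0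
  have h01 := congrFun (congrFun h 0) 1
  have h11 := congrFun (congrFun h 1) 1
  simp at h00 h01 h11
  have a := congrArg Complex.re h00
  have b := congrArg Complex.re h11
  have c := congrArg Complex.re h01
  have d := congrArg Complex.im h01
  simp at a b c d
  funext i
  fin_cases i
  · show x 0 = y 0; linarith
  · show x 1 = y 1; linarith
  · show x 2 = y 2; linarith
  · show x 3 = y 3; linarith

lemma lorentz_mulVec (A : SL2C) (x : M4) (μ : Fin 4) :
    (lorentz A).mulVec x μ = ((pauli μ * (A.1 * herm x * A.1.conjTranspose)).trace).re / 2 := by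
  simp only [Matrix.mulVec, dotProduct, lorentz, Matrix.of_apply, herm, Matrix.mul_sum,
    Matrix.sum_mul, Matrix.trace_sum, Complex.re_sum, Finset.sum_div]
  refine Finset.sum_congr rfl fun ν _ => ?_
  simp only [Matrix.mul_smul, Matrix.smul_mul, Matrix.trace_smul, smul_eq_mul, Complex.re_ofReal_mul,
    Matrix.mul_assoc]
  ring

/-- The defining property of the covering map: `A (x^ν σ_ν) A^† = (Λ(A) x)^μ σ_μ`. -/
theorem conj_herm (A : SL2C) (x : M4) :
    A.1 * herm x * A.1.conjTranspose = herm ((lorentz A).mulVec x) := by
  have hY : (A.1 * herm x * A.1.conjTranspose).conjTranspose = A.1 * herm x * A.1.conjTranspose := by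
    simp [Matrix.conjTranspose_mul, herm_conjTranspose, Matrix.mul_assoc]
  rw [← herm_coeff _ hY]
  congr 1
  funext μ
  rw [lorentz_mulVec]

theorem lorentz_mulVec_mul (A B : SL2C) (x : M4) :
    (lorentz (A * B)).mulVec x = (lorentz A).mulVec ((lorentz B).mulVec x) := by
  apply herm_injective
  rw [← conj_herm, ← conj_herm, ← conj_herm]
  simp [Matrix.conjTranspose_mul, Matrix.mul_assoc]

theorem lorentz_one_mulVec (x : M4) : (lorentz 1).mulVec x = x := by
  apply herm_injective
  rw [← conj_herm]
  simp

/-- `Λ` is a homomorphism. -/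
theorem lorentz_mul (A B : SL2C) : lorentz (A * B) = lorentz A * lorentz B := by
  ext i j
  have := congrFun (lorentz_mulVec_mul A B (Pi.single j 1)) i
  rw [Matrix.mulVec_mulVec] at this
  simpa [Matrix.mulVec_single_one] using this

theorem lorentz_one : lorentz 1 = 1 := by
  ext i j
  have := congrFun (lorentz_one_mulVec (Pi.single j 1)) i
  simpa [Matrix.mulVec_single_one, Matrix.one_apply, Pi.single_apply] using this

theorem mink_self_lorentz (A : SL2C) (x : M4) :
    mink ((lorentz A).mulVec x) ((lorentz A).mulVec x) = mink x x := by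
  have h := det_herm ((lorentz A).mulVec x)
  rw [← conj_herm, Matrix.det_mul, Matrix.det_mul, Matrix.det_conjTranspose, A.2, det_herm] at h
  simp at h
  exact_mod_cast h.symm

lemma mink_add_self (x y : M4) : mink (x + y) (x + y) = mink x x + 2 * mink x y + mink y y := by
  simp only [mink, Pi.add_apply, Fin.sum_univ_four]; ring

/-- `Λ(A)` preserves the Minkowski product. -/
theorem mink_lorentz (A : SL2C) (x y : M4) :
    mink ((lorentz A).mulVec x) ((lorentz A).mulVec y) = mink x y := by
  have h1 := mink_self_lorentz A (x + y)
  rw [Matrix.mulVec_add, mink_add_self, mink_add_self, mink_self_lorentz, mink_self_lorentz] at h1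
  linarith

/-- `Λ^T η Λ = η`. -/
theorem lorentz_gram (A : SL2C) :
    (lorentz A).transpose * Matrix.diagonal eta * lorentz A = Matrix.diagonal eta := by
  ext i j
  have := mink_lorentz A (Pi.single i 1) (Pi.single j 1)
  simp only [Matrix.mulVec_single_one] at this
  rw [Matrix.mul_apply]
  simp only [Matrix.mul_diagonal, Matrix.transpose_apply]
  simp only [mink, Matrix.col_apply] at this
  rw [Matrix.diagonal_apply]
  calc ∑ k, lorentz A k i * eta k * lorentz A k j = ∑ k, eta k * lorentz A k i * lorentz A k j :=
        Finset.sum_congr rfl fun k _ => by ring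
    _ = _ := this
    _ = _ := by
        by_cases h : i = j
        · subst h; simp [Pi.single_apply]
        · simp [Pi.single_apply, h]
          intro k; exact absurd k.symm h

theorem abs_det_lorentz (A : SL2C) : |(lorentz A).det| = 1 := by
  have h := congrArg Matrix.det (lorentz_gram A)
  rw [Matrix.det_mul, Matrix.det_mul, Matrix.det_transpose, Matrix.det_diagonal] at h
  have hη : ∏ i, eta i = -1 := by simp [eta, Fin.prod_univ_four]
  rw [hη] at h
  have h2 : (lorentz A).det ^ 2 = 1 := by nlinarith
  exact (pow_eq_one_iff_of_nonneg (abs_nonneg _) two_ne_zero).mp (by rw [sq_abs]; exact h2)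

/-- `Sim.mul` is the composition of the similarities. -/
theorem act_mul (g h : Sim) (x : M4) : (g.mul h).act x = g.act (h.act x) := by
  simp only [Sim.act, Sim.mul, lorentz_mulVec_mul, Matrix.mulVec_add, Matrix.mulVec_smul,
    Real.exp_add, smul_add, smul_smul]
  abel

theorem act_one (x : M4) : Sim.one.act x = x := by
  simp [Sim.act, Sim.one, lorentz_one_mulVec]

/-- Change of variables under a similarity: the Jacobian of `x ↦ e^s Λ x + a` is `e^{4s}`. -/
theorem integral_comp_act (g : Sim) (f : M4 → ℂ) (hf : Continuous f) :
    ∫ x, f (g.act x) = (Real.exp (-(4 * g.s)) : ℂ) * ∫ x, f x := by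
  set L : M4 →ₗ[ℝ] M4 := Matrix.toLin' (Real.exp g.s • lorentz g.A) with hL
  have hdet : LinearMap.det L = Real.exp g.s ^ 4 * (lorentz g.A).det := by
    rw [hL, LinearMap.det_toLin', Matrix.det_smul]; simp
  have habs : |(LinearMap.det L)⁻¹| = Real.exp (-(4 * g.s)) := by
    rw [hdet, abs_inv, abs_mul, abs_det_lorentz, mul_one, abs_of_pos (by positivity),
      ← Real.exp_nat_mul, Real.exp_neg]
    norm_num
  have hne : LinearMap.det L ≠ 0 := by
    intro h0; rw [h0] at habs; simp at habs
    exact absurd habs.symm (Real.exp_pos _).ne'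
  have hmap := Measure.map_linearMap_addHaar_eq_smul_addHaar (μ := (volume : Measure M4)) hne
  have hact : ∀ x, g.act x = L x + g.a := by
    intro x; simp [Sim.act, hL, Matrix.toLin'_apply]
  have hLc : Continuous L := L.continuous_of_finiteDimensional
  calc ∫ x, f (g.act x) = ∫ x, (fun y => f (y + g.a)) (L x) := by simp only [hact]
    _ = ∫ y, f (y + g.a) ∂(Measure.map L volume) := by
        rw [integral_map hLc.aemeasurable]
        exact (hf.comp (continuous_id.add continuous_const)).aestronglyMeasurable
    _ = (Real.exp (-(4 * g.s)) : ℂ) * ∫ y, f (y + g.a) := by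
        rw [hmap, integral_smul_measure, habs, ENNReal.toReal_ofReal (Real.exp_pos _).le]
        simp
    _ = _ := by rw [integral_add_right_eq_self]

/-! ## D. A model of the hypotheses -/

lemma clm_comm (x y : ℂ →L[ℂ] ℂ) : x * y = y * x := by
  ext
  simp only [mul_apply_eq_comp]
  have hx : ∀ z : ℂ, x z = z * x 1 := fun z => by
    have := x.map_smul z 1; simpa using this
  have hy : ∀ z : ℂ, y z = z * y 1 := fun z => by
    have := y.map_smul z 1; simpa using this
  rw [hx (y 1), hy (x 1)]; ring

/-- All bounded operators on the one-dimensional Hilbert space. -/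
def topVN : VonNeumannAlgebra ℂ where
  toStarSubalgebra := ⊤
  centralizer_centralizer' := by
    ext x
    simp only [Set.mem_centralizer_iff]
    constructor
    · intro _; trivial
    · intro _ y _; exact clm_comm y x

lemma mem_topVN (x : ℂ →L[ℂ] ℂ) : x ∈ topVN := by
  change x ∈ (⊤ : StarSubalgebra ℂ (ℂ →L[ℂ] ℂ))
  trivial

/-- The trivial background: one-dimensional Hilbert space, trivial representation. -/
def trivB : Background ℂ where
  Ω := 1
  norm_Ω := by simp
  U := fun _ => 1
  U_unitary := fun _ => one_mem _
  U_one := rfl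
  U_mul := fun _ _ => by simp
  U_cont := fun ψ => continuous_const
  U_Ω := fun _ => by simp
  spectrum := by
    intro f hf φ ψ
    have h0 : (0 : M4) ∈ closedCone := by simp [closedCone, mink]
    have := hf 0 h0
    simp only [mink, Pi.zero_apply, mul_zero, zero_mul, Finset.sum_const_zero, Complex.ofReal_zero,
      Complex.exp_zero, mul_one] at this
    simp only [one_apply_eq_self]
    rw [MeasureTheory.integral_mul_const, this, zero_mul]
  Γ := 1
  Γ_sq := by simp
  Γ_sa := by simp
  Γ_Ω := by simp
  Γ_U := fun _ => by simp
  net := fun _ => topVN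
  net_mono := fun _ _ _ _ _ x _ => mem_topVN x
  net_cov := fun _ _ _ x => ⟨fun _ => mem_topVN _, fun _ => mem_topVN _⟩
  net_Γ := fun _ _ x _ => mem_topVN _
  net_local := fun _ _ _ _ _ x _ y _ => clm_comm _ _

lemma test_integrable {E : Type*} [NormedAddCommGroup E] [NormedSpace ℝ E] [MeasurableSpace E]
    [BorelSpace E] (μ : Measure E) [IsFiniteMeasureOnCompacts μ]
    (f : 𝓓((⊤ : Opens E), ℂ)) : Integrable f μ :=
  f.continuous.integrable_of_hasCompactSupport f.hasCompactSupport

/-- `∫ f` as a linear functional on test functions. -/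
def intL : Test →ₗ[ℂ] ℂ where
  toFun f := ∫ x, f x
  map_add' f g := by
    simpa using integral_add (test_integrable volume f) (test_integrable volume g)
  map_smul' c f := by
    simpa using integral_const_mul c (fun x => f x)

lemma intL_apply (f : Test) : intL f = ∫ x, f x := rfl

lemma intL_conj (f : Test) : intL (conjT f) = (starRingEnd ℂ) (intL f) := by
  rw [intL_apply, intL_apply, ← integral_conj]
  rfl

lemma test_differentiable (f : Test) : Differentiable ℝ f := f.contDiff.differentiable (by simp)

/-- `pd μ f` is the partial derivative `∂_μ f`. -/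
lemma pd_apply (μ : Fin 4) (f : Test) (x : M4) : pd μ f x = fderiv ℝ f x (ev μ) := by
  simp [pd, (test_differentiable f x).lineDeriv_eq_fderiv]

lemma pd_coe (μ : Fin 4) (f : Test) : (pd μ f : M4 → ℂ) = fun x => fderiv ℝ f x (ev μ) :=
  funext (pd_apply μ f)

lemma intL_pd (μ : Fin 4) (f : Test) : intL (pd μ f) = 0 := by
  rw [intL_apply]
  have h := integral_mul_fderiv_eq_neg_fderiv_mul_of_integrable (μ := (volume : Measure M4))
    (f := fun _ : M4 => (1 : ℂ)) (g := (f : M4 → ℂ)) (v := ev μ)
    (by simp) (by simpa [pd_coe] using test_integrable volume (pd μ f))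
    (by simpa using test_integrable volume f)
    (fun x _ => differentiableAt_const _)
    (fun x _ => test_differentiable f x)
  simpa [pd_apply] using h

/-- the grading of the identity-field model: everything has dimension `0` -/
def idGrade (Δ : ℝ) : Submodule ℂ ℂ := if Δ = 0 then ⊤ else ⊥

lemma idGrade_internal : DirectSum.IsInternal idGrade := by
  rw [DirectSum.isInternal_submodule_iff_iSupIndep_and_iSup_eq_top]
  constructor
  · intro i
    by_cases hi : i = 0
    · subst hi
      have : (⨆ j, ⨆ (_ : j ≠ (0:ℝ)), idGrade j) = ⊥ := by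
        simp only [iSup_eq_bot]
        intro j hj; simp [idGrade, hj]
      rw [this]; exact disjoint_bot_right
    · simp [idGrade, hi]
  · exact eq_top_iff.mpr (le_iSup_of_le 0 (by simp [idGrade]))

/-- `c · 1(f) = c ∫ f`. -/
def idOp : ℂ →ₗ[ℂ] Test →ₗ[ℂ] Module.End ℂ (⊤ : Submodule ℂ ℂ) :=
  LinearMap.mk₂ ℂ (fun c f => (c * intL f) • (1 : Module.End ℂ (⊤ : Submodule ℂ ℂ)))
    (by intros; simp [add_mul, add_smul]) (by intros; simp [mul_assoc, mul_smul])
    (by intros; simp [mul_add, add_smul]) (by intros; simp [mul_smul, mul_left_comm])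

lemma idOp_apply (c : ℂ) (f : Test) :
    idOp c f = (c * intL f) • (1 : Module.End ℂ (⊤ : Submodule ℂ ℂ)) := rfl

/-- integration as a distribution on `(ℝ⁴)^n` -/
def intJ (n : ℕ) : JTest n →L[ℂ] ℂ :=
  TestFunction.integralAgainstBilinCLM (ContinuousLinearMap.mul ℂ ℂ) volume (fun _ => (1 : ℂ))

lemma intJ_apply (n : ℕ) (h : JTest n) : intJ n h = ∫ x, h x := by
  rw [intJ, TestFunction.integralAgainstBilinCLM_eq_integral]
  · simp
  · exact (locallyIntegrable_const _).locallyIntegrableOn _

lemma prod_ofFn_smul_one {R : Type*} [Ring R] [Algebra ℂ R] {n : ℕ} (a : Fin n → ℂ) :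
    (List.ofFn fun i => a i • (1 : R)).prod = (∏ i, a i) • (1 : R) := by
  induction n with
  | zero => simp
  | succ n ih =>
    rw [List.ofFn_succ, List.prod_cons, ih, Fin.prod_univ_succ]
    rw [smul_mul_smul_comm, one_mul]

/-- a standard bump function -/
def bump0 : ContDiffBump (0 : M4) := ⟨1, 2, one_pos, one_lt_two⟩

/-- ... as a real test function -/
def bumpR : RTest := ⟨bump0, bump0.contDiff, bump0.hasCompactSupport, fun _ _ => trivial⟩

lemma toC_apply (f : RTest) (x : M4) : toC f x = (f x : ℂ) := rfl

lemma exists_intL_ne_zero : ∃ f : Test, intL f ≠ 0 := by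
  refine ⟨toC bumpR, ?_⟩
  rw [intL_apply]
  simp only [toC_apply]
  have h : ∫ x, ((bumpR x : ℝ) : ℂ) = ((∫ x, bump0 x : ℝ) : ℂ) := integral_ofReal
  rw [h]
  have : 0 < ∫ x, bump0 x := bump0.integral_pos
  exact_mod_cast this.ne'

/-- On a one-dimensional Hilbert space every partially defined operator is closed and is
affiliated with every algebra. -/
lemma isClosed_pmap (T : ℂ →ₗ.[ℂ] ℂ) : T.IsClosed :=
  T.graph.closed_of_finiteDimensional

lemma affiliated_triv (T : ℂ →ₗ.[ℂ] ℂ) (𝓜 : Set (ℂ →L[ℂ] ℂ)) : AffiliatedWith T 𝓜 := by
  intro C _ ψ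
  have hC : ∀ z : ℂ, C z = (C 1) • z := fun z => by
    have := C.map_smul z 1; simpa [mul_comm] using this
  have hmem : C ψ ∈ T.domain := by rw [hC]; exact T.domain.smul_mem _ ψ.2
  refine ⟨hmem, ?_⟩
  have : (⟨C ψ, hmem⟩ : T.domain) = (C 1) • ψ := Subtype.ext (hC ψ)
  rw [this, T.map_smul, hC (T ψ)]

/-- The vacuum theory with the identity field `1(f) = ∫ f`, of dimension `0`. -/
def idSys : FieldSystem trivB where
  F := ℂ
  grade := idGrade
  grade_internal := idGrade_internal
  grade_finite := fun Δ => inferInstance
  spec_bddBelow := ⟨0, by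
    intro Δ hΔ
    by_contra h
    have : Δ ≠ 0 := fun h0 => h (by simp [h0])
    exact hΔ (by simp [idGrade, this])⟩
  spec_locFinite := fun a b => by
    refine (Set.finite_singleton (0 : ℝ)).subset ?_
    intro Δ hΔ
    by_contra h
    exact hΔ.1 (by simp [idGrade, show Δ ≠ 0 from h])
  adj := { toFun := starRingEnd ℂ, map_add' := map_add _, map_smul' := fun c x => by simp }
  adj_adj := fun A => by simp
  adj_grade := fun Δ A hA => by
    by_cases h : Δ = 0
    · simp [idGrade, h]
    · simp only [idGrade, h, if_false, Submodule.mem_bot] at hA ⊢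
      simp [hA]
  der := fun _ => 0
  der_grade := fun _ _ _ _ => by simp
  rho := 1
  rho_grade := fun _ _ A hA => by simpa using hA
  rho_adj := fun _ _ => rfl
  par := LinearMap.id
  par_par := fun _ => rfl
  par_grade := fun _ _ h => h
  par_rho := fun _ _ => rfl
  domain := ⊤
  domain_dense := by simp
  Ω_mem := trivial
  U_mem := fun _ _ _ => trivial
  Γ_mem := fun _ _ => trivial
  op := idOp
  faithful := fun A hA => by
    obtain ⟨f, hf⟩ := exists_intL_ne_zero
    have h := congrArg (fun X : Module.End ℂ (⊤ : Submodule ℂ ℂ) => ((X ⟨1, trivial⟩ : (⊤ : Submodule ℂ ℂ)) : ℂ)) (hA f)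
    simp [idOp_apply, hf] at h
    exact h
  op_adj := fun A f φ ψ => by
    simp [idOp_apply, intL_conj]
    ring
  op_der := fun μ A f => by simp [idOp_apply, intL_pd]
  op_cov := fun g Δ A hA f f' hff' ψ => by
    by_cases h : Δ = 0
    · subst h
      have h1 : intL f = (Real.exp (-(4 * g.s)) : ℂ) * intL f' := by
        rw [intL_apply, intL_apply, ← integral_comp_act g f' f'.continuous]
        simp only [hff']
      simp only [idOp_apply, h1]
      simp [trivB]
      ring_nf
    · simp only [idGrade, h, if_false, Submodule.mem_bot] at hA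
      subst hA
      simp
  op_Γ := fun A f ψ => rfl
  joint := fun n A φ ψ => by
    refine ⟨((∏ i, A i) * ⟪(φ : ℂ), (ψ : ℂ)⟫_ℂ) • intJ n, fun f h hh => ?_⟩
    have h1 : ∫ x, h x = ∏ i, intL (f i) := by
      simp only [hh, intL_apply]
      exact integral_fintype_prod_eq_prod (fun i x => f i x)
    simp only [idOp_apply, prod_ofFn_smul_one]
    simp [intJ_apply, h1, Finset.prod_mul_distrib]
    ring
  op_local := fun A A' f f' _ => by
    constructor
    · intro _
      simp only [idOp_apply, smul_mul_smul_comm, mul_one]
      rw [mul_comm]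
    · intro hA _
      have : A = 0 := by
        have : A = -A := hA
        have h2 : (2 : ℂ) * A = 0 := by linear_combination this
        simpa using h2
      subst this; simp
  affiliated := fun A f O _ _ => by
    refine ⟨⟨⊤, (⊤ : Submodule ℂ ℂ).subtype ∘ₗ idOp A f⟩, isClosed_pmap _, le_refl _, ?_,
      affiliated_triv _ _⟩
    apply LinearPMap.IsFormalAdjoint.le_adjoint (by simp)
    intro x y
    simp [idOp_apply, intL_conj]
    ring


/-! ### Every field system over the trivial background -/

section general

variable (𝔊 : FieldSystem trivB)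

lemma smul_vac (ψ : 𝔊.domain) : ψ = (ψ : ℂ) • 𝔊.vac :=
  Subtype.ext (by simp [FieldSystem.vac, trivB])

lemma end_scalar (X : Module.End ℂ 𝔊.domain) : X = ((X 𝔊.vac : 𝔊.domain) : ℂ) • 1 := by
  ext ψ
  conv_lhs => rw [smul_vac 𝔊 ψ, map_smul, smul_vac 𝔊 (X 𝔊.vac)]
  simp [FieldSystem.vac, trivB, mul_comm]

lemma comm_eq_zero (X Y : Module.End ℂ 𝔊.domain) : 𝔊.comm X Y = 0 := by
  rw [FieldSystem.comm, end_scalar 𝔊 X, end_scalar 𝔊 Y]
  simp only [smul_mul_smul_comm, mul_one]
  rw [mul_comm, sub_self]

lemma Uact_eq (g : Sim) (ψ : 𝔊.domain) : 𝔊.Uact g ψ = ψ := Subtype.ext rfl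

lemma domain_eq_top : 𝔊.domain = ⊤ := by
  rw [eq_top_iff]
  intro z _
  have : z = z • trivB.Ω := by simp [trivB]
  rw [this]
  exact 𝔊.domain.smul_mem _ 𝔊.Ω_mem

lemma affineWard_triv (Pol : Set M4 → Subalgebra ℂ (Module.End ℂ 𝔊.domain))
    (T : Fin 4 → Fin 4 → 𝔊.F) (V : Fin 4 → 𝔊.F) : 𝔊.AffineWardOn Pol T V := by
  intro γ c M κ _ K F _ P _ φ ψ
  simp only [Uact_eq, comm_eq_zero, smul_zero, LinearMap.zero_apply, ZeroMemClass.coe_zero,
    inner_zero_right]
  exact hasDerivAt_const _ _

lemma conformalWard_triv (t : Fin 4 → Fin 4 → 𝔊.F) : 𝔊.ConformalWard t where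
  indep := by intros; simp [comm_eq_zero]
  preserve := by intros; simp [comm_eq_zero]
  affine := affineWard_triv 𝔊 _ _ _
  vacuum := by intros; simp [comm_eq_zero]
  lie := by intros; simp [comm_eq_zero]

lemma primary_triv : 𝔊.PrimaryLaws (fun _ _ => 0) 0 where
  scalar := by intros; simp [comm_eq_zero]
  tensor := by intros; simp [comm_eq_zero]

lemma compat_triv : 𝔊.CompatiblyAffiliated := by
  intro A f
  have hfa : (𝔊.pmap A f).IsFormalAdjoint (𝔊.pmap (𝔊.adj A) (conjT f)) := by
    intro x y
    have h := congrArg (starRingEnd ℂ) (𝔊.op_adj A f y x)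
    rw [inner_conj_symm, inner_conj_symm] at h
    exact h
  refine ⟨𝔊.pmap A f, isClosed_pmap _, le_refl _, ?_, fun _ _ _ => affiliated_triv _ _, ?_⟩
  · exact hfa.le_adjoint 𝔊.domain_dense
  · intro hA hf
    rw [hA, hf] at hfa
    exact hfa.le_adjoint 𝔊.domain_dense

lemma jointAff_triv : 𝔊.JointlyAffiliated := by
  intro n A h P _
  refine ⟨⟨𝔊.domain, 𝔊.domain.subtype ∘ₗ P⟩, isClosed_pmap _, le_refl _, ?_,
    fun _ _ _ => affiliated_triv _ _⟩
  intro y _
  rw [LinearPMap.mem_adjoint_domain_iff]
  exact LinearMap.continuous_of_finiteDimensional _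

lemma hasJoint_triv : 𝔊.HasJointInsertions := by
  intro n A h
  obtain ⟨W₀, hW₀⟩ := 𝔊.joint n A 𝔊.vac 𝔊.vac
  refine ⟨W₀ h • 1, fun φ ψ => ⟨((starRingEnd ℂ) (φ : ℂ) * (ψ : ℂ)) • W₀, ?_, ?_⟩⟩
  · intro f k hk
    have h1 := hW₀ f k hk
    rw [smul_apply, h1]
    change _ = ⟪(φ : ℂ), ((𝔊.word A f ψ : 𝔊.domain) : ℂ)⟫_ℂ
    conv_rhs => rw [smul_vac 𝔊 ψ, map_smul]
    change _ • ⟪(1 : ℂ), ((𝔊.word A f 𝔊.vac : 𝔊.domain) : ℂ)⟫_ℂ = _
    simp
    ring
  · simp
    ring

/-- Over the trivial background every field system extends itself. -/
def extRefl : Extension 𝔊 𝔊 where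
  ι := LinearMap.id
  ι_inj := Function.injective_id
  ι_grade := fun _ _ h => h
  ι_adj := fun _ => rfl
  ι_der := fun _ _ => rfl
  ι_rho := fun _ _ => rfl
  ι_par := fun _ => rfl
  Dold_le := by rw [domain_eq_top]; exact le_top
  agree := fun _ _ _ => rfl
  fin_gen := ⟨∅, by simp, by simp⟩

end general


/-! ### The hypotheses of the theorem are met, and its conclusion holds, in the model -/

theorem idSys_cyclic : idSys.Cyclic := by
  have h : idSys.Dfact = ⊤ := by
    rw [eq_top_iff]
    intro z _
    have h1 : (1 : ℂ) ∈ idSys.Dfact :=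
      Submodule.subset_span ⟨0, Fin.elim0, Fin.elim0, by simp [FieldSystem.word, FieldSystem.vac, trivB]⟩
    have : z = z • (1 : ℂ) := by simp
    rw [this]
    exact idSys.Dfact.smul_mem _ h1
  rw [FieldSystem.Cyclic, h]
  simp

/-- The (vanishing) stress tensor and virial field of the model. -/
def idStress : StressData idSys where
  T := fun _ _ => 0
  V := fun _ => 0
  T_tensor := fun _ _ _ => by simp
  V_vector := fun _ _ => by simp
  T_symm := fun _ _ => rfl
  T_cons := fun _ => by simp [FieldSystem.div]
  trace_eq := by simp [FieldSystem.trace, FieldSystem.div]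
  ward := affineWard_triv _ _ _ _

lemma idStress_T4 (μ ν : Fin 4) : idStress.T4 μ ν = 0 := by
  simp [StressData.T4, idStress, FieldSystem.evenPart, FieldSystem.hermPart, FieldSystem.comp]

lemma idStress_V3 (μ : Fin 4) : idStress.V3 μ = 0 := by
  simp [StressData.V3, idStress, FieldSystem.evenPart, FieldSystem.hermPart, FieldSystem.comp]

lemma improved_zero : improved idSys (fun μ ν => (extRefl idSys).ι (idStress.T4 μ ν)) 0
    = fun _ _ => 0 := by
  funext μ ν
  simp [improved, idStress_T4, FieldSystem.box]

/-- The conclusion of the theorem holds in the model (with `L = 0`). -/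
theorem idSys_conclusion : Conclusion idSys idStress := by
  refine ⟨affineWard_triv _ _ _ _, idSys, extRefl idSys, 0, by simp [extRefl], zero_mem _, map_zero _,
    map_zero _, fun _ => map_zero _, ?_, ?_, ?_, ?_, hasJoint_triv _, compat_triv _, jointAff_triv _,
    conformalWard_triv _ _, ?_, ?_⟩
  · simp [FieldSystem.div, FieldSystem.box, idStress_V3]
  · rw [improved_zero]; simp
  · rw [improved_zero]; simp [FieldSystem.div]
  · rw [improved_zero]; simp [FieldSystem.trace]
  · rw [improved_zero]; exact primary_triv _
  · intro 𝔊 eG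
    refine ⟨𝔊, extRefl 𝔊, eG, fun _ => rfl, by simp [extRefl], ?_, hasJoint_triv _, compat_triv _,
      jointAff_triv _, conformalWard_triv _ _, ?_⟩
    · refine ⟨by rw [domain_eq_top 𝔊]; exact le_top, fun A f ψ => ?_⟩
      have h1 := eG.agree 1 (fun _ => A) (fun _ => f)
      simp only [FieldSystem.word, List.ofFn_succ, List.ofFn_zero, List.prod_cons, List.prod_nil,
        mul_one] at h1
      have h2 : ∀ hψ, (⟨(ψ : ℂ), hψ⟩ : 𝔊.domain) = (ψ : ℂ) • 𝔊.vac := fun hψ =>
        Subtype.ext (by simp [FieldSystem.vac, trivB])
      rw [h2, map_smul, smul_vac idSys ψ, map_smul]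
      simp only [Submodule.coe_smul, h1]
      simp [FieldSystem.vac, trivB]
    · rw [improved_zero]
      simpa using primary_triv 𝔊

/-- **The hypotheses of `Statement` can be met**: one Hilbert space, one background, one field system that is
cyclic and carries stress data (all the hypotheses at once), and the conclusion holds for it.
A second model, on `ℂ²` with a non-scalar field and a non-unique invariant vector, is
`SanityOps.hypotheses_can_be_met_C2` in `SanityOps.lean`. -/
theorem hypotheses_can_be_met :
    ∃ (B : Background ℂ) (𝔉 : FieldSystem B) (_ : 𝔉.Cyclic) (S : StressData 𝔉), Conclusion 𝔉 S :=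
  ⟨trivB, idSys, idSys_cyclic, idStress, idSys_conclusion⟩

end Sanity
end Claimed.Open.R282
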