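import Claimed.Open.R282.SanityCone

/-!
# Result 282: checks of `Background.alg`, the algebra of a general region

`Background.alg R` enters the clauses `CompatiblyAffiliated` and `JointlyAffiliated` of `Conclusion`.  No model: everything here holds
for EVERY `Background`.

* `alg_of_isDoubleCone`, `alg_of_not_isDoubleCone`: the two branches of the definition.
* `centralizer_centralizer_alg`: `𝓜(R)'' = 𝓜(R)`: the algebra of every region is a von Neumann algebra.
* `alg_subset_centralizer`: to show that `𝓜(R)` commutes with a set it is enough to look at the double cones inside `R`.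
* `net_subset_alg`: `𝓜(O) ⊆ 𝓜(R)` for every double cone `O` with closure in `R`.
* `alg_mono`, `alg_mono_of_closure`: isotony of the extended net.
* `twist_unitary`, `alg_local`: the twist `Z` is unitary and the extended net is (twisted) local for ARBITRARY spacelike separated regions.
* `alg_empty`: the algebra of the empty region is the centre of `B(H)`.
* `isDoubleCone_image_act_iff`, `alg_cov`: `U(g) 𝓜(R) U(g)^* = 𝓜(g R)` for EVERY region `R`.
-/

open scoped Distributions ContDiff InnerProductSpace ComplexConjugate Topology SchwartzMap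
open scoped LinearPMap
open TopologicalSpace

noncomputable section

namespace Claimed.Open.R282
namespace SanityAlg

variable {H : Type} [NormedAddCommGroup H] [InnerProductSpace ℂ H] [CompleteSpace H]
variable (B : Background H)

theorem alg_of_isDoubleCone {R : Set M4} (hR : IsDoubleCone R) :
    B.alg R = (B.net R : Set (H →L[ℂ] H)) := by
  unfold Background.alg
  rw [if_pos hR]

theorem alg_of_not_isDoubleCone {R : Set M4} (hR : ¬ IsDoubleCone R) :
    B.alg R = Set.centralizer (Set.centralizer
      (⋃ O ∈ {O : Set M4 | IsDoubleCone O ∧ closure O ⊆ R}, (B.net O : Set (H →L[ℂ] H)))) := by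
  unfold Background.alg
  rw [if_neg hR]

/-- The algebra of every region is its own bicommutant. -/
theorem centralizer_centralizer_alg (R : Set M4) :
    Set.centralizer (Set.centralizer (B.alg R)) = B.alg R := by
  by_cases hR : IsDoubleCone R
  · rw [alg_of_isDoubleCone B hR]
    exact (B.net R).centralizer_centralizer
  · rw [alg_of_not_isDoubleCone B hR, Set.centralizer_centralizer_centralizer]

/-- To show that `𝓜(R)` commutes with a set `C` it is enough to look at the double cones inside `R`. -/
theorem alg_subset_centralizer {R : Set M4} {C : Set (H →L[ℂ] H)}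
    (h : ∀ O, IsDoubleCone O → O ⊆ R → (B.net O : Set (H →L[ℂ] H)) ⊆ Set.centralizer C) :
    B.alg R ⊆ Set.centralizer C := by
  by_cases hR : IsDoubleCone R
  · rw [alg_of_isDoubleCone B hR]
    exact h R hR subset_rfl
  · rw [alg_of_not_isDoubleCone B hR, ← Set.centralizer_centralizer_centralizer C]
    refine Set.centralizer_subset (Set.centralizer_subset ?_)
    refine Set.iUnion₂_subset fun O hO => ?_
    exact h O hO.1 (subset_closure.trans hO.2)

/-- `𝓜(O) ⊆ 𝓜(R)` for every double cone `O` whose closure lies in `R`. -/
theorem net_subset_alg {O R : Set M4} (hO : IsDoubleCone O) (hOR : closure O ⊆ R) :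
    (B.net O : Set (H →L[ℂ] H)) ⊆ B.alg R := by
  by_cases hR : IsDoubleCone R
  · rw [alg_of_isDoubleCone B hR]
    exact fun x hx => B.net_mono O R hO hR (subset_closure.trans hOR) x hx
  · rw [alg_of_not_isDoubleCone B hR]
    refine Set.Subset.trans ?_ Set.subset_centralizer_centralizer
    exact Set.subset_iUnion₂ (s := fun O (_ : O ∈ {O : Set M4 | IsDoubleCone O ∧ closure O ⊆ R}) =>
      (B.net O : Set (H →L[ℂ] H))) O ⟨hO, hOR⟩

/-- Isotony of the extended net, from a region that is not a double cone. -/
theorem alg_mono {R R' : Set M4} (hR : ¬ IsDoubleCone R) (h : R ⊆ R') : B.alg R ⊆ B.alg R' := by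
  rw [alg_of_not_isDoubleCone B hR, ← centralizer_centralizer_alg B R']
  refine Set.centralizer_subset (Set.centralizer_subset ?_)
  exact Set.iUnion₂_subset fun O hO => net_subset_alg B hO.1 (hO.2.trans h)

/-- Isotony of the extended net, for regions one of which contains the closure of the other. -/
theorem alg_mono_of_closure {R R' : Set M4} (h : closure R ⊆ R') : B.alg R ⊆ B.alg R' := by
  by_cases hR : IsDoubleCone R
  · rw [alg_of_isDoubleCone B hR]
    exact net_subset_alg B hR h
  · exact alg_mono B hR (subset_closure.trans h)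

/-- The statistics twist `Z = (1 + iΓ)/(1 + i)` of `Background.net_local`. -/
def twist : H →L[ℂ] H := ((1 + Complex.I)⁻¹ : ℂ) • (1 + Complex.I • B.Γ)

theorem star_twist : star (twist B) = ((1 - Complex.I)⁻¹ : ℂ) • (1 - Complex.I • B.Γ) := by
  unfold twist
  rw [star_smul, star_add, star_one, star_smul, B.Γ_sa]
  simp [sub_eq_add_neg]

theorem twist_mul_star : twist B * star (twist B) = 1 := by
  rw [star_twist]
  unfold twist
  rw [smul_mul_smul_comm]
  have h1 : (1 + Complex.I • B.Γ) * (1 - Complex.I • B.Γ) = (2 : ℂ) • (1 : H →L[ℂ] H) := by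
    rw [add_mul, mul_sub, mul_sub, one_mul, one_mul, mul_one, smul_mul_smul_comm, B.Γ_sq, Complex.I_mul_I]
    rw [neg_smul, one_smul, two_smul]
    abel
  have h2 : ((1 + Complex.I)⁻¹ * (1 - Complex.I)⁻¹ : ℂ) * 2 = 1 := by
    rw [← mul_inv]
    have : (1 + Complex.I) * (1 - Complex.I) = 2 := by
      ring_nf
      rw [Complex.I_sq]
      norm_num
    rw [this]
    norm_num
  rw [h1, smul_smul, h2, one_smul]

theorem star_mul_twist : star (twist B) * twist B = 1 := by
  rw [star_twist]
  unfold twist
  rw [smul_mul_smul_comm]
  have h1 : (1 - Complex.I • B.Γ) * (1 + Complex.I • B.Γ) = (2 : ℂ) • (1 : H →L[ℂ] H) := by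
    rw [sub_mul, mul_add, mul_add, one_mul, one_mul, mul_one, smul_mul_smul_comm, B.Γ_sq, Complex.I_mul_I]
    rw [neg_smul, one_smul, two_smul]
    abel
  have h2 : ((1 - Complex.I)⁻¹ * (1 + Complex.I)⁻¹ : ℂ) * 2 = 1 := by
    rw [← mul_inv]
    have : (1 - Complex.I) * (1 + Complex.I) = 2 := by
      ring_nf
      rw [Complex.I_sq]
      norm_num
    rw [this]
    norm_num
  rw [h1, smul_smul, h2, one_smul]

/-- The twist is unitary. -/
theorem twist_unitary : twist B ∈ unitary (H →L[ℂ] H) :=
  ⟨star_mul_twist B, twist_mul_star B⟩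

/-- In a purely bosonic theory (`Γ = 1`) there is no twist. -/
theorem twist_eq_one (h : B.Γ = 1) : twist B = 1 := by
  unfold twist
  have h1 : (1 : H →L[ℂ] H) + Complex.I • (1 : H →L[ℂ] H) = (1 + Complex.I) • (1 : H →L[ℂ] H) := by
    rw [add_smul, one_smul]
  have h2 : (1 + Complex.I : ℂ) ≠ 0 := by
    intro h0
    have := congrArg Complex.re h0
    simp at this
  rw [h, h1, smul_smul, inv_mul_cancel₀ h2, one_smul]

/-- `x` commutes with `Z y Z^*` iff `Z^* x Z` commutes with `y`. -/
theorem commute_twist_iff (x y : H →L[ℂ] H) :
    x * (twist B * y * star (twist B)) = (twist B * y * star (twist B)) * x ↔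
      (star (twist B) * x * twist B) * y = y * (star (twist B) * x * twist B) := by
  have h1 := twist_mul_star B
  have h2 := star_mul_twist B
  set Z := twist B
  constructor
  · intro h
    calc star Z * x * Z * y = star Z * (x * (Z * y * star Z)) * Z := by
          simp only [mul_assoc, h2, mul_one]
      _ = star Z * ((Z * y * star Z) * x) * Z := by rw [h]
      _ = (star Z * Z) * y * (star Z * x * Z) := by simp only [mul_assoc]
      _ = y * (star Z * x * Z) := by rw [h2, one_mul]
  · intro h
    calc x * (Z * y * star Z) = (Z * star Z) * x * (Z * y * star Z) := by rw [h1, one_mul]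
      _ = Z * ((star Z * x * Z) * y) * star Z := by simp only [mul_assoc]
      _ = Z * (y * (star Z * x * Z)) * star Z := by rw [h]
      _ = Z * y * star Z * x * (Z * star Z) := by simp only [mul_assoc]
      _ = Z * y * star Z * x := by rw [h1, mul_one]

theorem spacelikeSep_mono {S S' T T' : Set M4} (h : SpacelikeSep S T) (hS : S' ⊆ S) (hT : T' ⊆ T) :
    SpacelikeSep S' T' := fun x hx y hy => h x (hS hx) y (hT hy)

/-- **Locality of the extended net**: the algebras of ARBITRARY spacelike separated regions commute, with the statistics twist. -/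
theorem alg_local {R R' : Set M4} (h : SpacelikeSep R R') {x y : H →L[ℂ] H} (hx : x ∈ B.alg R)
    (hy : y ∈ B.alg R') :
    x * (twist B * y * star (twist B)) = (twist B * y * star (twist B)) * x := by
  -- step 1: `x` in the algebra of a double cone inside `R`
  have step1 : ∀ O, IsDoubleCone O → O ⊆ R → ∀ x ∈ B.net O, ∀ y ∈ B.alg R',
      x * (twist B * y * star (twist B)) = (twist B * y * star (twist B)) * x := by
    intro O hO hOR x hx y hy
    rw [commute_twist_iff]
    have : B.alg R' ⊆ Set.centralizer {star (twist B) * x * twist B} := by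
      refine alg_subset_centralizer B fun O' hO' hOR' y hy => ?_
      rw [Set.mem_centralizer_iff]
      intro m hm
      rw [Set.mem_singleton_iff] at hm
      subst hm
      rw [← commute_twist_iff]
      exact B.net_local O O' hO hO' (spacelikeSep_mono h hOR hOR') x hx y hy
    exact (Set.mem_centralizer_iff.1 (this hy)) _ rfl
  -- step 2: general `x`
  have : B.alg R ⊆ Set.centralizer {twist B * y * star (twist B)} := by
    refine alg_subset_centralizer B fun O hO hOR x hx => ?_
    rw [Set.mem_centralizer_iff]
    intro m hm
    rw [Set.mem_singleton_iff] at hm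
    subst hm
    exact (step1 O hO hOR x hx y hy).symm
  exact ((Set.mem_centralizer_iff.1 (this hx)) _ rfl).symm

/-- The algebra of the empty region is the centre of `B(H)`. -/
theorem alg_empty : B.alg ∅ = Set.center (H →L[ℂ] H) := by
  have h0 : ¬ IsDoubleCone (∅ : Set M4) := fun h =>
    Set.not_nonempty_empty (SanityCone.isDoubleCone_nonempty h)
  rw [alg_of_not_isDoubleCone B h0]
  have : (⋃ O ∈ {O : Set M4 | IsDoubleCone O ∧ closure O ⊆ ∅}, (B.net O : Set (H →L[ℂ] H))) = ∅ := by
    refine Set.eq_empty_of_subset_empty (Set.iUnion₂_subset fun O hO => ?_)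
    exfalso
    obtain ⟨z, hz⟩ := SanityCone.isDoubleCone_nonempty hO.1
    exact hO.2 (subset_closure hz)
  rw [this, Set.centralizer_empty]
  exact Set.centralizer_univ _

/-! ## Covariance of the extended net -/

/-- A region is a double cone iff its image under a similarity is one. -/
theorem isDoubleCone_image_act_iff (g : Sim) {R : Set M4} :
    IsDoubleCone (g.act '' R) ↔ IsDoubleCone R := by
  refine ⟨?_, SanityCone.isDoubleCone_image_act g⟩
  rintro ⟨a, b, hab, hR⟩
  refine ⟨SanityTest.invAct g a, SanityTest.invAct g b, ?_, ?_⟩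
  · rw [← SanityCone.act_sub_act_mem_openCone_iff g, SanityTest.act_invAct, SanityTest.act_invAct]
    exact hab
  · ext x
    have h : x ∈ R ↔ g.act x ∈ g.act '' R := ((SanityTest.actHomeo g).injective.mem_set_image).symm
    rw [h, hR]
    show _ ↔ (x - SanityTest.invAct g a ∈ openCone ∧ SanityTest.invAct g b - x ∈ openCone)
    rw [← SanityCone.act_sub_act_mem_openCone_iff g x, ← SanityCone.act_sub_act_mem_openCone_iff g _ x,
      SanityTest.act_invAct, SanityTest.act_invAct]
    rfl

theorem closure_image_act (g : Sim) (O : Set M4) : closure (g.act '' O) = g.act '' closure O :=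
  ((SanityTest.actHomeo g).image_closure O).symm

/-- Conjugation by a unitary carries commutants to commutants. -/
theorem conj_mem_centralizer_iff {u : H →L[ℂ] H} (hu : u ∈ unitary (H →L[ℂ] H)) {S S' : Set (H →L[ℂ] H)}
    (h : ∀ x, x ∈ S ↔ u * x * star u ∈ S') (x : H →L[ℂ] H) :
    x ∈ Set.centralizer S ↔ u * x * star u ∈ Set.centralizer S' := by
  have h1 : star u * u = 1 := hu.1
  have h2 : u * star u = 1 := hu.2
  rw [Set.mem_centralizer_iff, Set.mem_centralizer_iff]
  constructor
  · intro hx m' hm'
    have e : u * (star u * m' * u) * star u = m' := by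
      calc u * (star u * m' * u) * star u = (u * star u) * m' * (u * star u) := by simp only [mul_assoc]
        _ = m' := by rw [h2, one_mul, mul_one]
    have hm : star u * m' * u ∈ S := (h _).2 (e.symm ▸ hm')
    have hc := hx _ hm
    calc m' * (u * x * star u) = u * (star u * m' * u) * star u * (u * x * star u) := by rw [e]
      _ = u * ((star u * m' * u) * ((star u * u) * x)) * star u := by simp only [mul_assoc]
      _ = u * (x * (star u * m' * u)) * star u := by rw [h1, one_mul, hc]
      _ = u * (x * ((star u * u) * (star u * m' * u))) * star u := by rw [h1, one_mul]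
      _ = u * x * star u * (u * (star u * m' * u) * star u) := by simp only [mul_assoc]
      _ = u * x * star u * m' := by rw [e]
  · intro hx m hm
    have hc := hx _ ((h m).1 hm)
    calc m * x = (star u * u) * (m * ((star u * u) * x)) * (star u * u) := by
          rw [h1, one_mul, one_mul, mul_one]
      _ = star u * ((u * m * star u) * (u * x * star u)) * u := by simp only [mul_assoc]
      _ = star u * ((u * x * star u) * (u * m * star u)) * u := by rw [hc]
      _ = (star u * u) * (x * ((star u * u) * m)) * (star u * u) := by simp only [mul_assoc]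
      _ = x * m := by rw [h1, one_mul, one_mul, mul_one]

/-- **Covariance of the extended net**: `U(g) 𝓜(R) U(g)^* = 𝓜(g R)` for EVERY region `R`. -/
theorem alg_cov (g : Sim) (R : Set M4) (x : H →L[ℂ] H) :
    x ∈ B.alg R ↔ B.U g * x * star (B.U g) ∈ B.alg (g.act '' R) := by
  by_cases hR : IsDoubleCone R
  · rw [alg_of_isDoubleCone B hR, alg_of_isDoubleCone B (SanityCone.isDoubleCone_image_act g hR)]
    exact B.net_cov g R hR x
  · rw [alg_of_not_isDoubleCone B hR,
      alg_of_not_isDoubleCone B (fun h => hR ((isDoubleCone_image_act_iff g).1 h))]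
    refine conj_mem_centralizer_iff (B.U_unitary g) (fun x => ?_) x
    refine conj_mem_centralizer_iff (B.U_unitary g) (fun x => ?_) x
    simp only [Set.mem_iUnion, exists_prop]
    constructor
    · rintro ⟨O, ⟨hO, hOR⟩, hx⟩
      refine ⟨g.act '' O, ⟨SanityCone.isDoubleCone_image_act g hO, ?_⟩, (B.net_cov g O hO x).1 hx⟩
      rw [closure_image_act]
      exact Set.image_mono hOR
    · rintro ⟨O', ⟨hO', hOR'⟩, hx⟩
      have hsurj : g.act '' (g.act ⁻¹' O') = O' :=
        Set.image_preimage_eq O' (SanityTest.actHomeo g).surjective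
      have hO : IsDoubleCone (g.act ⁻¹' O') := (isDoubleCone_image_act_iff g).1 (hsurj.symm ▸ hO')
      refine ⟨g.act ⁻¹' O', ⟨hO, ?_⟩, (B.net_cov g _ hO x).2 (hsurj.symm ▸ hx)⟩
      have h3 : g.act '' closure (g.act ⁻¹' O') ⊆ g.act '' R := by
        rw [← closure_image_act, hsurj]
        exact hOR'
      exact (Set.image_subset_image_iff (SanityTest.actHomeo g).injective).1 h3

end SanityAlg
end Claimed.Open.R282
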