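import Claimed.Open.R282.SanityTest

/-!
# The algebraic clauses of `Conclusion`, in EVERY theory

All checked models of the hypotheses of `Statement` are static (`U = 1`), and there `T⁽⁴⁾ = V⁽³⁾ = 0`, `L = 0`: the
definitions `comp`, `evenPart`, `hermPart`, `StressData.T4`, `StressData.V3`, `box`, `div`, `trace`, `improved` are evaluated
at `0` only.  This file has no model.  It proves, for an ARBITRARY `FieldSystem` over an arbitrary `Background`: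

1. the compatibilities of the structure maps on labels which `CLAIM.md`, deviation 3, says follow from faithfulness and are
   therefore not fields of `FieldSystem`: `der_comm` (`∂_μ ∂_ν = ∂_ν ∂_μ`), `adj_der`, `par_der`, `par_adj`;
2. the calculus of the scaling components: `comp_mem`, `comp_of_mem`, `comp_of_mem_ne`, `comp_shift` (an additive map of
   degree `k` intertwines `comp Δ` and `comp (Δ + k)`), hence `comp_der`, `comp_adj`, `comp_par`, `comp_rho`;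
3. Section 2.3 of the paper ("Directness of the grading, Lorentz covariance, and the derivative grade law split symmetry,
   Hermiticity, conservation, and the trace identity"): `T⁽⁴⁾` is symmetric, conserved, Hermitian, even, of dimension four and a
   Lorentz tensor; `V⁽³⁾` is Hermitian, even, of dimension three and a Lorentz vector; `(T⁽⁴⁾)^μ_μ = ∂^μ V⁽³⁾_μ`;
4. **three clauses of `Conclusion` in general** (`improved_clauses`): for every admitted extension `e : Extension 𝔉 𝔏` and every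
   label `L` of `𝔏` with `∂^μ V⁽³⁾_μ = □ L`, the tensor `t = T⁽⁴⁾ + (1/3)(∂∂ - η□)L` is symmetric, conserved and traceless;
5. the coefficient `1/3` of (1.2) is forced (`trace_improvedWith`): with `c` in its place the tensor is still symmetric and
   conserved, and its trace is `(1 - 3c) □L`; so it is traceless iff `c = 1/3` or `□L = 0` (`trace_improvedWith_eq_zero_iff`).
-/

open scoped Distributions ContDiff InnerProductSpace ComplexConjugate Topology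
open TopologicalSpace

noncomputable section

namespace Claimed.Open.R282
namespace SanityAlgebra

/-! ### 0. Test functions -/

theorem pd_comm (μ ν : Fin 4) (f : Test) : pd μ (pd ν f) = pd ν (pd μ f) := by
  ext x
  have hf : ContDiff ℝ ∞ (f : M4 → ℂ) := f.contDiff
  have hd : Differentiable ℝ (fderiv ℝ (f : M4 → ℂ)) :=
    (hf.fderiv_right (m := 1) (by norm_cast)).differentiable (by norm_num)
  have key : ∀ a b : Fin 4, pd a (pd b f) x = fderiv ℝ (fderiv ℝ (f : M4 → ℂ)) x (ev a) (ev b) := by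
    intro a b
    rw [SanityTest.pd_apply]
    have h1 : ((pd b f : Test) : M4 → ℂ) = fun y => fderiv ℝ (f : M4 → ℂ) y (ev b) := by
      funext y; exact SanityTest.pd_apply b f y
    rw [h1]
    have h2 : HasFDerivAt (fun y => fderiv ℝ (f : M4 → ℂ) y (ev b))
        ((fderiv ℝ (fderiv ℝ (f : M4 → ℂ)) x).flip (ev b)) x := by
      have h3 := ((hd x).hasFDerivAt).clm_apply (hasFDerivAt_const (ev b) x)
      refine h3.congr_fderiv ?_
      ext v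
      simp
    rw [h2.fderiv]
    rfl
  rw [key, key]
  exact (hf.contDiffAt.isSymmSndFDerivAt (n := ∞) (by simp only [minSmoothness_of_isRCLikeNormedField]; exact WithTop.coe_le_coe.2 le_top)) (ev μ) (ev ν)

theorem conjT_pd (μ : Fin 4) (f : Test) : conjT (pd μ f) = pd μ (conjT f) := by
  ext x
  rw [SanityTest.conjT_apply, SanityTest.pd_apply, SanityTest.pd_apply]
  have hf : DifferentiableAt ℝ (f : M4 → ℂ) x := (f.contDiff.differentiable (by simp)) x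
  have h1 : ((conjT f : Test) : M4 → ℂ) = fun y => (Complex.conjCLE : ℂ →L[ℝ] ℂ) (f y) := by
    funext y; rfl
  rw [h1]
  have h2 := ((Complex.conjCLE : ℂ →L[ℝ] ℂ).hasFDerivAt (x := f x)).comp x hf.hasFDerivAt
  have h3 : fderiv ℝ (fun y => (Complex.conjCLE : ℂ →L[ℝ] ℂ) (f y)) x =
      (Complex.conjCLE : ℂ →L[ℝ] ℂ).comp (fderiv ℝ (f : M4 → ℂ) x) := h2.fderiv
  rw [h3]
  rfl

variable {H : Type} [NormedAddCommGroup H] [InnerProductSpace ℂ H] [CompleteSpace H]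
variable {B : Background H} (𝔉 : FieldSystem B)

/-! ### 1. Deviation 3: the compatibilities that follow from faithfulness -/

/-- Labels with the same operator valued distribution are equal. -/
theorem label_ext {A A' : 𝔉.F} (h : ∀ f, 𝔉.op A f = 𝔉.op A' f) : A = A' := by
  have h0 : A - A' = 0 := 𝔉.faithful _ fun f => by
    rw [map_sub, LinearMap.sub_apply, h f, sub_self]
  exact sub_eq_zero.1 h0

/-- Operators on the domain with the same matrix elements are equal. -/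
theorem end_ext_inner {X Y : Module.End ℂ 𝔉.domain}
    (h : ∀ φ ψ : 𝔉.domain, ⟪(X φ : H), (ψ : H)⟫_ℂ = ⟪(Y φ : H), (ψ : H)⟫_ℂ) : X = Y := by
  refine LinearMap.ext fun φ => Subtype.ext ?_
  exact 𝔉.domain_dense.eq_of_inner_left ℂ fun v hv => h φ ⟨v, hv⟩

/-- `∂_μ ∂_ν A = ∂_ν ∂_μ A`. -/
theorem der_comm (μ ν : Fin 4) (A : 𝔉.F) : 𝔉.der μ (𝔉.der ν A) = 𝔉.der ν (𝔉.der μ A) := by
  refine label_ext 𝔉 fun f => ?_
  rw [𝔉.op_der, 𝔉.op_der, 𝔉.op_der, 𝔉.op_der, pd_comm]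

/-- `(∂_μ A)^† = ∂_μ A^†`. -/
theorem adj_der (μ : Fin 4) (A : 𝔉.F) : 𝔉.adj (𝔉.der μ A) = 𝔉.der μ (𝔉.adj A) := by
  refine label_ext 𝔉 fun g => end_ext_inner 𝔉 fun φ ψ => ?_
  have hg : conjT (conjT g) = g := SanityTest.conjT_conjT g
  have h1 := 𝔉.op_adj (𝔉.der μ A) (conjT g) φ ψ
  have h2 := 𝔉.op_adj A (pd μ (conjT g)) φ ψ
  rw [hg] at h1
  rw [conjT_pd, hg] at h2
  rw [← h1, 𝔉.op_der, 𝔉.op_der]
  simp only [LinearMap.neg_apply, Submodule.coe_neg, inner_neg_right, inner_neg_left, h2]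

/-- The grading as a bijection of the domain: `Γ Γ ψ = ψ`. -/
theorem Γ_Γ (ψ : H) : B.Γ (B.Γ ψ) = ψ := by
  have := congrArg (fun T : H →L[ℂ] H => T ψ) B.Γ_sq
  simpa using this

/-- `op (par A) f χ = Γ op A f Γ χ`. -/
theorem op_par (A : 𝔉.F) (f : Test) (χ : 𝔉.domain) :
    (𝔉.op (𝔉.par A) f χ : H) = B.Γ (𝔉.op A f ⟨B.Γ χ, 𝔉.Γ_mem χ χ.2⟩ : H) := by
  rw [𝔉.op_Γ]
  congr 2
  exact Subtype.ext (Γ_Γ (χ : H)).symm

/-- The statistics involution commutes with differentiation. -/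
theorem par_der (μ : Fin 4) (A : 𝔉.F) : 𝔉.par (𝔉.der μ A) = 𝔉.der μ (𝔉.par A) := by
  refine label_ext 𝔉 fun f => LinearMap.ext fun χ => Subtype.ext ?_
  rw [op_par, 𝔉.op_der, 𝔉.op_der]
  simp only [LinearMap.neg_apply, Submodule.coe_neg, map_neg]
  rw [op_par]

theorem Γ_inner (x y : H) : ⟪B.Γ x, y⟫_ℂ = ⟪x, B.Γ y⟫_ℂ := by
  have h := ContinuousLinearMap.adjoint_inner_left B.Γ y x
  have h2 : ContinuousLinearMap.adjoint B.Γ = B.Γ := B.Γ_sa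
  rw [h2] at h
  exact h

/-- The statistics involution commutes with adjunction. -/
theorem par_adj (A : 𝔉.F) : 𝔉.par (𝔉.adj A) = 𝔉.adj (𝔉.par A) := by
  refine label_ext 𝔉 fun g => end_ext_inner 𝔉 fun φ ψ => ?_
  have hg : conjT (conjT g) = g := SanityTest.conjT_conjT g
  have h1 := 𝔉.op_adj (𝔉.par A) (conjT g) φ ψ
  have h2 := 𝔉.op_adj A (conjT g) ⟨B.Γ φ, 𝔉.Γ_mem φ φ.2⟩ ⟨B.Γ ψ, 𝔉.Γ_mem ψ ψ.2⟩
  rw [hg] at h1 h2
  rw [← h1, op_par, op_par, Γ_inner, ← h2, Γ_inner]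

/-! ### 2. The scaling components -/

theorem comp_mem (Δ : ℝ) (A : 𝔉.F) : 𝔉.comp Δ A ∈ 𝔉.grade Δ := Subtype.property _

theorem comp_add (Δ : ℝ) (A A' : 𝔉.F) : 𝔉.comp Δ (A + A') = 𝔉.comp Δ A + 𝔉.comp Δ A' := by
  simp [FieldSystem.comp]

theorem comp_zero (Δ : ℝ) : 𝔉.comp Δ 0 = 0 := by
  simp [FieldSystem.comp]

theorem comp_smul (Δ : ℝ) (c : ℂ) (A : 𝔉.F) : 𝔉.comp Δ (c • A) = c • 𝔉.comp Δ A := by
  unfold FieldSystem.comp
  rw [map_smul]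
  rfl

theorem symm_of_mem {Δ₀ : ℝ} {A : 𝔉.F} (hA : A ∈ 𝔉.grade Δ₀) :
    (LinearEquiv.ofBijective (DirectSum.coeLinearMap 𝔉.grade) 𝔉.grade_internal).symm A =
      DirectSum.of (fun Δ => 𝔉.grade Δ) Δ₀ ⟨A, hA⟩ := by
  rw [LinearEquiv.symm_apply_eq]
  exact (DirectSum.coeLinearMap_of 𝔉.grade Δ₀ ⟨A, hA⟩).symm

/-- A homogeneous label is its own component. -/
theorem comp_of_mem {Δ₀ : ℝ} {A : 𝔉.F} (hA : A ∈ 𝔉.grade Δ₀) : 𝔉.comp Δ₀ A = A := by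
  unfold FieldSystem.comp
  rw [symm_of_mem 𝔉 hA, DirectSum.of_eq_same]

/-- The other components of a homogeneous label vanish. -/
theorem comp_of_mem_ne {Δ₀ Δ : ℝ} {A : 𝔉.F} (hA : A ∈ 𝔉.grade Δ₀) (h : Δ ≠ Δ₀) : 𝔉.comp Δ A = 0 := by
  unfold FieldSystem.comp
  rw [symm_of_mem 𝔉 hA, DirectSum.of_eq_of_ne _ _ _ h]
  rfl

/-- Induction over homogeneous labels. -/
theorem label_induction {p : 𝔉.F → Prop} (hom : ∀ Δ, ∀ A ∈ 𝔉.grade Δ, p A) (zero : p 0)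
    (add : ∀ A A', p A → p A' → p (A + A')) (A : 𝔉.F) : p A := by
  have hA : A ∈ iSup 𝔉.grade := by
    rw [𝔉.grade_internal.submodule_iSup_eq_top]; exact Submodule.mem_top
  exact Submodule.iSup_induction 𝔉.grade (motive := p) hA hom zero add

/-- An additive map of degree `k` intertwines `comp Δ` and `comp (Δ + k)`. -/
theorem comp_shift (k : ℝ) (φ : 𝔉.F → 𝔉.F) (h0 : φ 0 = 0) (hadd : ∀ A A', φ (A + A') = φ A + φ A')
    (hdeg : ∀ Δ, ∀ A ∈ 𝔉.grade Δ, φ A ∈ 𝔉.grade (Δ + k)) (Δ : ℝ) (A : 𝔉.F) :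
    𝔉.comp (Δ + k) (φ A) = φ (𝔉.comp Δ A) := by
  refine label_induction 𝔉 (p := fun A => 𝔉.comp (Δ + k) (φ A) = φ (𝔉.comp Δ A)) ?_ ?_ ?_ A
  · intro Δ₀ A hA
    by_cases h : Δ = Δ₀
    · subst h
      rw [comp_of_mem 𝔉 hA, comp_of_mem 𝔉 (hdeg _ _ hA)]
    · rw [comp_of_mem_ne 𝔉 hA h, comp_of_mem_ne 𝔉 (hdeg _ _ hA) (fun h' => h (add_right_cancel h')), h0]
  · rw [h0, comp_zero, comp_zero, h0]
  · intro A A' hA hA'
    rw [hadd, comp_add, comp_add, hadd, hA, hA']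

theorem comp_der (μ : Fin 4) (Δ : ℝ) (A : 𝔉.F) : 𝔉.comp (Δ + 1) (𝔉.der μ A) = 𝔉.der μ (𝔉.comp Δ A) :=
  comp_shift 𝔉 1 (𝔉.der μ) (map_zero _) (map_add _) (𝔉.der_grade μ) Δ A

theorem comp_adj (Δ : ℝ) (A : 𝔉.F) : 𝔉.comp Δ (𝔉.adj A) = 𝔉.adj (𝔉.comp Δ A) := by
  have h := comp_shift 𝔉 0 𝔉.adj (map_zero _) (map_add _)
    (fun Δ A hA => by rw [add_zero]; exact 𝔉.adj_grade Δ A hA) Δ A
  rwa [add_zero] at h

theorem comp_par (Δ : ℝ) (A : 𝔉.F) : 𝔉.comp Δ (𝔉.par A) = 𝔉.par (𝔉.comp Δ A) := by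
  have h := comp_shift 𝔉 0 𝔉.par (map_zero _) (map_add _)
    (fun Δ A hA => by rw [add_zero]; exact 𝔉.par_grade Δ A hA) Δ A
  rwa [add_zero] at h

theorem comp_rho (Λ : SL2C) (Δ : ℝ) (A : 𝔉.F) : 𝔉.comp Δ (𝔉.rho Λ A) = 𝔉.rho Λ (𝔉.comp Δ A) := by
  have h := comp_shift 𝔉 0 (𝔉.rho Λ) (map_zero _) (map_add _)
    (fun Δ A hA => by rw [add_zero]; exact 𝔉.rho_grade Λ Δ A hA) Δ A
  rwa [add_zero] at h

/-! ### 3. Section 2.3: the selected components -/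

/-- `sel Δ A`: the component of dimension `Δ` of the Hermitian part of the even part of `A`. -/
def sel (Δ : ℝ) (A : 𝔉.F) : 𝔉.F := 𝔉.comp Δ (𝔉.hermPart (𝔉.evenPart A))

theorem sel_zero (Δ : ℝ) : sel 𝔉 Δ 0 = 0 := by
  simp [sel, FieldSystem.hermPart, FieldSystem.evenPart, comp_zero]

theorem sel_add (Δ : ℝ) (A A' : 𝔉.F) : sel 𝔉 Δ (A + A') = sel 𝔉 Δ A + sel 𝔉 Δ A' := by
  simp only [sel, FieldSystem.hermPart, FieldSystem.evenPart, map_add, smul_add, comp_add]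
  abel

/-- `sel Δ` is real linear (adjunction is antilinear). -/
theorem sel_smul_real (Δ : ℝ) (r : ℝ) (A : 𝔉.F) : sel 𝔉 Δ ((r : ℂ) • A) = (r : ℂ) • sel 𝔉 Δ A := by
  simp only [sel, FieldSystem.hermPart, FieldSystem.evenPart, map_add, smul_add, comp_add, comp_smul,
    map_smul, map_smulₛₗ, Complex.conj_ofReal]
  module

theorem sel_sum {ι : Type*} (s : Finset ι) (Δ : ℝ) (A : ι → 𝔉.F) :
    sel 𝔉 Δ (∑ i ∈ s, A i) = ∑ i ∈ s, sel 𝔉 Δ (A i) := by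
  classical
  induction s using Finset.induction_on with
  | empty => simp [sel_zero]
  | insert a s ha ih => rw [Finset.sum_insert ha, Finset.sum_insert ha, sel_add, ih]

theorem sel_der (μ : Fin 4) (Δ : ℝ) (A : 𝔉.F) : sel 𝔉 (Δ + 1) (𝔉.der μ A) = 𝔉.der μ (sel 𝔉 Δ A) := by
  have h : 𝔉.hermPart (𝔉.evenPart (𝔉.der μ A)) = 𝔉.der μ (𝔉.hermPart (𝔉.evenPart A)) := by
    simp only [FieldSystem.hermPart, FieldSystem.evenPart, par_der, ← map_add, ← map_smul, adj_der]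
  rw [sel, h, comp_der, sel]

theorem sel_rho (Λ : SL2C) (Δ : ℝ) (A : 𝔉.F) : sel 𝔉 Δ (𝔉.rho Λ A) = 𝔉.rho Λ (sel 𝔉 Δ A) := by
  have h : 𝔉.hermPart (𝔉.evenPart (𝔉.rho Λ A)) = 𝔉.rho Λ (𝔉.hermPart (𝔉.evenPart A)) := by
    simp only [FieldSystem.hermPart, FieldSystem.evenPart, 𝔉.par_rho, ← map_add, ← map_smul, ← 𝔉.rho_adj]
  rw [sel, h, comp_rho, sel]

theorem sel_mem (Δ : ℝ) (A : 𝔉.F) : sel 𝔉 Δ A ∈ 𝔉.grade Δ := comp_mem 𝔉 Δ _

theorem adj_hermPart (A : 𝔉.F) : 𝔉.adj (𝔉.hermPart A) = 𝔉.hermPart A := by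
  have h2 : (starRingEnd ℂ) (1 / 2 : ℂ) = 1 / 2 := by rw [map_div₀, map_one, map_ofNat]
  simp only [FieldSystem.hermPart, map_smulₛₗ, map_add, 𝔉.adj_adj, h2]
  rw [add_comm]

theorem par_evenPart (A : 𝔉.F) : 𝔉.par (𝔉.evenPart A) = 𝔉.evenPart A := by
  simp only [FieldSystem.evenPart, map_smul, map_add, 𝔉.par_par]
  rw [add_comm]

theorem adj_sel (Δ : ℝ) (A : 𝔉.F) : 𝔉.adj (sel 𝔉 Δ A) = sel 𝔉 Δ A := by
  rw [sel, ← comp_adj, adj_hermPart]

theorem par_sel (Δ : ℝ) (A : 𝔉.F) : 𝔉.par (sel 𝔉 Δ A) = sel 𝔉 Δ A := by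
  have h : 𝔉.par (𝔉.hermPart (𝔉.evenPart A)) = 𝔉.hermPart (𝔉.evenPart A) := by
    simp only [FieldSystem.hermPart, map_smul, map_add, par_adj, par_evenPart]
  rw [sel, ← comp_par, h]

variable {𝔉} (S : StressData 𝔉)

theorem T4_eq (μ ν : Fin 4) : S.T4 μ ν = sel 𝔉 4 (S.T μ ν) := rfl

theorem V3_eq (μ : Fin 4) : S.V3 μ = sel 𝔉 3 (S.V μ) := rfl

theorem T4_symm (μ ν : Fin 4) : S.T4 μ ν = S.T4 ν μ := by rw [T4_eq, T4_eq, S.T_symm]

theorem T4_mem (μ ν : Fin 4) : S.T4 μ ν ∈ 𝔉.grade 4 := sel_mem 𝔉 4 _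

theorem V3_mem (μ : Fin 4) : S.V3 μ ∈ 𝔉.grade 3 := sel_mem 𝔉 3 _

theorem adj_T4 (μ ν : Fin 4) : 𝔉.adj (S.T4 μ ν) = S.T4 μ ν := adj_sel 𝔉 4 _

theorem adj_V3 (μ : Fin 4) : 𝔉.adj (S.V3 μ) = S.V3 μ := adj_sel 𝔉 3 _

theorem par_T4 (μ ν : Fin 4) : 𝔉.par (S.T4 μ ν) = S.T4 μ ν := par_sel 𝔉 4 _

theorem par_V3 (μ : Fin 4) : 𝔉.par (S.V3 μ) = S.V3 μ := par_sel 𝔉 3 _

/-- `sel (Δ + 1) (∂^μ W_μ) = ∂^μ sel Δ W_μ`. -/
theorem sel_div (Δ : ℝ) (W : Fin 4 → 𝔉.F) : sel 𝔉 (Δ + 1) (𝔉.div W) = 𝔉.div fun μ => sel 𝔉 Δ (W μ) := by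
  unfold FieldSystem.div
  rw [sel_sum]
  exact Finset.sum_congr rfl fun μ _ => by rw [sel_smul_real, sel_der]

/-- `∂^μ T⁽⁴⁾_{μν} = 0`. -/
theorem T4_cons (ν : Fin 4) : 𝔉.div (fun μ => S.T4 μ ν) = 0 := by
  have h := sel_div (𝔉 := 𝔉) 4 fun μ => S.T μ ν
  rw [S.T_cons, sel_zero] at h
  exact h.symm

/-- `(T⁽⁴⁾)^μ{}_μ = ∂^μ V⁽³⁾_μ`. -/
theorem trace_T4 : 𝔉.trace S.T4 = 𝔉.div S.V3 := by
  have h1 : 𝔉.trace S.T4 = sel 𝔉 4 (𝔉.trace S.T) := by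
    unfold FieldSystem.trace
    rw [sel_sum]
    exact Finset.sum_congr rfl fun μ _ => by rw [sel_smul_real]; rfl
  have h2 := sel_div (𝔉 := 𝔉) 3 S.V
  have h3 : (3 : ℝ) + 1 = 4 := by norm_num
  rw [h3] at h2
  rw [h1, S.trace_eq, h2]
  rfl

/-- `T⁽⁴⁾` is a Lorentz tensor. -/
theorem T4_tensor : 𝔉.IsTensor S.T4 := by
  intro Λ μ ν
  rw [T4_eq, ← sel_rho, S.T_tensor, sel_sum]
  refine Finset.sum_congr rfl fun α _ => ?_
  rw [sel_sum]
  exact Finset.sum_congr rfl fun β _ => by rw [sel_smul_real]; rfl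

/-- `V⁽³⁾` is a Lorentz vector. -/
theorem V3_vector : 𝔉.IsVector S.V3 := by
  intro Λ μ
  rw [V3_eq, ← sel_rho, S.V_vector, sel_sum]
  exact Finset.sum_congr rfl fun β _ => by rw [sel_smul_real]; rfl

/-! ### 4. The improvement term, with an arbitrary coefficient -/

section improvement

variable (𝔊 : FieldSystem B)

/-- `T_{μν} + c (∂_μ ∂_ν - η_{μν} □) L`; `improved` is the case `c = 1/3`. -/
def improvedWith (c : ℂ) (T : Fin 4 → Fin 4 → 𝔊.F) (L : 𝔊.F) (μ ν : Fin 4) : 𝔊.F :=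
  T μ ν + c • (𝔊.der μ (𝔊.der ν L) - (etaM μ ν : ℂ) • 𝔊.box L)

theorem improved_eq (T : Fin 4 → Fin 4 → 𝔊.F) (L : 𝔊.F) : improved 𝔊 T L = improvedWith 𝔊 (1 / 3) T L := rfl

theorem etaM_comm (μ ν : Fin 4) : etaM μ ν = etaM ν μ := by
  unfold etaM
  by_cases h : μ = ν
  · subst h; rfl
  · rw [if_neg h, if_neg (Ne.symm h)]

theorem eta_mul_etaM (μ ν : Fin 4) : eta μ * etaM μ ν = if μ = ν then 1 else 0 := by
  unfold etaM eta
  by_cases h : μ = ν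
  · subst h
    by_cases h0 : μ = 0 <;> simp [h0]
  · simp [h]

theorem improvedWith_symm (c : ℂ) {T : Fin 4 → Fin 4 → 𝔊.F} (hT : ∀ μ ν, T μ ν = T ν μ) (L : 𝔊.F)
    (μ ν : Fin 4) : improvedWith 𝔊 c T L μ ν = improvedWith 𝔊 c T L ν μ := by
  unfold improvedWith
  rw [hT μ ν, der_comm 𝔊 μ ν L, etaM_comm μ ν]

/-- `∂^μ (∂_μ ∂_ν - η_{μν} □) L = 0`: the improvement term is identically conserved. -/
theorem div_improvedWith (c : ℂ) (T : Fin 4 → Fin 4 → 𝔊.F) (L : 𝔊.F) (ν : Fin 4) :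
    𝔊.div (fun μ => improvedWith 𝔊 c T L μ ν) = 𝔊.div fun μ => T μ ν := by
  have h1 : ∀ μ, 𝔊.der μ (𝔊.der μ (𝔊.der ν L)) = 𝔊.der ν (𝔊.der μ (𝔊.der μ L)) := fun μ => by
    rw [der_comm 𝔊 μ ν L, der_comm 𝔊 μ ν (𝔊.der μ L)]
  have h2 : ∑ μ, (eta μ : ℂ) • 𝔊.der μ (𝔊.der μ (𝔊.der ν L)) = 𝔊.der ν (𝔊.box L) := by
    unfold FieldSystem.box
    rw [map_sum]
    exact Finset.sum_congr rfl fun μ _ => by rw [h1, map_smul]
  have h3 : ∑ μ, (eta μ : ℂ) • 𝔊.der μ ((etaM μ ν : ℂ) • 𝔊.box L) = 𝔊.der ν (𝔊.box L) := by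
    rw [Finset.sum_eq_single ν]
    · rw [map_smul, smul_smul, ← Complex.ofReal_mul, eta_mul_etaM, if_pos rfl]; simp
    · intro μ _ hμ
      rw [map_smul, smul_smul, ← Complex.ofReal_mul, eta_mul_etaM, if_neg hμ]; simp
    · intro h; exact absurd (Finset.mem_univ ν) h
  have h4 : ∀ μ, (eta μ : ℂ) • 𝔊.der μ (improvedWith 𝔊 c T L μ ν) =
      (eta μ : ℂ) • 𝔊.der μ (T μ ν) + c • ((eta μ : ℂ) • 𝔊.der μ (𝔊.der μ (𝔊.der ν L)) -
        (eta μ : ℂ) • 𝔊.der μ ((etaM μ ν : ℂ) • 𝔊.box L)) := by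
    intro μ
    unfold improvedWith
    simp only [map_add, map_sub, map_smul]
    module
  unfold FieldSystem.div
  rw [Finset.sum_congr rfl fun μ _ => h4 μ, Finset.sum_add_distrib, ← Finset.smul_sum,
    Finset.sum_sub_distrib, h2, h3, sub_self, smul_zero, add_zero]

/-- The trace of the improvement term is `-3 □ L`. -/
theorem trace_improvedWith (c : ℂ) (T : Fin 4 → Fin 4 → 𝔊.F) (L : 𝔊.F) :
    𝔊.trace (improvedWith 𝔊 c T L) = 𝔊.trace T - (3 * c) • 𝔊.box L := by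
  have h : ∀ μ, (eta μ : ℂ) • improvedWith 𝔊 c T L μ μ =
      (eta μ : ℂ) • T μ μ + c • ((eta μ : ℂ) • 𝔊.der μ (𝔊.der μ L)) - c • 𝔊.box L := by
    intro μ
    have h1 : (eta μ : ℂ) * (etaM μ μ : ℂ) = 1 := by
      rw [← Complex.ofReal_mul, eta_mul_etaM, if_pos rfl]; simp
    have h2 : (eta μ : ℂ) • (etaM μ μ : ℂ) • 𝔊.box L = 𝔊.box L := by rw [smul_smul, h1, one_smul]
    unfold improvedWith
    rw [smul_add, smul_comm, smul_sub, h2, smul_sub]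
    abel
  have h5 : ∑ μ, (eta μ : ℂ) • 𝔊.der μ (𝔊.der μ L) = 𝔊.box L := rfl
  unfold FieldSystem.trace
  rw [Finset.sum_congr rfl fun μ _ => h μ, Finset.sum_sub_distrib, Finset.sum_add_distrib,
    ← Finset.smul_sum, h5]
  simp only [Finset.sum_const, Finset.card_univ, Fintype.card_fin]
  module

end improvement

/-! ### 5. Three clauses of `Conclusion`, in every theory -/

section clauses

variable {𝔏 : FieldSystem B} (e : Extension 𝔉 𝔏)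

theorem ι_div (W : Fin 4 → 𝔉.F) : e.ι (𝔉.div W) = 𝔏.div fun μ => e.ι (W μ) := by
  unfold FieldSystem.div
  rw [map_sum]
  exact Finset.sum_congr rfl fun μ _ => by rw [map_smul, e.ι_der]

theorem ι_trace (T : Fin 4 → Fin 4 → 𝔉.F) : e.ι (𝔉.trace T) = 𝔏.trace fun μ ν => e.ι (T μ ν) := by
  unfold FieldSystem.trace
  rw [map_sum]
  exact Finset.sum_congr rfl fun μ _ => by rw [map_smul]

/-- With any coefficient `c`, for any label `L` of an admitted extension with `∂^μ V⁽³⁾_μ = □ L`: the tensor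
`T⁽⁴⁾ + c (∂∂ - η□) L` is symmetric and conserved, and its trace is `(1 - 3c) □ L`. -/
theorem improvedWith_clauses (c : ℂ) (L : 𝔏.F) (hL : e.ι (𝔉.div S.V3) = 𝔏.box L) :
    (∀ μ ν, improvedWith 𝔏 c (fun μ ν => e.ι (S.T4 μ ν)) L μ ν
      = improvedWith 𝔏 c (fun μ ν => e.ι (S.T4 μ ν)) L ν μ) ∧
    (∀ ν, 𝔏.div (fun μ => improvedWith 𝔏 c (fun μ ν => e.ι (S.T4 μ ν)) L μ ν) = 0) ∧
    𝔏.trace (improvedWith 𝔏 c (fun μ ν => e.ι (S.T4 μ ν)) L) = (1 - 3 * c) • 𝔏.box L := by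
  refine ⟨fun μ ν => improvedWith_symm 𝔏 c (fun μ ν => by rw [T4_symm S μ ν]) L μ ν, fun ν => ?_, ?_⟩
  · rw [div_improvedWith, ← ι_div e fun μ => S.T4 μ ν, T4_cons, map_zero]
  · rw [trace_improvedWith, ← ι_trace e S.T4, trace_T4, hL]
    module

/-- **Three clauses of `Conclusion`, in their very words, hold in every theory** as soon as `∂^μ V⁽³⁾_μ = □ L`:
the improved tensor (1.2) is symmetric, conserved and traceless. -/
theorem improved_clauses (L : 𝔏.F) (hL : e.ι (𝔉.div S.V3) = 𝔏.box L) :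
    (∀ μ ν, improved 𝔏 (fun μ ν => e.ι (S.T4 μ ν)) L μ ν
      = improved 𝔏 (fun μ ν => e.ι (S.T4 μ ν)) L ν μ) ∧
    (∀ ν, 𝔏.div (fun μ => improved 𝔏 (fun μ ν => e.ι (S.T4 μ ν)) L μ ν) = 0) ∧
    𝔏.trace (improved 𝔏 (fun μ ν => e.ι (S.T4 μ ν)) L) = 0 := by
  obtain ⟨h1, h2, h3⟩ := improvedWith_clauses S e (1 / 3) L hL
  refine ⟨h1, h2, ?_⟩
  rw [improved_eq, h3]
  have : (1 - 3 * (1 / 3 : ℂ)) = 0 := by norm_num
  rw [this, zero_smul]

/-- **The coefficient `1/3` of (1.2) is forced**: with `c` in its place the tensor is traceless iff `c = 1/3` or `□ L = 0`. -/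
theorem trace_improvedWith_eq_zero_iff (c : ℂ) (L : 𝔏.F) (hL : e.ι (𝔉.div S.V3) = 𝔏.box L) :
    𝔏.trace (improvedWith 𝔏 c (fun μ ν => e.ι (S.T4 μ ν)) L) = 0 ↔ c = 1 / 3 ∨ 𝔏.box L = 0 := by
  rw [(improvedWith_clauses S e c L hL).2.2, smul_eq_zero]
  refine or_congr ⟨fun h => ?_, fun h => ?_⟩ Iff.rfl
  · linear_combination (-1 / 3 : ℂ) * h
  · rw [h]; norm_num

/-- Conversely the trace clause of `Conclusion` alone forces the relation `∂^μ V⁽³⁾_μ = □ L`: the two clauses are equivalent. -/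
theorem trace_improved_eq_zero_iff (L : 𝔏.F) :
    𝔏.trace (improved 𝔏 (fun μ ν => e.ι (S.T4 μ ν)) L) = 0 ↔ e.ι (𝔉.div S.V3) = 𝔏.box L := by
  rw [improved_eq, trace_improvedWith, ← ι_trace e S.T4, trace_T4]
  have : (3 * (1 / 3 : ℂ)) = 1 := by norm_num
  rw [this, one_smul, sub_eq_zero]

end clauses

end SanityAlgebra
end Claimed.Open.R282
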