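import Claimed.Open.R282.SanityTest

/-!
# Result 282: product tests are total; joint distributions and insertions are unique

`Statement.lean` characterises the joint distribution `⟨φ, A_1(x_1) ⋯ A_n(x_n) ψ⟩` only through its
values on factorised kernels `f_1 ⊗ ⋯ ⊗ f_n` (`FieldSystem.joint`, `IsJointDist`), and an insertion with
a joint kernel `h` through "some" such distribution (`IsInsertion`).  The docstring of `IsJointDist` and
item 9 of `CLAIM.md` say that this determines the objects "because product tests are total".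
This file proves that sentence.

* `jt_total_aux`: on a finite-dimensional real normed space, a distribution which kills all translates
  of arbitrarily concentrated non-negative normalised test functions is zero.  Proof: on `𝓓_K` the
  distribution is bounded by finitely many sup norms of iterated derivatives (`jt_bound`); in the Banach
  space `JtV` of the corresponding jets, the jet of `h ⋆ ρ` is the Bochner integral of `h(y)` times the jets
  of the translates of `ρ` (`jt_jet_conv`, through the formula `jt_iteratedFDeriv_conv` for the derivatives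
  of a convolution), hence lies in the closed span of these jets (`jt_integral_mem_closure`), so that
  `h ⋆ ρ` is killed (`jt_zero_of_mem_closure`); and the jet of `h ⋆ ρ = ρ ⋆ h` tends to the jet of `h`.
* `tensor_total`: **a distribution on `(ℝ⁴)^n` which vanishes on all factorised kernels vanishes.**
* `isJointDist_unique`, `existsUnique_isJointDist`: the `∃ W` of `FieldSystem.joint` is an `∃!`.
* `isInsertion_unique`: an insertion is determined by the fields and the kernel.
* `isInsertion_tensor`: for a factorised kernel it is the ordered product of the smeared fields.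
* `localAlg_le_jointAlg`: `localAlg K ≤ jointAlg K` (claimed in the docstring of `jointAlg`), so that the
  Ward identities of the conclusion, stated on `jointAlg`, contain those on `localAlg`.
-/

open scoped Distributions ContDiff InnerProductSpace ComplexConjugate Topology SchwartzMap
open scoped BoundedContinuousFunction Convolution
open TopologicalSpace MeasureTheory

noncomputable section

namespace Claimed.Open.R282
namespace SanityJoint

open Sanity SanityTest

/-! ## 1. A distribution that kills the translates of approximate units vanishes -/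

section general

variable {X : Type*} [NormedAddCommGroup X] [NormedSpace ℝ X]

/-- The Banach space of jets. -/
def JtV (X : Type*) [NormedAddCommGroup X] [NormedSpace ℝ X] (s : Finset ℕ) : Type _ :=
  (i : s) → X →ᵇ (X [×(i : ℕ)]→L[ℝ] ℂ)

instance jtVNormedAddCommGroup (s : Finset ℕ) : NormedAddCommGroup (JtV X s) :=
  inferInstanceAs (NormedAddCommGroup ((i : s) → X →ᵇ (X [×(i : ℕ)]→L[ℝ] ℂ)))
instance jtVNormedSpaceReal (s : Finset ℕ) : NormedSpace ℝ (JtV X s) :=
  inferInstanceAs (NormedSpace ℝ ((i : s) → X →ᵇ (X [×(i : ℕ)]→L[ℝ] ℂ)))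
instance jtVNormedSpaceComplex (s : Finset ℕ) : NormedSpace ℂ (JtV X s) :=
  inferInstanceAs (NormedSpace ℂ ((i : s) → X →ᵇ (X [×(i : ℕ)]→L[ℝ] ℂ)))
instance jtVCompleteSpace (s : Finset ℕ) : CompleteSpace (JtV X s) :=
  inferInstanceAs (CompleteSpace ((i : s) → X →ᵇ (X [×(i : ℕ)]→L[ℝ] ℂ)))

lemma jtV_norm_apply_le {s : Finset ℕ} (v : JtV X s) (i : s) (x : X) : ‖v i x‖ ≤ ‖v‖ :=
  ((v i).norm_coe_le_norm x).trans (norm_le_pi_norm (f := v) i)

/-- Evaluation of a jet. -/
def jtEval {s : Finset ℕ} (i : s) (x : X) : JtV X s →L[ℝ] (X [×(i : ℕ)]→L[ℝ] ℂ) :=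
  LinearMap.mkContinuous
    { toFun := fun v => v i x
      map_add' := fun _ _ => rfl
      map_smul' := fun _ _ => rfl } 1 (fun v => by rw [one_mul]; exact jtV_norm_apply_le v i x)

lemma jtEval_apply {s : Finset ℕ} (i : s) (x : X) (v : JtV X s) : jtEval i x v = v i x := rfl

lemma jt_bdd (f : 𝓓((⊤ : Opens X), ℂ)) (i : ℕ) : ∃ C, ∀ x, ‖iteratedFDeriv ℝ i f x‖ ≤ C :=
  (f.contDiff.continuous_iteratedFDeriv (by exact_mod_cast le_top)).bounded_above_of_compact_support
    (f.hasCompactSupport.iteratedFDeriv i)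

/-- The translate by `y` of the `i`-th derivative of a test function, as a bounded continuous
function. -/
def jtB (f : 𝓓((⊤ : Opens X), ℂ)) (i : ℕ) (y : X) : X →ᵇ (X [×i]→L[ℝ] ℂ) :=
  BoundedContinuousFunction.ofNormedAddCommGroup (fun x => iteratedFDeriv ℝ i f (x - y))
    ((f.contDiff.continuous_iteratedFDeriv (by exact_mod_cast le_top)).comp
      (continuous_id.sub continuous_const))
    (Classical.choose (jt_bdd f i)) (fun x => Classical.choose_spec (jt_bdd f i) (x - y))

lemma jtB_apply (f : 𝓓((⊤ : Opens X), ℂ)) (i : ℕ) (y x : X) :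
    jtB f i y x = iteratedFDeriv ℝ i f (x - y) := rfl

lemma jtB_continuous (f : 𝓓((⊤ : Opens X), ℂ)) (i : ℕ) : Continuous (jtB f i) := by
  have huc : UniformContinuous (iteratedFDeriv ℝ i f) :=
    (f.hasCompactSupport.iteratedFDeriv i).uniformContinuous_of_continuous
      (f.contDiff.continuous_iteratedFDeriv (by exact_mod_cast le_top))
  rw [Metric.continuous_iff]
  intro y ε hε
  obtain ⟨δ, hδ, h⟩ := Metric.uniformContinuous_iff.mp huc (ε / 2) (half_pos hε)
  refine ⟨δ, hδ, fun y' hy' => ?_⟩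
  refine lt_of_le_of_lt ((BoundedContinuousFunction.dist_le (half_pos hε).le).mpr fun x => ?_)
    (half_lt_self hε)
  exact (h (by rw [dist_sub_left]; exact hy')).le

/-- The jet of the translate by `y` of a test function. -/
def jtT (s : Finset ℕ) (f : 𝓓((⊤ : Opens X), ℂ)) (y : X) : JtV X s := fun i => jtB f i y

lemma jtT_continuous (s : Finset ℕ) (f : 𝓓((⊤ : Opens X), ℂ)) : Continuous (jtT s f) :=
  continuous_pi fun i : s => jtB_continuous f i

/-- The jet map on `𝓓_K`. -/
def jtJ (K : Compacts X) (s : Finset ℕ) : 𝓓_{K}(X, ℂ) →ₗ[ℂ] JtV X s where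
  toFun f := fun i => ContDiffMapSupportedIn.structureMapCLM ℂ ⊤ i f
  map_add' f g := by
    funext i; exact map_add (ContDiffMapSupportedIn.structureMapCLM ℂ ⊤ (i : ℕ)) f g
  map_smul' c f := by
    funext i; exact map_smul (ContDiffMapSupportedIn.structureMapCLM ℂ ⊤ (i : ℕ)) c f

lemma jtJ_apply (K : Compacts X) (s : Finset ℕ) (f : 𝓓_{K}(X, ℂ)) (i : s) (x : X) :
    jtJ K s f i x = iteratedFDeriv ℝ i f x := by
  change ContDiffMapSupportedIn.structureMapCLM ℂ ⊤ (i : ℕ) f x = _
  rw [ContDiffMapSupportedIn.structureMapCLM_top_apply]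

/-- A distribution on `𝓓_K` is bounded by finitely many of the defining seminorms. -/
lemma jt_bound (K : Compacts X) (W : 𝓓_{K}(X, ℂ) →L[ℂ] ℂ) :
    ∃ (s : Finset ℕ) (C : ℝ), 0 ≤ C ∧ ∀ f, ‖W f‖ ≤ C * ‖jtJ K s f‖ := by
  obtain ⟨s, C, -, h⟩ := Seminorm.bound_of_continuous
    (ContDiffMapSupportedIn.withSeminorms ℂ X ℂ ⊤ K) ((normSeminorm ℂ ℂ).comp W.toLinearMap)
    (continuous_norm.comp W.continuous)
  refine ⟨s, C, C.2, fun f => ?_⟩
  have h1 := h f
  refine h1.trans ?_
  change (C : ℝ) * _ ≤ _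
  refine mul_le_mul_of_nonneg_left ?_ C.2
  refine Seminorm.finset_sup_apply_le (norm_nonneg _) fun i hi => ?_
  exact norm_le_pi_norm (f := jtJ K s f) ⟨i, hi⟩

lemma jt_zero_of_mem_closure (K : Compacts X) (W : 𝓓_{K}(X, ℂ) →L[ℂ] ℂ) (s : Finset ℕ) (C : ℝ)
    (hb : ∀ f, ‖W f‖ ≤ C * ‖jtJ K s f‖) (c : 𝓓_{K}(X, ℂ))
    (hc : jtJ K s c ∈ (((LinearMap.ker W.toLinearMap).map (jtJ K s)).restrictScalars
      ℝ).topologicalClosure) : W c = 0 := by
  have hC : 0 ≤ C ∨ C < 0 := le_or_gt 0 C
  have hc' : jtJ K s c ∈ closure (((LinearMap.ker W.toLinearMap).map (jtJ K s) : Submodule ℂ _) :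
      Set (JtV X s)) := hc
  rw [Metric.mem_closure_iff] at hc'
  rw [← norm_le_zero_iff]
  refine le_of_forall_pos_le_add fun ε hε => ?_
  obtain ⟨b, hb', hd⟩ := hc' (ε / (|C| + 1)) (by positivity)
  obtain ⟨g, hg, rfl⟩ := hb'
  have hg0 : W g = 0 := hg
  have h1 : W c = W (c - g) := by rw [map_sub, hg0, sub_zero]
  rw [h1, zero_add]
  refine (hb _).trans ?_
  rw [map_sub, ← dist_eq_norm]
  calc C * dist (jtJ K s c) (jtJ K s g) ≤ (|C| + 1) * dist (jtJ K s c) (jtJ K s g) :=
        mul_le_mul_of_nonneg_right (by linarith [le_abs_self C]) dist_nonneg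
    _ ≤ (|C| + 1) * (ε / (|C| + 1)) := mul_le_mul_of_nonneg_left hd.le (by positivity)
    _ = ε := by field_simp

/-- A Bochner integral lies in the closure of every subspace that contains the integrand. -/
lemma jt_integral_mem_closure {Z : Type*} [MeasurableSpace Z] (μ : Measure Z) {V : Type*}
    [NormedAddCommGroup V] [NormedSpace ℝ V] [CompleteSpace V]
    (S : Submodule ℝ V) {G : Z → V} (hG : Integrable G μ) (h : ∀ y, G y ∈ S) :
    ∫ y, G y ∂μ ∈ S.topologicalClosure := by
  have : IsClosed (S.topologicalClosure : Set V) := S.isClosed_topologicalClosure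
  have h1 := (S.topologicalClosure.mkQL).integral_comp_comm hG
  have h2 : ∀ y, S.topologicalClosure.mkQL (G y) = 0 := fun y => by
    rw [Submodule.mkQL_apply, Submodule.mkQ_apply, Submodule.Quotient.mk_eq_zero]
    exact S.le_topologicalClosure (h y)
  simp only [h2, integral_zero] at h1
  rw [Submodule.mkQL_apply, Submodule.mkQ_apply, eq_comm, Submodule.Quotient.mk_eq_zero] at h1
  exact h1

variable [FiniteDimensional ℝ X]
  [MeasurableSpace X] [BorelSpace X] (μ : Measure X) [μ.IsAddHaarMeasure]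

/-- derivative of a convolution -/
lemma jt_hasFDerivAt_conv {Y : Type*} [NormedAddCommGroup Y] [NormedSpace ℝ Y] [NormedSpace ℂ Y]
    [IsScalarTower ℝ ℂ Y] {a : X → ℂ} (ha : LocallyIntegrable a μ) {G : X → Y}
    (hG : ContDiff ℝ 1 G) (hc : HasCompactSupport G) (x : X) :
    HasFDerivAt (fun x => ∫ y, a y • G (x - y) ∂μ) (∫ y, a y • fderiv ℝ G (x - y) ∂μ) x := by
  have h := hc.hasFDerivAt_convolution_right
    (ContinuousLinearMap.lsmul ℝ ℂ : ℂ →L[ℝ] Y →L[ℝ] Y) ha hG x
  have e : ((a ⋆[(ContinuousLinearMap.lsmul ℝ ℂ : ℂ →L[ℝ] Y →L[ℝ] Y).precompR X, μ] fderiv ℝ G) x)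
      = ∫ y, a y • fderiv ℝ G (x - y) ∂μ := by
    rw [convolution_def]
    refine integral_congr_ae (Filter.Eventually.of_forall fun y => ?_)
    ext v
    simp [ContinuousLinearMap.precompR_apply]
  rw [e] at h
  exact h

lemma jt_iteratedFDeriv_conv {a : X → ℂ} (ha : LocallyIntegrable a μ) {f : X → ℂ}
    (hf : ContDiff ℝ ∞ f) (hc : HasCompactSupport f) (i : ℕ) :
    iteratedFDeriv ℝ i (fun x => ∫ y, a y • f (x - y) ∂μ)
      = fun x => ∫ y, a y • iteratedFDeriv ℝ i f (x - y) ∂μ := by
  induction i with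
  | zero =>
    funext x
    rw [iteratedFDeriv_zero_eq_comp]
    simp only [Function.comp]
    have := LinearIsometry.integral_comp_comm (𝕜 := ℝ) (E := ℂ) (F := X [×0]→L[ℝ] ℂ) (μ := μ)
      (continuousMultilinearCurryFin0 ℝ X ℂ).symm.toLinearIsometry
      (fun y => a y • f (x - y))
    refine this.symm.trans ?_
    refine integral_congr_ae (Filter.Eventually.of_forall fun y => ?_)
    ext m
    simp
  | succ i ih =>
    rw [iteratedFDeriv_succ_eq_comp_left, ih]
    funext x
    simp only [Function.comp]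
    rw [(jt_hasFDerivAt_conv μ ha (G := iteratedFDeriv ℝ i f)
      (hf.iteratedFDeriv_right (by exact_mod_cast le_top)) (hc.iteratedFDeriv i) x).fderiv]
    have := LinearIsometry.integral_comp_comm (𝕜 := ℝ) (E := X →L[ℝ] X [×i]→L[ℝ] ℂ)
      (F := X [×(i+1)]→L[ℝ] ℂ) (μ := μ)
      (continuousMultilinearCurryLeftEquiv ℝ (fun _ : Fin (i + 1) => X) ℂ).symm.toLinearIsometry
      (fun y => a y • fderiv ℝ (iteratedFDeriv ℝ i f) (x - y))
    refine this.symm.trans ?_
    refine integral_congr_ae (Filter.Eventually.of_forall fun y => ?_)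
    ext m
    simp [iteratedFDeriv_succ_apply_left]

omit [FiniteDimensional ℝ X] in
lemma jtT_integrable (s : Finset ℕ) {a : X → ℂ} (ha : Continuous a) (hac : HasCompactSupport a)
    (f : 𝓓((⊤ : Opens X), ℂ)) : Integrable (fun y => a y • jtT s f y) μ :=
  (ha.smul (jtT_continuous s f)).integrable_of_hasCompactSupport hac.smul_right

/-- The jet of a convolution is the Bochner integral of the jets of the translates. -/
lemma jt_jet_conv (s : Finset ℕ) {a : X → ℂ} (ha : Continuous a) (hac : HasCompactSupport a)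
    (f c : 𝓓((⊤ : Opens X), ℂ)) (hc : ∀ x, c x = ∫ y, a y • f (x - y) ∂μ) :
    jtT s c 0 = ∫ y, a y • jtT s f y ∂μ := by
  funext i
  ext x : 1
  have h1 := (jtEval i x).integral_comp_comm (jtT_integrable μ s ha hac f)
  have h2 : (c : X → ℂ) = fun x => ∫ y, a y • f (x - y) ∂μ := funext hc
  change iteratedFDeriv ℝ i c (x - 0) = jtEval i x (∫ y, a y • jtT s f y ∂μ)
  rw [h2, jt_iteratedFDeriv_conv μ (ha.locallyIntegrable) f.contDiff f.hasCompactSupport, sub_zero,
    ← h1]
  rfl

omit [FiniteDimensional ℝ X] [MeasurableSpace X] [BorelSpace X] in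
/-- A test function supported in `K`, as an element of `𝓓_K`. -/
def jtK (K : Compacts X) (g : 𝓓((⊤ : Opens X), ℂ)) (hg : Function.support g ⊆ K) : 𝓓_{K}(X, ℂ) :=
  ContDiffMapSupportedIn.of_support_subset g.contDiff hg

omit [FiniteDimensional ℝ X] [MeasurableSpace X] [BorelSpace X] in
lemma jtJ_jtK (K : Compacts X) (s : Finset ℕ) (g : 𝓓((⊤ : Opens X), ℂ))
    (hg : Function.support g ⊆ K) : jtJ K s (jtK K g hg) = jtT s g 0 := by
  funext i
  ext x : 1
  rw [jtJ_apply]
  change _ = iteratedFDeriv ℝ i g (x - 0)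
  rw [sub_zero]
  rfl

omit [FiniteDimensional ℝ X] [MeasurableSpace X] [BorelSpace X] in
lemma jt_ofSupportedIn_jtK (K : Compacts X) (g : 𝓓((⊤ : Opens X), ℂ))
    (hg : Function.support g ⊆ K) :
    TestFunction.ofSupportedIn (Ω := (⊤ : Opens X)) (K := K) (fun _ _ => trivial) (jtK K g hg) = g := by
  ext x
  rfl

omit [FiniteDimensional ℝ X] [MeasurableSpace X] [BorelSpace X] in
/-- The translate `x ↦ g (x - y)` of a test function. -/
def jtTr (g : 𝓓((⊤ : Opens X), ℂ)) (y : X) : 𝓓((⊤ : Opens X), ℂ) :=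
  ⟨fun x => g (x - y), g.contDiff.comp (contDiff_id.sub contDiff_const),
    g.hasCompactSupport.comp_homeomorph (Homeomorph.subRight y), fun _ _ => trivial⟩

omit [FiniteDimensional ℝ X] [MeasurableSpace X] [BorelSpace X] in
lemma jtT_jtTr (s : Finset ℕ) (g : 𝓓((⊤ : Opens X), ℂ)) (y : X) :
    jtT s (jtTr g y) 0 = jtT s g y := by
  funext i
  ext x : 1
  change iteratedFDeriv ℝ i (fun x => g (x - y)) (x - 0) = iteratedFDeriv ℝ i g (x - y)
  rw [iteratedFDeriv_comp_sub, sub_zero]

/-- The convolution of two test functions, as a test function. -/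
def jtConv (a f : 𝓓((⊤ : Opens X), ℂ)) : 𝓓((⊤ : Opens X), ℂ) :=
  ⟨fun x => ∫ y, a y • f (x - y) ∂μ,
    f.hasCompactSupport.contDiff_convolution_right (ContinuousLinearMap.lsmul ℝ ℂ)
      a.continuous.locallyIntegrable f.contDiff,
    a.hasCompactSupport.convolution (ContinuousLinearMap.lsmul ℝ ℂ) f.hasCompactSupport,
    fun _ _ => trivial⟩

lemma jtConv_apply (a f : 𝓓((⊤ : Opens X), ℂ)) (x : X) :
    jtConv μ a f x = ∫ y, a y • f (x - y) ∂μ := rfl

lemma jtConv_comm (a f : 𝓓((⊤ : Opens X), ℂ)) (x : X) :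
    jtConv μ a f x = ∫ y, f y • a (x - y) ∂μ := by
  rw [jtConv_apply, ← integral_sub_left_eq_self (fun y => a y • f (x - y)) μ x]
  refine integral_congr_ae (Filter.Eventually.of_forall fun y => ?_)
  simp [mul_comm]

/-- If a distribution kills all translates of arbitrarily concentrated approximate units, then it
vanishes. -/
theorem jt_total_aux (W : 𝓓((⊤ : Opens X), ℂ) →L[ℂ] ℂ)
    (hρ : ∀ r > 0, ∃ ρ : 𝓓((⊤ : Opens X), ℂ), (∀ x, ρ x ≠ 0 → ‖x‖ < r) ∧
      (∀ x, ρ x = (‖ρ x‖ : ℂ)) ∧ ∫ x, ρ x ∂μ = 1 ∧ ∀ y, W (jtTr ρ y) = 0)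
    (h : 𝓓((⊤ : Opens X), ℂ)) : W h = 0 := by
  set K : Compacts X := ⟨Metric.cthickening 1 (tsupport h), h.hasCompactSupport.isCompact.cthickening⟩
    with hK
  have hKmem : ∀ y x : X, h y ≠ 0 → ‖x - y‖ < 1 → x ∈ K := fun y x hy hxy =>
    Metric.mem_cthickening_of_dist_le x y 1 _ (subset_tsupport _ hy) (by rw [dist_eq_norm]; exact hxy.le)
  set WK : 𝓓_{K}(X, ℂ) →L[ℂ] ℂ :=
    W.comp (TestFunction.ofSupportedInCLM ℂ (Ω := (⊤ : Opens X)) (K := K) (fun _ _ => trivial)) with hWK
  have hWKa : ∀ (g : 𝓓((⊤ : Opens X), ℂ)) (hg : Function.support g ⊆ K), WK (jtK K g hg) = W g := by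
    intro g hg
    change W (TestFunction.ofSupportedIn (Ω := (⊤ : Opens X)) (K := K) (fun _ _ => trivial)
      (jtK K g hg)) = W g
    rw [jt_ofSupportedIn_jtK]
  obtain ⟨s, C, hC, hb⟩ := jt_bound K WK
  have hhK : Function.support h ⊆ K := fun x hx => hKmem x x hx (by simp)
  rw [← norm_le_zero_iff]
  refine le_of_forall_pos_le_add fun ε hε => ?_
  rw [zero_add]
  -- the radius
  obtain ⟨r, hr, hcont⟩ := Metric.continuous_iff.mp (jtT_continuous s h) 0 (ε / (C + 1)) (by positivity)
  obtain ⟨ρ, hρs, hρn, hρi, hρW⟩ := hρ (min r 1) (lt_min hr one_pos)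
  have hcK : Function.support (jtConv μ h ρ) ⊆ K := by
    intro x hx
    by_contra hxK
    apply hx
    rw [jtConv_apply]
    refine integral_eq_zero_of_ae (Filter.Eventually.of_forall fun y => ?_)
    by_contra hy
    have hy' : h y • ρ (x - y) ≠ 0 := hy
    rw [smul_ne_zero_iff] at hy'
    exact hxK (hKmem y x hy'.1 ((hρs _ hy'.2).trans_le (min_le_right _ _)))
  -- the convolution is killed
  have h1 : W (jtConv μ h ρ) = 0 := by
    rw [← hWKa _ hcK]
    refine jt_zero_of_mem_closure K WK s C hb _ ?_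
    rw [jtJ_jtK, jt_jet_conv μ s h.continuous h.hasCompactSupport ρ (jtConv μ h ρ) (fun _ => rfl)]
    refine jt_integral_mem_closure μ _ (jtT_integrable μ s h.continuous h.hasCompactSupport ρ)
      fun y => ?_
    by_cases hy : h y = 0
    · rw [hy, zero_smul]; exact zero_mem _
    · have hsup : Function.support (jtTr ρ y) ⊆ K := fun x hx =>
        hKmem y x hy ((hρs _ hx).trans_le (min_le_right _ _))
      have hmem : jtT s ρ y ∈ (LinearMap.ker WK.toLinearMap).map (jtJ K s) :=
        ⟨jtK K (jtTr ρ y) hsup, by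
          change WK _ = 0
          rw [hWKa, hρW], by rw [jtJ_jtK, jtT_jtTr]⟩
      exact Submodule.smul_mem _ (h y) hmem
  -- the convolution is close to `h`
  have hρn1 : ∫ y, ‖ρ y‖ ∂μ = 1 := by
    have e : ∫ y, ρ y ∂μ = ((∫ y, ‖ρ y‖ ∂μ : ℝ) : ℂ) := by
      have e1 : ∫ y, ((‖ρ y‖ : ℝ) : ℂ) ∂μ = ((∫ y, ‖ρ y‖ ∂μ : ℝ) : ℂ) := integral_ofReal
      rw [← e1]
      exact integral_congr_ae (Filter.Eventually.of_forall fun y => hρn y)
    rw [hρi] at e
    exact_mod_cast e.symm
  have h2 : ‖jtT s h 0 - jtT s (jtConv μ h ρ) 0‖ ≤ ε / (C + 1) := by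
    rw [jt_jet_conv μ s ρ.continuous ρ.hasCompactSupport h (jtConv μ h ρ) (jtConv_comm μ h ρ)]
    have e0 : jtT s h 0 = ∫ y, ρ y • jtT s h 0 ∂μ := by
      rw [integral_smul_const, hρi, one_smul]
    have hi0 : Integrable (fun y => ρ y • jtT s h 0) μ :=
      (ρ.continuous.smul continuous_const).integrable_of_hasCompactSupport
        ρ.hasCompactSupport.smul_right
    rw [e0, ← integral_sub hi0 (jtT_integrable μ s ρ.continuous ρ.hasCompactSupport h)]
    have hin : Integrable (fun y => ‖ρ y‖ * (ε / (C + 1))) μ :=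
      ((ρ.continuous.integrable_of_hasCompactSupport ρ.hasCompactSupport).norm).mul_const _
    refine (norm_integral_le_of_norm_le hin (Filter.Eventually.of_forall fun y => ?_)).trans ?_
    · rw [← smul_sub, norm_smul]
      by_cases hy : ρ y = 0
      · simp [hy]
      · refine mul_le_mul_of_nonneg_left ?_ (norm_nonneg _)
        have := hcont y (by rw [dist_zero_right]; exact (hρs y hy).trans_le (min_le_left _ _))
        rw [dist_comm, dist_eq_norm] at this
        exact this.le
    · rw [integral_mul_const, hρn1, one_mul]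
  have h3 : W h = WK (jtK K h hhK - jtK K (jtConv μ h ρ) hcK) := by
    rw [map_sub, hWKa, hWKa, h1, sub_zero]
  rw [h3]
  refine (hb _).trans ?_
  rw [map_sub, jtJ_jtK, jtJ_jtK]
  calc C * ‖jtT s h 0 - jtT s (jtConv μ h ρ) 0‖ ≤ (C + 1) * (ε / (C + 1)) :=
        mul_le_mul (by linarith) h2 (norm_nonneg _) (by positivity)
    _ = ε := by field_simp

end general


/-! ## 2. Product tests are total in `𝓓((ℝ⁴)^n)` -/

/-- A normalised bump function of radius `r` on space-time, as a complex test function. -/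
def jtBump (r : ℝ) (hr : 0 < r) : Test :=
  let b : ContDiffBump (0 : M4) := ⟨r / 2, r, half_pos hr, half_lt_self hr⟩
  ⟨fun x => ((b.normed volume x : ℝ) : ℂ), Complex.ofRealCLM.contDiff.comp b.contDiff_normed,
    b.hasCompactSupport_normed.comp_left Complex.ofReal_zero, fun _ _ => trivial⟩

lemma jtBump_nonneg (r : ℝ) (hr : 0 < r) (x : M4) : ∃ t : ℝ, 0 ≤ t ∧ jtBump r hr x = (t : ℂ) :=
  ⟨_, ContDiffBump.nonneg_normed _ x, rfl⟩

lemma jtBump_support (r : ℝ) (hr : 0 < r) (x : M4) (hx : jtBump r hr x ≠ 0) : ‖x‖ < r := by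
  let b : ContDiffBump (0 : M4) := ⟨r / 2, r, half_pos hr, half_lt_self hr⟩
  have h1 : b.normed volume x ≠ 0 := fun h0 => hx (by
    change ((b.normed volume x : ℝ) : ℂ) = 0
    rw [h0]; rfl)
  have h2 : x ∈ Function.support (b.normed volume) := h1
  rw [b.support_normed_eq] at h2
  simpa using h2

lemma jtBump_integral (r : ℝ) (hr : 0 < r) : ∫ x, jtBump r hr x = 1 := by
  let b : ContDiffBump (0 : M4) := ⟨r / 2, r, half_pos hr, half_lt_self hr⟩
  have e1 : ∫ x, ((b.normed volume x : ℝ) : ℂ) = ((∫ x, b.normed volume x : ℝ) : ℂ) :=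
    integral_ofReal
  change ∫ x, ((b.normed volume x : ℝ) : ℂ) = 1
  rw [e1, b.integral_normed]
  rfl

/-- **Product tests are total in `𝓓((ℝ⁴)^n)`**: a distribution in the joint variables which vanishes
on all factorised kernels `f_1 ⊗ ⋯ ⊗ f_n` vanishes. -/
theorem tensor_total {n : ℕ} (W : JTest n →L[ℂ] ℂ)
    (hW : ∀ (f : Fin n → Test) (h : JTest n), (∀ x, h x = ∏ i, f i (x i)) → W h = 0) : W = 0 := by
  ext h
  refine jt_total_aux (volume : Measure (Fin n → M4)) W (fun r hr => ?_) h
  refine ⟨tensor fun _ => jtBump r hr, fun x hx => ?_, fun x => ?_, ?_, fun y => ?_⟩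
  · rw [pi_norm_lt_iff hr]
    intro i
    refine jtBump_support r hr (x i) fun h0 => hx ?_
    exact Finset.prod_eq_zero (Finset.mem_univ i) h0
  · choose t ht0 ht using fun i => jtBump_nonneg r hr (x i)
    have e : tensor (fun _ => jtBump r hr) x = ((∏ i, t i : ℝ) : ℂ) := by
      change ∏ i, jtBump r hr (x i) = _
      simp only [ht]
      push_cast
      rfl
    rw [e, Complex.norm_real, Real.norm_of_nonneg (Finset.prod_nonneg fun i _ => ht0 i)]
  · change ∫ x : Fin n → M4, ∏ i, jtBump r hr (x i) = 1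
    rw [integral_fintype_prod_volume_eq_prod (fun _ x => jtBump r hr x)]
    simp [jtBump_integral]
  · exact hW (fun i => jtTr (jtBump r hr) (y i)) _ fun x => rfl

section
variable {H : Type} [NormedAddCommGroup H] [InnerProductSpace ℂ H] [CompleteSpace H]
  {B : Background H} (𝔉 : FieldSystem B)

/-- The joint distribution of an ordered product between two vectors of the domain is unique. -/
theorem isJointDist_unique {n : ℕ} {A : Fin n → 𝔉.F} {φ ψ : 𝔉.domain} {W W' : JTest n →L[ℂ] ℂ}
    (h : 𝔉.IsJointDist A φ ψ W) (h' : 𝔉.IsJointDist A φ ψ W') : W = W' :=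
  sub_eq_zero.mp (tensor_total (W - W') fun f k hk => by
    rw [sub_apply, h f k hk, h' f k hk, sub_self])

/-- ... so "the" joint distribution makes sense: the `∃ W` of `FieldSystem.joint` and of
`IsInsertion` is an `∃!`. -/
theorem existsUnique_isJointDist {n : ℕ} (A : Fin n → 𝔉.F) (φ ψ : 𝔉.domain) :
    ∃! W : JTest n →L[ℂ] ℂ, 𝔉.IsJointDist A φ ψ W := by
  obtain ⟨W, hW⟩ := 𝔉.joint n A φ ψ
  exact ⟨W, hW, fun W' hW' => isJointDist_unique 𝔉 hW' hW⟩

/-- An insertion is determined by the list of fields and the joint kernel. -/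
theorem isInsertion_unique {n : ℕ} {A : Fin n → 𝔉.F} {h : JTest n} {P P' : Module.End ℂ 𝔉.domain}
    (hP : 𝔉.IsInsertion A h P) (hP' : 𝔉.IsInsertion A h P') : P = P' := by
  ext ψ
  rw [← sub_eq_zero]
  refine 𝔉.domain_dense.eq_zero_of_inner_right ℂ fun φ hφ => ?_
  obtain ⟨W, hW, e⟩ := hP ⟨φ, hφ⟩ ψ
  obtain ⟨W', hW', e'⟩ := hP' ⟨φ, hφ⟩ ψ
  rw [inner_sub_right, e, e', isJointDist_unique 𝔉 hW hW', sub_self]

/-- The insertion with a factorised kernel is the ordered product of the smeared fields. -/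
theorem isInsertion_tensor {n : ℕ} (A : Fin n → 𝔉.F) (f : Fin n → Test) :
    𝔉.IsInsertion A (tensor f) (𝔉.word A f) := by
  intro φ ψ
  obtain ⟨W, hW⟩ := 𝔉.joint n A φ ψ
  exact ⟨W, hW, (hW f (tensor f) fun _ => rfl).symm⟩

/-- The support of a factorised kernel lies in the product of the supports. -/
theorem tsupport_tensor_subset {n : ℕ} (f : Fin n → Test) (x : Fin n → M4)
    (hx : x ∈ tsupport (tensor f)) (i : Fin n) : x i ∈ tsupport (f i) := by
  have hcl : IsClosed (Set.univ.pi fun i => tsupport (f i)) :=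
    isClosed_set_pi fun i _ => isClosed_tsupport _
  have hsub : Function.support (tensor f) ⊆ Set.univ.pi fun i => tsupport (f i) := by
    intro y hy j _
    refine subset_tsupport _ fun h0 => hy ?_
    exact Finset.prod_eq_zero (Finset.mem_univ j) h0
  exact closure_minimal hsub hcl hx i (Set.mem_univ i)

/-- The polynomial algebra with joint kernels contains the one generated by the smeared fields. -/
theorem localAlg_le_jointAlg (K : Set M4) : 𝔉.localAlg K ≤ 𝔉.jointAlg K := by
  refine Algebra.adjoin_mono ?_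
  rintro X ⟨A, f, hf, rfl⟩
  refine ⟨1, fun _ => A, tensor fun _ => f, fun x hx i => hf (tsupport_tensor_subset _ x hx i), ?_⟩
  have h := isInsertion_tensor 𝔉 (fun _ : Fin 1 => A) (fun _ => f)
  simpa [FieldSystem.word] using h

end

end SanityJoint
end Claimed.Open.R282
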