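import Claimed.Open.R282.SanitySlab
import Claimed.Open.R282.SanityJoint

/-!
# Result 282: polynomial algebras of open regions are exhausted by bounded regions

`CLAIM.md`, deviation 14, last sentence: "`ConformalWard.preserve` is stated for the open sets `K` that have a slab, i.e. bounded
ones; every element of `𝔓_c(O)` lies in `𝔓_c(K)` for a bounded open `K ⊆ O`, so nothing is lost."  The docstring of
`ConformalWard` says: "`δ_X` is local: it maps `𝔓_c(O)` into itself for every open `O`".  Both sentences are proved here, for EVERY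
`FieldSystem` (no model):

* `localAlg_mono`, `jointAlg_mono`: isotony of the polynomial algebras;
* `exists_bounded_of_mem_jointAlg`, `exists_bounded_of_mem_localAlg`: an element of the polynomial algebra of an open set `O` lies
  in the polynomial algebra of a bounded open `K ⊆ O`;
* `exists_slab_of_mem_jointAlg`: … and `K` has a compact Cauchy slab, so the Ward derivation `δ_X P = i[Q_X(F), P]` is defined for
  every `P ∈ 𝔓_c(O)`, `O` open, bounded or not;
* `preserve_open`: if `t` satisfies `ConformalWard`, then for every open `O`, every `P ∈ 𝔓_c(O)` and every conformal Killing field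
  `X` the commutator with the charge of a slab enclosing a localisation region `K ⊆ O` of `P` lies in `𝔓_c(O)` again;
* `indep_region`: `δ_X P` depends neither on the slab nor on the region in which `P` is localised (`ConformalWard.indep` compares
  two slabs of one region; two regions are compared through a slab of their union);
* `preserve_open_of_slab`: so `δ_X P ∈ 𝔓_c(O)` whatever slab of whatever localisation region of `P` is used;
* `affineWard_indep`: the hypothesis `AffineWardOn` contains its own slab independence (deviation 8 (a)): the commutator of `P` with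
  the affine charge is the same for all slabs of all localisation regions of `P`.
-/

open scoped Distributions ContDiff InnerProductSpace ComplexConjugate Topology SchwartzMap
open TopologicalSpace MeasureTheory

noncomputable section

namespace Claimed.Open.R282
namespace SanityBounded

open SanitySlab SanityJoint

variable {H : Type} [NormedAddCommGroup H] [InnerProductSpace ℂ H] [CompleteSpace H]

variable {B : Background H} (𝔉 : FieldSystem B)

/-- Isotony of the algebras generated by the smeared fields. -/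
theorem localAlg_mono {K K' : Set M4} (h : K ⊆ K') : 𝔉.localAlg K ≤ 𝔉.localAlg K' := by
  refine Algebra.adjoin_mono ?_
  rintro _ ⟨A, f, hf, rfl⟩
  exact ⟨A, f, hf.trans h, rfl⟩

/-- Isotony of the algebras generated by the insertions with joint kernels. -/
theorem jointAlg_mono {K K' : Set M4} (h : K ⊆ K') : 𝔉.jointAlg K ≤ 𝔉.jointAlg K' := by
  refine Algebra.adjoin_mono ?_
  rintro _ ⟨n, A, k, hk, hP⟩
  exact ⟨n, A, k, fun x hx i => h (hk x hx i), hP⟩

/-- A compact subset of an open set lies in a bounded open subset. -/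
lemma exists_bounded_open {C O : Set M4} (hC : IsCompact C) (hO : IsOpen O) (hCO : C ⊆ O) :
    ∃ K : Set M4, IsOpen K ∧ Bornology.IsBounded K ∧ C ⊆ K ∧ K ⊆ O := by
  obtain ⟨r, hr⟩ := hC.isBounded.subset_ball (0 : M4)
  exact ⟨O ∩ Metric.ball 0 r, hO.inter Metric.isOpen_ball,
    Metric.isBounded_ball.subset Set.inter_subset_right, fun x hx => ⟨hCO hx, hr hx⟩,
    Set.inter_subset_left⟩

/-- **Every element of `𝔓_c(O)`, `O` open, lies in `𝔓_c(K)` for a bounded open `K ⊆ O`.** -/
theorem exists_bounded_of_mem_jointAlg {O : Set M4} (hO : IsOpen O) {P : Module.End ℂ 𝔉.domain}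
    (hP : P ∈ 𝔉.jointAlg O) :
    ∃ K : Set M4, IsOpen K ∧ Bornology.IsBounded K ∧ K ⊆ O ∧ P ∈ 𝔉.jointAlg K := by
  induction hP using Algebra.adjoin_induction with
  | mem x hx =>
    obtain ⟨n, A, k, hk, hx⟩ := hx
    have hC : IsCompact (⋃ i : Fin n, (fun y : Fin n → M4 => y i) '' tsupport k) :=
      isCompact_iUnion fun i => k.hasCompactSupport.isCompact.image (continuous_apply i)
    have hCO : (⋃ i : Fin n, (fun y : Fin n → M4 => y i) '' tsupport k) ⊆ O := by
      refine Set.iUnion_subset fun i => ?_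
      rintro _ ⟨y, hy, rfl⟩
      exact hk y hy i
    obtain ⟨K, h1, h2, h3, h4⟩ := exists_bounded_open hC hO hCO
    exact ⟨K, h1, h2, h4, Algebra.subset_adjoin ⟨n, A, k,
      fun y hy i => h3 (Set.mem_iUnion.2 ⟨i, y, hy, rfl⟩), hx⟩⟩
  | algebraMap r =>
    exact ⟨∅, isOpen_empty, Bornology.isBounded_empty, Set.empty_subset _,
      Subalgebra.algebraMap_mem _ r⟩
  | add x y _ _ hx hy =>
    obtain ⟨K, h1, h2, h3, h4⟩ := hx
    obtain ⟨K', h1', h2', h3', h4'⟩ := hy
    exact ⟨K ∪ K', h1.union h1', h2.union h2', Set.union_subset h3 h3',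
      add_mem (jointAlg_mono 𝔉 Set.subset_union_left h4) (jointAlg_mono 𝔉 Set.subset_union_right h4')⟩
  | mul x y _ _ hx hy =>
    obtain ⟨K, h1, h2, h3, h4⟩ := hx
    obtain ⟨K', h1', h2', h3', h4'⟩ := hy
    exact ⟨K ∪ K', h1.union h1', h2.union h2', Set.union_subset h3 h3',
      mul_mem (jointAlg_mono 𝔉 Set.subset_union_left h4) (jointAlg_mono 𝔉 Set.subset_union_right h4')⟩

/-- The same for the algebras generated by the smeared fields. -/
theorem exists_bounded_of_mem_localAlg {O : Set M4} (hO : IsOpen O) {P : Module.End ℂ 𝔉.domain}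
    (hP : P ∈ 𝔉.localAlg O) :
    ∃ K : Set M4, IsOpen K ∧ Bornology.IsBounded K ∧ K ⊆ O ∧ P ∈ 𝔉.localAlg K := by
  induction hP using Algebra.adjoin_induction with
  | mem x hx =>
    obtain ⟨A, f, hf, rfl⟩ := hx
    obtain ⟨K, h1, h2, h3, h4⟩ := exists_bounded_open f.hasCompactSupport.isCompact hO hf
    exact ⟨K, h1, h2, h4, Algebra.subset_adjoin ⟨A, f, h3, rfl⟩⟩
  | algebraMap r =>
    exact ⟨∅, isOpen_empty, Bornology.isBounded_empty, Set.empty_subset _,
      Subalgebra.algebraMap_mem _ r⟩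
  | add x y _ _ hx hy =>
    obtain ⟨K, h1, h2, h3, h4⟩ := hx
    obtain ⟨K', h1', h2', h3', h4'⟩ := hy
    exact ⟨K ∪ K', h1.union h1', h2.union h2', Set.union_subset h3 h3',
      add_mem (localAlg_mono 𝔉 Set.subset_union_left h4) (localAlg_mono 𝔉 Set.subset_union_right h4')⟩
  | mul x y _ _ hx hy =>
    obtain ⟨K, h1, h2, h3, h4⟩ := hx
    obtain ⟨K', h1', h2', h3', h4'⟩ := hy
    exact ⟨K ∪ K', h1.union h1', h2.union h2', Set.union_subset h3 h3',
      mul_mem (localAlg_mono 𝔉 Set.subset_union_left h4) (localAlg_mono 𝔉 Set.subset_union_right h4')⟩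

/-- Every element of `𝔓_c(O)`, `O` open, has a localisation region `K ⊆ O` with a compact Cauchy slab: its Ward derivations are
defined. -/
theorem exists_slab_of_mem_jointAlg {O : Set M4} (hO : IsOpen O) {P : Module.End ℂ 𝔉.domain}
    (hP : P ∈ 𝔉.jointAlg O) :
    ∃ (K : Set M4) (F : Fin 4 → RTest), IsOpen K ∧ K ⊆ O ∧ IsSlabFor K F ∧ P ∈ 𝔉.jointAlg K := by
  obtain ⟨K, h1, h2, h3, h4⟩ := exists_bounded_of_mem_jointAlg 𝔉 hO hP
  obtain ⟨F, hF⟩ := exists_slab_of_isBounded h2
  exact ⟨K, F, h1, h3, hF, h4⟩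

variable {𝔉}

/-- **`δ_X` maps `𝔓_c(O)` into itself for every open `O`**, bounded or not (the sentence of the docstring of `ConformalWard`),
although the clause `preserve` speaks of regions with a slab only. -/
theorem preserve_open {t : Fin 4 → Fin 4 → 𝔉.F} (hW : 𝔉.ConformalWard t) {X : M4 → M4}
    (hX : IsConformalKilling X) {O : Set M4} (hO : IsOpen O) {P : Module.End ℂ 𝔉.domain}
    (hP : P ∈ 𝔉.jointAlg O) :
    ∃ (K : Set M4) (F : Fin 4 → RTest), K ⊆ O ∧ IsSlabFor K F ∧ P ∈ 𝔉.jointAlg K ∧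
      𝔉.comm (𝔉.charge t X F) P ∈ 𝔉.jointAlg O := by
  obtain ⟨K, F, h1, h2, hF, h4⟩ := exists_slab_of_mem_jointAlg 𝔉 hO hP
  exact ⟨K, F, h2, hF, h4, jointAlg_mono 𝔉 h2 (hW.preserve X hX K F h1 hF P h4)⟩

/-- **The Ward derivation `δ_X P` depends neither on the slab nor on the region in which `P` is localised**: `ConformalWard.indep`
compares two slabs of the same region; two regions are compared through a slab of their union. -/
theorem indep_region {t : Fin 4 → Fin 4 → 𝔉.F} (hW : 𝔉.ConformalWard t) {X : M4 → M4}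
    (hX : IsConformalKilling X) {K₁ K₂ : Set M4} {F₁ F₂ : Fin 4 → RTest} (h₁ : IsSlabFor K₁ F₁)
    (h₂ : IsSlabFor K₂ F₂) {P : Module.End ℂ 𝔉.domain} (hP₁ : P ∈ 𝔉.jointAlg K₁)
    (hP₂ : P ∈ 𝔉.jointAlg K₂) :
    𝔉.comm (𝔉.charge t X F₁) P = 𝔉.comm (𝔉.charge t X F₂) P := by
  obtain ⟨F, hF⟩ := exists_slab_of_isBounded
    ((isSlabFor_isBounded h₁).union (isSlabFor_isBounded h₂))
  rw [hW.indep X hX K₁ F₁ F h₁ (isSlabFor_mono hF Set.subset_union_left) P hP₁,
    hW.indep X hX K₂ F₂ F h₂ (isSlabFor_mono hF Set.subset_union_right) P hP₂]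

/-- `δ_X P ∈ 𝔓_c(O)` for `P ∈ 𝔓_c(O)`, `O` open, computed with ANY slab of ANY region (open or not, inside `O` or not) in which
`P` is localised. -/
theorem preserve_open_of_slab {t : Fin 4 → Fin 4 → 𝔉.F} (hW : 𝔉.ConformalWard t) {X : M4 → M4}
    (hX : IsConformalKilling X) {O : Set M4} (hO : IsOpen O) {P : Module.End ℂ 𝔉.domain}
    (hP : P ∈ 𝔉.jointAlg O) {K' : Set M4} {F' : Fin 4 → RTest} (hF' : IsSlabFor K' F')
    (hP' : P ∈ 𝔉.jointAlg K') :
    𝔉.comm (𝔉.charge t X F') P ∈ 𝔉.jointAlg O := by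
  obtain ⟨K, F, _, hF, hPK, h⟩ := preserve_open hW hX hO hP
  rwa [indep_region hW hX hF' hF hP' hPK]

/-- **The affine Ward identities contain their own slab independence** (`CLAIM.md`, deviation 8 (a)): if `T`, `V` satisfy
`AffineWardOn Pol`, then for an affine field `X = c + Mx + κx` which is the velocity of a curve in the similarity group the
commutator of `P` with the charge of `X^νT_{μν} - κV_μ` is the same for all slabs of all regions in which `P` is localised
(both are the derivative of the same function `s ↦ ⟨U(g_s)φ, P U(g_s)ψ⟩`; the domain is dense). -/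
theorem affineWard_indep {Pol : Set M4 → Subalgebra ℂ (Module.End ℂ 𝔉.domain)}
    {T : Fin 4 → Fin 4 → 𝔉.F} {V : Fin 4 → 𝔉.F} (hW : 𝔉.AffineWardOn Pol T V) {γ : ℝ → Sim} {c : M4}
    {M : Matrix (Fin 4) (Fin 4) ℝ} {κ : ℝ} (hγ : IsTangent γ c M κ) {K₁ K₂ : Set M4}
    {F₁ F₂ : Fin 4 → RTest} (h₁ : IsSlabFor K₁ F₁) (h₂ : IsSlabFor K₂ F₂)
    {P : Module.End ℂ 𝔉.domain} (hP₁ : P ∈ Pol K₁) (hP₂ : P ∈ Pol K₂) :
    𝔉.comm (𝔉.charge T (affineField c M κ) F₁ - (κ : ℂ) • 𝔉.flux V F₁) P
      = 𝔉.comm (𝔉.charge T (affineField c M κ) F₂ - (κ : ℂ) • 𝔉.flux V F₂) P := by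
  set Q₁ := 𝔉.comm (𝔉.charge T (affineField c M κ) F₁ - (κ : ℂ) • 𝔉.flux V F₁) P with hQ₁
  set Q₂ := 𝔉.comm (𝔉.charge T (affineField c M κ) F₂ - (κ : ℂ) • 𝔉.flux V F₂) P with hQ₂
  have key : (-Complex.I) • Q₁ = (-Complex.I) • Q₂ := by
    ext ψ
    rw [← sub_eq_zero]
    refine Dense.eq_zero_of_inner_right ℂ 𝔉.domain_dense fun φ hφ => ?_
    have e := (hW γ c M κ hγ K₁ F₁ h₁ P hP₁ ⟨φ, hφ⟩ ψ).unique (hW γ c M κ hγ K₂ F₂ h₂ P hP₂ ⟨φ, hφ⟩ ψ)
    rw [inner_sub_right, sub_eq_zero]
    exact e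
  exact smul_right_injective _ (neg_ne_zero.2 Complex.I_ne_zero) key

end SanityBounded
end Claimed.Open.R282
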