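import Claimed.Open.R282.Sanity

/-!
# Sanity checks for `IsTangent` (velocities of curves in the similarity group)

The affine Ward identities of `Statement.lean` quantify over all curves `γ` in the similarity group
with `IsTangent γ c M κ`.  This file shows that this is exactly a quantification over the Lie algebra
of the Poincare group extended by dilations:

* `isTangent_velocity`: if `IsTangent γ c M κ` then `s ↦ γ(s)·x` has velocity `c + M x + κ x` at `0`;
* `isTangent_antisymm`: then `ηM` is antisymmetric, i.e. `M ∈ so(1,3)`;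
* `exists_isTangent`: conversely for all `c`, `κ` and all `M` with `ηM` antisymmetric there is such a
  curve, so that no Poincare or dilation generator is missed and the clause is never vacuous;
* explicit witnesses: `isTangent_translation`, `isTangent_dilation`, `isTangent_boost`
  (`diag(e^{s/2}, e^{-s/2})`), `isTangent_rotation` (`diag(e^{-is/2}, e^{is/2})`).
-/

open scoped Distributions ContDiff InnerProductSpace ComplexConjugate Topology SchwartzMap Matrix
open TopologicalSpace

noncomputable section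

namespace Claimed.Open.R282
namespace SanityTangent

abbrev M2 : Type := Matrix (Fin 2) (Fin 2) ℂ

/-! ### Entrywise differentiation of matrix products -/

/-- entrywise derivative of a curve of `2 × 2` matrices -/
def EDeriv (A : ℝ → M2) (A' : M2) (t : ℝ) : Prop := ∀ i j, HasDerivAt (fun s => A s i j) (A' i j) t

theorem EDeriv.const (C : M2) (t : ℝ) : EDeriv (fun _ => C) 0 t :=
  fun i j => hasDerivAt_const t (C i j)

theorem EDeriv.mul {A B : ℝ → M2} {A' B' : M2} {t : ℝ} (hA : EDeriv A A' t) (hB : EDeriv B B' t) :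
    EDeriv (fun s => A s * B s) (A' * B t + A t * B') t := by
  intro i j
  simp only [Matrix.mul_apply, Matrix.add_apply, Fin.sum_univ_two]
  have h := ((hA i 0).mul (hB 0 j)).add ((hA i 1).mul (hB 1 j))
  refine h.congr_deriv ?_
  ring

theorem EDeriv.conjTranspose {A : ℝ → M2} {A' : M2} {t : ℝ} (hA : EDeriv A A' t) :
    EDeriv (fun s => (A s)ᴴ) A'ᴴ t :=
  fun i j => (hA j i).star

theorem EDeriv.trace_re {A : ℝ → M2} {A' : M2} {t : ℝ} (hA : EDeriv A A' t) :
    HasDerivAt (fun s => ((A s).trace).re) (A'.trace).re t := by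
  have h : HasDerivAt (fun s => A s 0 0 + A s 1 1) (A' 0 0 + A' 1 1) t := (hA 0 0).add (hA 1 1)
  have h2 : HasDerivAt (fun s => Complex.reCLM (A s 0 0 + A s 1 1)) (Complex.reCLM (A' 0 0 + A' 1 1)) t :=
    Complex.reCLM.hasFDerivAt.comp_hasDerivAt t h
  simp only [Matrix.trace_fin_two]
  exact h2

/-- The element of `so(1,3)` generated by `X ∈ sl(2,ℂ)`:
`M^μ{}_ν = ½ tr(σ_μ (X σ_ν + σ_ν X^†))`. -/
def genMatrix (X : M2) : Matrix (Fin 4) (Fin 4) ℝ :=
  Matrix.of fun μ ν => ((pauli μ * (X * pauli ν + pauli ν * Xᴴ)).trace).re / 2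

/-- The differential of the covering map `SL(2,ℂ) → SO⁺(1,3)` at the identity. -/
theorem hasDerivAt_lorentz {A : ℝ → SL2C} {X : M2} (h0 : A 0 = 1)
    (hA : EDeriv (fun s => (A s).1) X 0) (μ ν : Fin 4) :
    HasDerivAt (fun s => lorentz (A s) μ ν) (genMatrix X μ ν) 0 := by
  have h1 := (((EDeriv.const (pauli μ) 0).mul hA).mul (EDeriv.const (pauli ν) 0)).mul hA.conjTranspose
  have h2 := h1.trace_re.div_const 2
  have e : (A 0).1 = 1 := by rw [h0]; rfl
  simp only [e] at h2
  refine h2.congr_deriv ?_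
  simp only [genMatrix, Matrix.of_apply]
  congr 3
  simp [Matrix.mul_add, Matrix.mul_assoc]

/-! ### Curves in `SL(2,ℂ)` with prescribed velocity -/

/-- The curve `(1 + s b E₁₂)(1 + s c E₂₁) diag(e^{as}, e^{-as})` in `SL(2,ℂ)`; its velocity at `s = 0`
is the general traceless matrix `!![a, b; c, -a]`. -/
def slCurve (a b c : ℂ) (s : ℝ) : SL2C :=
  ⟨!![(1 + b * c * (s : ℂ) ^ 2) * Complex.exp (a * s), b * s * Complex.exp (-(a * s));
      c * s * Complex.exp (a * s), Complex.exp (-(a * s))], by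
    rw [Matrix.det_fin_two_of]
    have h : Complex.exp (a * s) * Complex.exp (-(a * s)) = 1 := by
      rw [← Complex.exp_add]; simp
    linear_combination (1 : ℂ) * h⟩

theorem slCurve_zero (a b c : ℂ) : slCurve a b c 0 = 1 := by
  ext i j
  fin_cases i <;> fin_cases j <;> simp [slCurve]

theorem hasDerivAt_ofReal (t : ℝ) : HasDerivAt (fun s : ℝ => (s : ℂ)) 1 t :=
  Complex.ofRealCLM.hasDerivAt

theorem hasDerivAt_exp_mul (a : ℂ) : HasDerivAt (fun s : ℝ => Complex.exp (a * s)) a 0 := by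
  have h1 : HasDerivAt (fun s : ℝ => a * (s : ℂ)) a 0 := by
    simpa using (hasDerivAt_ofReal 0).const_mul a
  have h2 := h1.cexp
  simpa using h2

theorem slCurve_ederiv (a b c : ℂ) : EDeriv (fun s => (slCurve a b c s).1) !![a, b; c, -a] 0 := by
  have hs := hasDerivAt_ofReal 0
  have he := hasDerivAt_exp_mul a
  have he' : HasDerivAt (fun s : ℝ => Complex.exp (-(a * s))) (-a) 0 := by
    have := hasDerivAt_exp_mul (-a)
    simpa [neg_mul] using this
  have h00 : HasDerivAt (fun s : ℝ => (1 + b * c * (s : ℂ) ^ 2) * Complex.exp (a * s)) a 0 := by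
    have h : HasDerivAt (fun s : ℝ => (1 + b * c * (s : ℂ) ^ 2)) (b * c * (2 * ((0 : ℝ) : ℂ) ^ 1 * 1)) 0 :=
      ((hs.pow 2).const_mul (b * c)).const_add 1
    refine (h.mul he).congr_deriv ?_
    simp
  have h01 : HasDerivAt (fun s : ℝ => b * (s : ℂ) * Complex.exp (-(a * s))) b 0 := by
    refine ((hs.const_mul b).mul he').congr_deriv ?_
    simp
  have h10 : HasDerivAt (fun s : ℝ => c * (s : ℂ) * Complex.exp (a * s)) c 0 := by
    refine ((hs.const_mul c).mul he).congr_deriv ?_
    simp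
  intro i j
  fin_cases i <;> fin_cases j
  · exact h00
  · exact h01
  · exact h10
  · exact he'

/-- **Existence of tangent curves**, in terms of `sl(2,ℂ)`. -/
theorem isTangent_slCurve (c : M4) (a b d : ℂ) (κ : ℝ) :
    IsTangent (fun s => ⟨s • c, slCurve a b d s, κ * s⟩) c (genMatrix !![a, b; d, -a]) κ := by
  refine ⟨?_, ?_, ?_, ?_, ?_⟩
  · simp [Sim.one, slCurve_zero]
  · simpa using (hasDerivAt_id (0 : ℝ)).smul_const c
  · exact fun i j => (slCurve_ederiv a b d i j).differentiableAt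
  · exact hasDerivAt_lorentz (slCurve_zero a b d) (slCurve_ederiv a b d)
  · simpa using (hasDerivAt_id (0 : ℝ)).const_mul κ

/-- The traceless matrix generating a given `M ∈ so(1,3)`:
`X = ½ ∑_k M^0{}_k σ_k - (i/2)(M^3{}_2 σ_1 + M^1{}_3 σ_2 + M^2{}_1 σ_3)`. -/
def slOf (M : Matrix (Fin 4) (Fin 4) ℝ) : ℂ × ℂ × ℂ :=
  (⟨M 0 3 / 2, -M 2 1 / 2⟩, ⟨(M 0 1 - M 1 3) / 2, (-M 3 2 - M 0 2) / 2⟩,
    ⟨(M 0 1 + M 1 3) / 2, (-M 3 2 + M 0 2) / 2⟩)

theorem genMatrix_slOf {M : Matrix (Fin 4) (Fin 4) ℝ}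
    (hM : ∀ μ ν, eta ν * M ν μ + eta μ * M μ ν = 0) :
    genMatrix !![(slOf M).1, (slOf M).2.1; (slOf M).2.2, -(slOf M).1] = M := by
  have h00 := hM 0 0
  have h11 := hM 1 1
  have h22 := hM 2 2
  have h33 := hM 3 3
  have h01 := hM 0 1
  have h02 := hM 0 2
  have h03 := hM 0 3
  have h12 := hM 1 2
  have h13 := hM 1 3
  have h23 := hM 2 3
  simp [eta] at h00 h11 h22 h33 h01 h02 h03 h12 h13 h23
  ext μ ν
  fin_cases μ <;> fin_cases ν <;>
    simp [genMatrix, slOf, pauli, Matrix.trace_fin_two, Matrix.mul_apply, Fin.sum_univ_two,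
      Matrix.conjTranspose_apply] <;> linarith

/-- **No generator is missed**: every `c`, every `M ∈ so(1,3)` and every `κ` is the velocity of a
curve in the similarity group. -/
theorem exists_isTangent (c : M4) {M : Matrix (Fin 4) (Fin 4) ℝ}
    (hM : ∀ μ ν, eta ν * M ν μ + eta μ * M μ ν = 0) (κ : ℝ) : ∃ γ, IsTangent γ c M κ :=
  ⟨_, genMatrix_slOf hM ▸ isTangent_slCurve c (slOf M).1 (slOf M).2.1 (slOf M).2.2 κ⟩

/-! ### What `IsTangent` says about the action on space-time -/

/-- The velocity field of a tangent curve is the affine field `x ↦ c + M x + κ x` which enters the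
charge of the affine Ward identity. -/
theorem isTangent_velocity {γ : ℝ → Sim} {c : M4} {M : Matrix (Fin 4) (Fin 4) ℝ} {κ : ℝ}
    (h : IsTangent γ c M κ) (x : M4) :
    HasDerivAt (fun s => (γ s).act x) (affineField c M κ x) 0 := by
  obtain ⟨h0, ha, -, hL, hs⟩ := h
  have e0 : (γ 0).s = 0 := by rw [h0]; rfl
  have eA : lorentz (γ 0).A = 1 := by rw [h0]; exact Sanity.lorentz_one
  rw [hasDerivAt_pi]
  intro μ
  have h1 : HasDerivAt (fun s => ∑ ν, lorentz (γ s).A μ ν * x ν) (∑ ν, M μ ν * x ν) 0 := by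
    have := HasDerivAt.fun_sum (u := Finset.univ) (A := fun ν s => lorentz (γ s).A μ ν * x ν)
      (A' := fun ν => M μ ν * x ν) (x := (0 : ℝ)) fun ν _ => (hL μ ν).mul_const (x ν)
    exact this
  have h2 := (hs.exp.mul h1).add ((hasDerivAt_pi.mp ha) μ)
  refine (h2.congr_deriv ?_)
  simp only [e0, eA, Real.exp_zero, affineField, Pi.add_apply, Pi.smul_apply, smul_eq_mul,
    Matrix.mulVec, dotProduct, Matrix.one_apply]
  simp
  ring

/-- The matrix `M` of a tangent curve lies in `so(1,3)`: `ηM` is antisymmetric. -/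
theorem isTangent_antisymm {γ : ℝ → Sim} {c : M4} {M : Matrix (Fin 4) (Fin 4) ℝ} {κ : ℝ}
    (h : IsTangent γ c M κ) (μ ν : Fin 4) : eta ν * M ν μ + eta μ * M μ ν = 0 := by
  obtain ⟨h0, -, -, hL, -⟩ := h
  have eA : lorentz (γ 0).A = 1 := by rw [h0]; exact Sanity.lorentz_one
  have hg : ∀ s, ∑ k, lorentz (γ s).A k μ * eta k * lorentz (γ s).A k ν
      = Matrix.diagonal eta μ ν := by
    intro s
    have := congrFun (congrFun (Sanity.lorentz_gram (γ s).A) μ) ν
    rw [Matrix.mul_apply] at this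
    simpa only [Matrix.mul_diagonal, Matrix.transpose_apply] using this
  have h1 : HasDerivAt (fun s => ∑ k, lorentz (γ s).A k μ * eta k * lorentz (γ s).A k ν)
      (∑ k, (M k μ * eta k * lorentz (γ 0).A k ν + lorentz (γ 0).A k μ * eta k * M k ν)) 0 :=
    HasDerivAt.fun_sum fun k _ => ((hL k μ).mul_const (eta k)).mul (hL k ν)
  have h2 : HasDerivAt (fun s => ∑ k, lorentz (γ s).A k μ * eta k * lorentz (γ s).A k ν) 0 0 := by
    simp only [hg]
    exact hasDerivAt_const _ _
  have h3 := h1.unique h2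
  simp only [eA, Matrix.one_apply, Finset.sum_add_distrib] at h3
  simp at h3
  linarith

/-- **Characterisation**: the triples `(c, M, κ)` over which the affine Ward identities quantify are
exactly those with `M ∈ so(1,3)`. -/
theorem exists_isTangent_iff (c : M4) (M : Matrix (Fin 4) (Fin 4) ℝ) (κ : ℝ) :
    (∃ γ, IsTangent γ c M κ) ↔ ∀ μ ν, eta ν * M ν μ + eta μ * M μ ν = 0 :=
  ⟨fun ⟨_, h⟩ => isTangent_antisymm h, fun h => exists_isTangent c h κ⟩

/-! ### Explicit witnesses -/

/-- translations -/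
theorem isTangent_translation (c : M4) : IsTangent (fun s => Sim.transl (s • c)) c 0 0 := by
  refine ⟨?_, ?_, ?_, ?_, ?_⟩
  · simp [Sim.one, Sim.transl]
  · simpa [Sim.transl] using (hasDerivAt_id (0 : ℝ)).smul_const c
  · exact fun i j => differentiableAt_const _
  · exact fun μ ν => hasDerivAt_const (0 : ℝ) (lorentz 1 μ ν)
  · exact hasDerivAt_const _ _

/-- dilations `x ↦ e^s x` -/
theorem isTangent_dilation : IsTangent (fun s => ⟨0, 1, s⟩) 0 0 1 := by
  refine ⟨rfl, hasDerivAt_const _ _, fun i j => differentiableAt_const _,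
    fun μ ν => hasDerivAt_const (0 : ℝ) (lorentz 1 μ ν), hasDerivAt_id _⟩

/-- The generator of the boosts in the `3`-direction. -/
def boost3 : Matrix (Fin 4) (Fin 4) ℝ := !![0, 0, 0, 1; 0, 0, 0, 0; 0, 0, 0, 0; 1, 0, 0, 0]

/-- The generator of the rotations about the `3`-axis (counterclockwise in the `1-2` plane). -/
def rot3 : Matrix (Fin 4) (Fin 4) ℝ := !![0, 0, 0, 0; 0, 0, -1, 0; 0, 1, 0, 0; 0, 0, 0, 0]

theorem genMatrix_boost3 : genMatrix !![1 / 2, 0; 0, -(1 / 2)] = boost3 := by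
  ext μ ν
  fin_cases μ <;> fin_cases ν <;>
    simp [genMatrix, boost3, pauli, Matrix.trace_fin_two, Matrix.mul_apply, Fin.sum_univ_two,
      Matrix.conjTranspose_apply] <;> norm_num

theorem genMatrix_rot3 : genMatrix !![-(Complex.I / 2), 0; 0, -(-(Complex.I / 2))] = rot3 := by
  have e : Complex.I / 2 = ⟨0, 1 / 2⟩ := by
    apply Complex.ext <;> simp
  rw [e]
  ext μ ν
  fin_cases μ <;> fin_cases ν <;>
    simp [genMatrix, rot3, pauli, Matrix.trace_fin_two, Matrix.mul_apply, Fin.sum_univ_two,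
      Matrix.conjTranspose_apply] <;> norm_num

/-- `diag(e^{s/2}, e^{-s/2})` covers the boost of rapidity `s` in the `3`-direction. -/
theorem isTangent_boost : IsTangent (fun s => ⟨s • 0, slCurve (1 / 2) 0 0 s, 0 * s⟩) 0 boost3 0 :=
  genMatrix_boost3 ▸ isTangent_slCurve 0 (1 / 2) 0 0 0

/-- `diag(e^{-is/2}, e^{is/2})` covers the rotation by the angle `s` about the `3`-axis. -/
theorem isTangent_rotation :
    IsTangent (fun s => ⟨s • 0, slCurve (-(Complex.I / 2)) 0 0 s, 0 * s⟩) 0 rot3 0 :=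
  genMatrix_rot3 ▸ isTangent_slCurve 0 (-(Complex.I / 2)) 0 0 0

end SanityTangent
end Claimed.Open.R282
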