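import Claimed.Open.R282.SanityLorentz
import Claimed.Open.R282.SanityTangent
import Claimed.Open.R282.SanityJoint

/-!
# The affine charges of the improved tensor, in EVERY theory

No model: everything is proved for an ARBITRARY `FieldSystem` over an arbitrary `Background`.  This is the first check in which
`charge`, `flux`, `comm`, `IsSlabFor`, `op_local` and `AffineWardOn` are used together on currents that need not vanish.

1. `charge_imp`: for `X = c + M x + κ x` with `M ∈ so(1,3)` and a test one-form `F` equal to `dρ` on an open set `N`, the charge of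
   the improvement current `X^ν (∂_μ ∂_ν - η_{μν} □) L` is `-3κ · flux (∂L) F + L(R)` with a test function `R` that vanishes on `N`
   (Leibniz rule `pd_mulT_affine`, symmetry of the Hessian of `ρ` on `N`, `3 = 4 - 1` in `contraction_identity`).
2. `comm_op_of_van`: if `N` contains the causal set `J⁺(K) ∪ J⁻(K)` (as in `IsSlabFor`) and `L` is a Bose field, `L(R)` commutes with
   the polynomial algebra `localAlg K` (`op_local`): the definition of a slab does what Section 5.2 of the paper wants from it.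
3. `comm_charge_improved`: on `localAlg K` the affine charges of `t = T + (1/3)(∂∂ - η□)L`, WITHOUT virial term, act as those of `T`
   WITH the virial field `∂_μ L`; `comm_charge_improved_poincare` (`κ = 0`): `T ↦ t` does not change the translation and Lorentz
   charges; `comm_charge_improvedWith`: with a coefficient `a` in place of `1/3` the virial field is `3a ∂_μ L`.
4. `affineWard_improved_iff`: `AffineWardOn localAlg t 0 ↔ AffineWardOn localAlg T (∂L)`.
5. `comm_flux_eq_of_ward`: the Ward identities determine the virial field up to a current whose flux commutes with the enclosed fields.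
6. In the words of `Conclusion`: `virial_gradient_of_conformalWard` (the clause `ConformalWard t` says that on the enlarged family `T⁽⁴⁾`
   has the virial field `∂_μ L`), `comm_flux_V3_eq` (then the conserved current `V⁽³⁾_μ - ∂_μ L` has no charge, provided
   `T⁽⁴⁾`, `V⁽³⁾` keep their Ward identities on the enlarged family).

Not shown: the same on `jointAlg` (locality of insertions with joint kernels), special conformal `X`, and the existence of `L`.
-/

open scoped Distributions ContDiff InnerProductSpace ComplexConjugate Topology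
open TopologicalSpace

noncomputable section

namespace Claimed.Open.R282
namespace SanityCharge

open SanityAlgebra

/-! ### 0. Test functions: linearity, Leibniz rule for affine coefficients, germs -/

theorem pd_add (μ : Fin 4) (f g : Test) : pd μ (f + g) = pd μ f + pd μ g :=
  map_add (TestFunction.lineDerivCLM ℂ (ev μ)) f g

theorem pd_sub (μ : Fin 4) (f g : Test) : pd μ (f - g) = pd μ f - pd μ g :=
  map_sub (TestFunction.lineDerivCLM ℂ (ev μ)) f g

theorem pd_smul (μ : Fin 4) (a : ℂ) (f : Test) : pd μ (a • f) = a • pd μ f :=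
  map_smul (TestFunction.lineDerivCLM ℂ (ev μ)) a f

theorem affine_contDiff (c : M4) (M : Matrix (Fin 4) (Fin 4) ℝ) (κ : ℝ) : ContDiff ℝ ∞ (affineField c M κ) := by
  unfold affineField
  exact (contDiff_const.add (SanityTest.mulVec_contDiff M)).add (contDiff_id.const_smul κ)

/-- `∂_μ X^ν` for `X = c + M x + κ x`. -/
def slope (M : Matrix (Fin 4) (Fin 4) ℝ) (κ : ℝ) (ν μ : Fin 4) : ℝ := M ν μ + κ * (if ν = μ then 1 else 0)

theorem fderiv_affine (c : M4) (M : Matrix (Fin 4) (Fin 4) ℝ) (κ : ℝ) (ν μ : Fin 4) (x : M4) :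
    fderiv ℝ (fun y => affineField c M κ y ν) x (ev μ) = slope M κ ν μ := by
  rw [SanityTest.fderiv_component (affine_contDiff c M κ)]
  have h : HasFDerivAt (affineField c M κ)
      (LinearMap.toContinuousLinearMap (Matrix.mulVecLin M) + κ • ContinuousLinearMap.id ℝ M4) x := by
    unfold affineField
    exact (((LinearMap.toContinuousLinearMap (Matrix.mulVecLin M)).hasFDerivAt (x := x)).const_add c).add
      ((hasFDerivAt_id x).const_smul κ)
  rw [h.fderiv]
  simp [slope, ev, Pi.single_apply]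

theorem mulT_sub' {p : M4 → ℝ} (hp : ContDiff ℝ ∞ p) (f g : Test) : mulT p (f - g) = mulT p f - mulT p g := by
  ext x
  simp only [_root_.sub_apply, SanityTest.mulT_apply hp]
  ring

/-- The Leibniz rule, as an identity of test functions. -/
theorem pd_mulT_affine (c : M4) (M : Matrix (Fin 4) (Fin 4) ℝ) (κ : ℝ) (μ ν : Fin 4) (f : Test) :
    pd μ (mulT (fun x => affineField c M κ x ν) f) =
      (slope M κ ν μ : ℂ) • f + mulT (fun x => affineField c M κ x ν) (pd μ f) := by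
  have hp := SanityTest.contDiff_component (affine_contDiff c M κ) ν
  ext x
  rw [SanityTest.pd_mulT hp, fderiv_affine]
  simp only [_root_.add_apply, _root_.smul_apply, SanityTest.mulT_apply hp, SanityTest.pd_apply, smul_eq_mul]

/-- A test function that vanishes on an open set has vanishing derivatives there. -/
theorem van_pd {N : Set M4} (hN : IsOpen N) {g : Test} (hg : ∀ x ∈ N, g x = 0) (μ : Fin 4) :
    ∀ x ∈ N, pd μ g x = 0 := by
  intro x hx
  rw [SanityTest.pd_apply]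
  have h : (g : M4 → ℂ) =ᶠ[𝓝 x] fun _ => 0 := by
    filter_upwards [hN.mem_nhds hx] with y hy using hg y hy
  rw [h.fderiv_eq]
  simp

theorem van_mulT {N : Set M4} {g : Test} (hg : ∀ x ∈ N, g x = 0) {p : M4 → ℝ} (hp : ContDiff ℝ ∞ p) :
    ∀ x ∈ N, mulT p g x = 0 := by
  intro x hx
  rw [SanityTest.mulT_apply hp, hg x hx, mul_zero]

/-- On the open set where the slab is `dρ`, `∂_ν F_μ` is the Hessian of `ρ`. -/
theorem pd_toC_slab {N : Set M4} (hN : IsOpen N) {ρ : M4 → ℝ} (hρ : ContDiff ℝ ∞ ρ) {F : Fin 4 → RTest}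
    (hF : ∀ x ∈ N, ∀ μ, F μ x = fderiv ℝ ρ x (ev μ)) {x : M4} (hx : x ∈ N) (μ ν : Fin 4) :
    pd ν (toC (F μ)) x = ((fderiv ℝ (fderiv ℝ ρ) x (ev ν) (ev μ) : ℝ) : ℂ) := by
  rw [SanityTest.pd_apply]
  have h : (toC (F μ) : M4 → ℂ) =ᶠ[𝓝 x] fun y => ((fderiv ℝ ρ y (ev μ) : ℝ) : ℂ) := by
    filter_upwards [hN.mem_nhds hx] with y hy
    rw [SanityTest.toC_apply, hF y hy]
  rw [h.fderiv_eq]
  have hd : Differentiable ℝ (fderiv ℝ ρ) :=
    (hρ.fderiv_right (m := 1) (by norm_cast)).differentiable (by norm_num)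
  have h3 := ((hd x).hasFDerivAt).clm_apply (hasFDerivAt_const (ev μ) x)
  have h4 := Complex.ofRealCLM.hasFDerivAt.comp x h3
  have h5 : (fun y => ((fderiv ℝ ρ y (ev μ) : ℝ) : ℂ)) = Complex.ofRealCLM ∘ fun y => fderiv ℝ ρ y (ev μ) := rfl
  rw [h5, h4.fderiv]
  simp

theorem pd_toC_slab_symm {N : Set M4} (hN : IsOpen N) {ρ : M4 → ℝ} (hρ : ContDiff ℝ ∞ ρ) {F : Fin 4 → RTest}
    (hF : ∀ x ∈ N, ∀ μ, F μ x = fderiv ℝ ρ x (ev μ)) {x : M4} (hx : x ∈ N) (μ ν : Fin 4) :
    pd ν (toC (F μ)) x = pd μ (toC (F ν)) x := by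
  rw [pd_toC_slab hN hρ hF hx, pd_toC_slab hN hρ hF hx]
  congr 1
  exact (hρ.contDiffAt.isSymmSndFDerivAt (n := ∞)
    (by simp only [minSmoothness_of_isRCLikeNormedField]; exact WithTop.coe_le_coe.2 le_top)) (ev ν) (ev μ)

/-- The contraction that produces the factor `3 = 4 - 1`. -/
theorem contraction_identity (M : Matrix (Fin 4) (Fin 4) ℝ) (hM : ∀ μ ν, eta ν * M ν μ + eta μ * M μ ν = 0)
    (κ : ℝ) (S : Fin 4 → Fin 4 → ℂ) (hS : ∀ μ ν, S μ ν = S ν μ) :
    ∑ μ, ∑ ν, (eta μ : ℂ) * ((slope M κ ν ν : ℂ) * S μ μ - (slope M κ ν μ : ℂ) * S μ ν) =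
      3 * κ * ∑ μ, (eta μ : ℂ) * S μ μ := by
  have d0 : M 0 0 = 0 := by have := hM 0 0; simp [eta] at this; linarith
  have d1 : M 1 1 = 0 := by have := hM 1 1; simp [eta] at this; linarith
  have d2 : M 2 2 = 0 := by have := hM 2 2; simp [eta] at this; linarith
  have d3 : M 3 3 = 0 := by have := hM 3 3; simp [eta] at this; linarith
  have e01 : M 1 0 = M 0 1 := by have := hM 0 1; simp [eta] at this; linarith
  have e02 : M 2 0 = M 0 2 := by have := hM 0 2; simp [eta] at this; linarith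
  have e03 : M 3 0 = M 0 3 := by have := hM 0 3; simp [eta] at this; linarith
  have e12 : M 2 1 = - M 1 2 := by have := hM 1 2; simp [eta] at this; linarith
  have e13 : M 3 1 = - M 1 3 := by have := hM 1 3; simp [eta] at this; linarith
  have e23 : M 3 2 = - M 2 3 := by have := hM 2 3; simp [eta] at this; linarith
  simp only [Fin.sum_univ_four, slope, d0, d1, d2, d3, e01, e02, e03, e12, e13, e23, hS 1 0, hS 2 0, hS 3 0,
    hS 2 1, hS 3 1, hS 3 2]
  simp [eta]
  ring

variable {H : Type} [NormedAddCommGroup H] [InnerProductSpace ℂ H] [CompleteSpace H]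
variable {B : Background H} (𝔊 : FieldSystem B)

/-! ### 1. Locality: what is smeared outside the causal set of `K` commutes with the fields in `K` -/

theorem spacelike_of_van {K N : Set M4} (hN : IsOpen N) (hKN : causalFuture K ∪ causalPast K ⊆ N) {g f : Test}
    (hg : ∀ x ∈ N, g x = 0) (hf : tsupport f ⊆ K) : SpacelikeSep (tsupport g) (tsupport f) := by
  intro x hx y hy
  have hxN : x ∉ N := by
    have h1 : tsupport g ⊆ Nᶜ := closure_minimal (fun z hz hzN => hz (hg z hzN)) hN.isClosed_compl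
    exact h1 hx
  have hyK := hf hy
  by_contra hlt
  rw [not_lt] at hlt
  rcases le_total 0 ((x - y) 0) with h0 | h0
  · exact hxN (hKN (Or.inl ⟨y, hyK, h0, hlt⟩))
  · refine hxN (hKN (Or.inr ⟨y, hyK, ?_, ?_⟩))
    · simp only [Pi.sub_apply] at h0 ⊢; linarith
    · have h2 : mink (y - x) (y - x) = mink (x - y) (x - y) := by
        simp only [mink, Pi.sub_apply]
        exact Finset.sum_congr rfl fun μ _ => by ring
      rw [h2]; exact hlt

theorem comm_op_of_van {L : 𝔊.F} (hL : 𝔊.par L = L) {K N : Set M4} (hN : IsOpen N)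
    (hKN : causalFuture K ∪ causalPast K ⊆ N) {g : Test} (hg : ∀ x ∈ N, g x = 0) :
    ∀ P ∈ 𝔊.localAlg K, 𝔊.comm (𝔊.op L g) P = 0 := by
  intro P hP
  have hle : 𝔊.localAlg K ≤ Subalgebra.centralizer ℂ {𝔊.op L g} := by
    refine Algebra.adjoin_le ?_
    rintro X ⟨A, f, hf, rfl⟩
    rw [SetLike.mem_coe, Subalgebra.mem_centralizer_iff]
    intro Q hQ
    rw [Set.mem_singleton_iff] at hQ
    subst hQ
    exact (𝔊.op_local L A g f (spacelike_of_van hN hKN hg hf)).1 (Or.inl hL)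
  have h := (Subalgebra.mem_centralizer_iff ℂ).1 (hle hP) _ rfl
  unfold FieldSystem.comm
  rw [h, sub_self]

/-! ### 2. The charge of the improvement term -/

/-- The improvement term `(∂_μ ∂_ν - η_{μν} □) L`. -/
def imp (L : 𝔊.F) (μ ν : Fin 4) : 𝔊.F := 𝔊.der μ (𝔊.der ν L) - (etaM μ ν : ℂ) • 𝔊.box L

theorem op_der_der (L : 𝔊.F) (μ ν : Fin 4) (g : Test) :
    𝔊.op (𝔊.der μ (𝔊.der ν L)) g = 𝔊.op L (pd μ (pd ν g)) := by
  rw [𝔊.op_der, 𝔊.op_der, neg_neg, pd_comm]

theorem op_box (L : 𝔊.F) (g : Test) : 𝔊.op (𝔊.box L) g = ∑ α, (eta α : ℂ) • 𝔊.op L (pd α (pd α g)) := by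
  unfold FieldSystem.box
  simp only [map_sum, map_smul, LinearMap.sum_apply, LinearMap.smul_apply, op_der_der]

/-- For ANY family of test functions `W μ ν` (in `charge`: `W μ ν = X^ν F_μ`). -/
theorem sum_op_imp (L : 𝔊.F) (W : Fin 4 → Fin 4 → Test) :
    ∑ μ, ∑ ν, (eta μ : ℂ) • 𝔊.op (imp 𝔊 L μ ν) (W μ ν) =
      𝔊.op L (∑ μ, ∑ ν, (eta μ : ℂ) • pd μ (pd ν (W μ ν) - pd μ (W ν ν))) := by
  have h1 : ∀ μ, ∑ ν, (eta μ : ℂ) • 𝔊.op (imp 𝔊 L μ ν) (W μ ν) =
      ∑ ν, (eta μ : ℂ) • 𝔊.op L (pd μ (pd ν (W μ ν))) - ∑ α, (eta α : ℂ) • 𝔊.op L (pd α (pd α (W μ μ))) := by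
    intro μ
    have h2 : ∀ ν, (eta μ : ℂ) • 𝔊.op (imp 𝔊 L μ ν) (W μ ν) = (eta μ : ℂ) • 𝔊.op L (pd μ (pd ν (W μ ν))) -
        (if μ = ν then (1 : ℂ) else 0) • ∑ α, (eta α : ℂ) • 𝔊.op L (pd α (pd α (W μ ν))) := by
      intro ν
      unfold imp
      rw [map_sub, map_smul, LinearMap.sub_apply, LinearMap.smul_apply, op_der_der, op_box, smul_sub, smul_smul,
        ← Complex.ofReal_mul, eta_mul_etaM]
      have hc : ((if μ = ν then (1 : ℝ) else 0 : ℝ) : ℂ) = if μ = ν then (1 : ℂ) else 0 := by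
        split_ifs <;> simp
      rw [hc]
    rw [Finset.sum_congr rfl fun ν _ => h2 ν, Finset.sum_sub_distrib]
    congr 1
    rw [Finset.sum_eq_single μ]
    · simp
    · intro ν _ hν
      rw [if_neg (Ne.symm hν), zero_smul]
    · intro h; exact absurd (Finset.mem_univ μ) h
  rw [Finset.sum_congr rfl fun μ _ => h1 μ, Finset.sum_sub_distrib, Finset.sum_comm (γ := Fin 4) (f := fun μ α =>
    (eta α : ℂ) • 𝔊.op L (pd α (pd α (W μ μ)))), ← Finset.sum_sub_distrib]
  simp only [map_sum, map_smul, pd_sub, map_sub, smul_sub, Finset.sum_sub_distrib]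

/-- **The charge of the improvement term.**  For `X = c + M x + κ x`, `M ∈ so(1,3)`, and test one-forms `F` that are `dρ` on the
open set `N`: the charge of `X^ν (∂_μ ∂_ν - η_{μν} □) L` is `-3κ` times the flux of the gradient `∂_μ L`, up to `L` smeared with a
test function that vanishes on `N`. -/
theorem charge_imp (L : 𝔊.F) (c : M4) {M : Matrix (Fin 4) (Fin 4) ℝ}
    (hM : ∀ μ ν, eta ν * M ν μ + eta μ * M μ ν = 0) (κ : ℝ) {N : Set M4} (hN : IsOpen N) {ρ : M4 → ℝ}
    (hρ : ContDiff ℝ ∞ ρ) {F : Fin 4 → RTest} (hF : ∀ x ∈ N, ∀ μ, F μ x = fderiv ℝ ρ x (ev μ)) :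
    ∃ R : Test, (∀ x ∈ N, R x = 0) ∧
      𝔊.charge (imp 𝔊 L) (affineField c M κ) F =
        -((3 * κ : ℂ) • 𝔊.flux (fun μ => 𝔊.der μ L) F) + 𝔊.op L R := by
  have hp := fun ν => SanityTest.contDiff_component (affine_contDiff c M κ) ν
  refine ⟨(∑ μ, ∑ ν, (eta μ : ℂ) • pd μ (pd ν (mulT (fun x => affineField c M κ x ν) (toC (F μ))) -
      pd μ (mulT (fun x => affineField c M κ x ν) (toC (F ν))))) -
      (3 * κ : ℂ) • ∑ μ, (eta μ : ℂ) • pd μ (toC (F μ)), ?_, ?_⟩
  · intro x hx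
    have hC : ∀ μ ν, ∀ y ∈ N, (pd ν (toC (F μ)) - pd μ (toC (F ν))) y = 0 := by
      intro μ ν y hy
      rw [_root_.sub_apply, pd_toC_slab_symm hN hρ hF hy μ ν, sub_self]
    have hE : ∀ μ ν, pd μ (pd ν (mulT (fun x => affineField c M κ x ν) (toC (F μ))) -
        pd μ (mulT (fun x => affineField c M κ x ν) (toC (F ν)))) x =
        (slope M κ ν ν : ℂ) * pd μ (toC (F μ)) x - (slope M κ ν μ : ℂ) * pd μ (toC (F ν)) x := by
      intro μ ν
      have h1 : pd ν (mulT (fun x => affineField c M κ x ν) (toC (F μ))) -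
          pd μ (mulT (fun x => affineField c M κ x ν) (toC (F ν))) =
          (slope M κ ν ν : ℂ) • toC (F μ) - (slope M κ ν μ : ℂ) • toC (F ν) +
            mulT (fun x => affineField c M κ x ν) (pd ν (toC (F μ)) - pd μ (toC (F ν))) := by
        rw [pd_mulT_affine, pd_mulT_affine, mulT_sub' (hp ν)]
        abel
      rw [h1, pd_add, pd_sub, pd_smul, pd_smul, _root_.add_apply, _root_.sub_apply, _root_.smul_apply,
        _root_.smul_apply, van_pd hN (van_mulT (hC μ ν) (hp ν)) μ x hx, add_zero, smul_eq_mul, smul_eq_mul]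
    rw [_root_.sub_apply, _root_.smul_apply, SanityLorentz.sum_test_apply, SanityLorentz.sum_test_apply]
    simp only [SanityLorentz.sum_test_apply, _root_.smul_apply, hE, smul_eq_mul]
    rw [contraction_identity M hM κ (fun μ ν => pd μ (toC (F ν)) x)
      (fun μ ν => pd_toC_slab_symm hN hρ hF hx ν μ), sub_self]
  · have h1 : 𝔊.charge (imp 𝔊 L) (affineField c M κ) F = _ :=
      sum_op_imp 𝔊 L fun μ ν => mulT (fun x => affineField c M κ x ν) (toC (F μ))
    have h2 : 𝔊.flux (fun μ => 𝔊.der μ L) F = - 𝔊.op L (∑ μ, (eta μ : ℂ) • pd μ (toC (F μ))) := by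
      unfold FieldSystem.flux
      simp only [𝔊.op_der, smul_neg, Finset.sum_neg_distrib, map_sum, map_smul]
    rw [h1, h2, map_sub, map_smul]
    module

theorem charge_improvedWith (a : ℂ) (T : Fin 4 → Fin 4 → 𝔊.F) (L : 𝔊.F) (X : M4 → M4) (F : Fin 4 → RTest) :
    𝔊.charge (improvedWith 𝔊 a T L) X F = 𝔊.charge T X F + a • 𝔊.charge (imp 𝔊 L) X F := by
  unfold FieldSystem.charge improvedWith imp
  simp only [map_add, map_smul, LinearMap.add_apply, LinearMap.smul_apply, smul_add, Finset.sum_add_distrib,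
    Finset.smul_sum, smul_comm a]

theorem comm_add_smul (Q Q' P : Module.End ℂ 𝔊.domain) (a : ℂ) :
    𝔊.comm (Q + a • Q') P = 𝔊.comm Q P + a • 𝔊.comm Q' P := by
  unfold FieldSystem.comm
  rw [add_mul, mul_add, smul_mul_assoc, mul_smul_comm, smul_sub]
  abel

/-- **`T ↦ t` trades the virial field for the gradient of `L`.**  On the polynomial algebra of a region enclosed by the slab, the
affine charges of `t = T + (1/3)(∂∂ - η□) L` (no virial term) act as the affine charges of `T` with the virial field `∂_μ L`.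
In particular (`κ = 0`) the improvement does not change the translation and Lorentz charges. -/
theorem comm_charge_improved {L : 𝔊.F} (hL : 𝔊.par L = L) (T : Fin 4 → Fin 4 → 𝔊.F) (c : M4)
    {M : Matrix (Fin 4) (Fin 4) ℝ} (hM : ∀ μ ν, eta ν * M ν μ + eta μ * M μ ν = 0) (κ : ℝ) {K : Set M4}
    {F : Fin 4 → RTest} (hF : IsSlabFor K F) : ∀ P ∈ 𝔊.localAlg K,
    𝔊.comm (𝔊.charge (improved 𝔊 T L) (affineField c M κ) F) P =
      𝔊.comm (𝔊.charge T (affineField c M κ) F - (κ : ℂ) • 𝔊.flux (fun μ => 𝔊.der μ L) F) P := by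
  intro P hP
  obtain ⟨ρ, hρ, ⟨N, hN, hKN, hFN⟩, -, -⟩ := hF
  obtain ⟨R, hR, hch⟩ := charge_imp 𝔊 L c hM κ hN hρ hFN
  have h1 : 𝔊.charge (improved 𝔊 T L) (affineField c M κ) F =
      (𝔊.charge T (affineField c M κ) F - (κ : ℂ) • 𝔊.flux (fun μ => 𝔊.der μ L) F) + (1 / 3 : ℂ) • 𝔊.op L R := by
    rw [improved_eq, charge_improvedWith, hch]
    module
  rw [h1, comm_add_smul, comm_op_of_van 𝔊 hL hN hKN hR P hP, smul_zero, add_zero]

/-- With a coefficient `a` in place of `1/3` the virial field is `3a ∂_μ L`. -/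
theorem comm_charge_improvedWith (a : ℂ) {L : 𝔊.F} (hL : 𝔊.par L = L) (T : Fin 4 → Fin 4 → 𝔊.F) (c : M4)
    {M : Matrix (Fin 4) (Fin 4) ℝ} (hM : ∀ μ ν, eta ν * M ν μ + eta μ * M μ ν = 0) (κ : ℝ) {K : Set M4}
    {F : Fin 4 → RTest} (hF : IsSlabFor K F) : ∀ P ∈ 𝔊.localAlg K,
    𝔊.comm (𝔊.charge (improvedWith 𝔊 a T L) (affineField c M κ) F) P =
      𝔊.comm (𝔊.charge T (affineField c M κ) F - (κ : ℂ) • 𝔊.flux (fun μ => (3 * a) • 𝔊.der μ L) F) P := by
  intro P hP
  obtain ⟨ρ, hρ, ⟨N, hN, hKN, hFN⟩, -, -⟩ := hF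
  obtain ⟨R, hR, hch⟩ := charge_imp 𝔊 L c hM κ hN hρ hFN
  have h0 : 𝔊.flux (fun μ => (3 * a) • 𝔊.der μ L) F = (3 * a) • 𝔊.flux (fun μ => 𝔊.der μ L) F := by
    unfold FieldSystem.flux
    simp only [map_smul, LinearMap.smul_apply, Finset.smul_sum, smul_comm (3 * a)]
  have h1 : 𝔊.charge (improvedWith 𝔊 a T L) (affineField c M κ) F =
      (𝔊.charge T (affineField c M κ) F - (κ : ℂ) • 𝔊.flux (fun μ => (3 * a) • 𝔊.der μ L) F) + a • 𝔊.op L R := by
    rw [charge_improvedWith, hch, h0]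
    module
  rw [h1, comm_add_smul, comm_op_of_van 𝔊 hL hN hKN hR P hP, smul_zero, add_zero]

theorem flux_zero (F : Fin 4 → RTest) : 𝔊.flux 0 F = 0 := by
  unfold FieldSystem.flux
  simp

/-- **The affine clause of `ConformalWard` for `t`, read on the fields**: `t` satisfies the affine Ward identities without virial
term iff `T` satisfies them with the virial field `∂_μ L`. -/
theorem affineWard_improved_iff {L : 𝔊.F} (hL : 𝔊.par L = L) (T : Fin 4 → Fin 4 → 𝔊.F) :
    𝔊.AffineWardOn 𝔊.localAlg (improved 𝔊 T L) 0 ↔ 𝔊.AffineWardOn 𝔊.localAlg T fun μ => 𝔊.der μ L := by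
  have key : ∀ (γ : ℝ → Sim) (c : M4) (M : Matrix (Fin 4) (Fin 4) ℝ) (κ : ℝ), IsTangent γ c M κ →
      ∀ (K : Set M4) (F : Fin 4 → RTest), IsSlabFor K F → ∀ P ∈ 𝔊.localAlg K,
      𝔊.comm (𝔊.charge (improved 𝔊 T L) (affineField c M κ) F - (κ : ℂ) • 𝔊.flux 0 F) P =
        𝔊.comm (𝔊.charge T (affineField c M κ) F - (κ : ℂ) • 𝔊.flux (fun μ => 𝔊.der μ L) F) P := by
    intro γ c M κ hγ K F hF P hP
    rw [flux_zero, smul_zero, sub_zero]
    exact comm_charge_improved 𝔊 hL T c (SanityTangent.isTangent_antisymm hγ) κ hF P hP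
  constructor
  · intro h γ c M κ hγ K F hF P hP φ ψ
    have := h γ c M κ hγ K F hF P hP φ ψ
    rwa [key γ c M κ hγ K F hF P hP] at this
  · intro h γ c M κ hγ K F hF P hP φ ψ
    have := h γ c M κ hγ K F hF P hP φ ψ
    rwa [← key γ c M κ hγ K F hF P hP] at this

/-- `κ = 0`: the improvement does not change the translation and Lorentz charges. -/
theorem comm_charge_improved_poincare {L : 𝔊.F} (hL : 𝔊.par L = L) (T : Fin 4 → Fin 4 → 𝔊.F) (c : M4)
    {M : Matrix (Fin 4) (Fin 4) ℝ} (hM : ∀ μ ν, eta ν * M ν μ + eta μ * M μ ν = 0) {K : Set M4}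
    {F : Fin 4 → RTest} (hF : IsSlabFor K F) : ∀ P ∈ 𝔊.localAlg K,
    𝔊.comm (𝔊.charge (improved 𝔊 T L) (affineField c M 0) F) P = 𝔊.comm (𝔊.charge T (affineField c M 0) F) P := by
  intro P hP
  rw [comm_charge_improved 𝔊 hL T c hM 0 hF P hP]
  simp

/-! ### 3. The virial field is determined by the Ward identities up to a current without charge -/

theorem end_ext_inner' {X Y : Module.End ℂ 𝔊.domain}
    (h : ∀ φ ψ : 𝔊.domain, ⟪(φ : H), (X ψ : H)⟫_ℂ = ⟪(φ : H), (Y ψ : H)⟫_ℂ) : X = Y := by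
  refine end_ext_inner 𝔊 fun ψ φ => ?_
  rw [← inner_conj_symm, h φ ψ, inner_conj_symm]

/-- Two virial fields for the same tensor have fluxes with the same action on the enclosed polynomial algebra. -/
theorem comm_flux_eq_of_ward {T : Fin 4 → Fin 4 → 𝔊.F} {V V' : Fin 4 → 𝔊.F}
    (h : 𝔊.AffineWardOn 𝔊.localAlg T V) (h' : 𝔊.AffineWardOn 𝔊.localAlg T V') {K : Set M4}
    {F : Fin 4 → RTest} (hF : IsSlabFor K F) : ∀ P ∈ 𝔊.localAlg K,
    𝔊.comm (𝔊.flux V F) P = 𝔊.comm (𝔊.flux V' F) P := by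
  intro P hP
  have h1 : (-Complex.I) • 𝔊.comm (𝔊.charge T (affineField 0 0 1) F - ((1 : ℝ) : ℂ) • 𝔊.flux V F) P =
      (-Complex.I) • 𝔊.comm (𝔊.charge T (affineField 0 0 1) F - ((1 : ℝ) : ℂ) • 𝔊.flux V' F) P :=
    end_ext_inner' 𝔊 fun φ ψ =>
      (h _ 0 0 1 SanityTangent.isTangent_dilation K F hF P hP φ ψ).unique
        (h' _ 0 0 1 SanityTangent.isTangent_dilation K F hF P hP φ ψ)
  have h2 := smul_right_injective _ (neg_ne_zero.2 Complex.I_ne_zero) h1
  have h3 : ∀ W : Fin 4 → 𝔊.F, 𝔊.comm (𝔊.charge T (affineField 0 0 1) F - ((1 : ℝ) : ℂ) • 𝔊.flux W F) P =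
      𝔊.comm (𝔊.charge T (affineField 0 0 1) F) P + (-1 : ℂ) • 𝔊.comm (𝔊.flux W F) P := by
    intro W
    rw [← comm_add_smul]
    congr 1
    rw [Complex.ofReal_one, one_smul]
    module
  rw [h3, h3] at h2
  have h4 := add_left_cancel h2
  exact smul_right_injective _ (neg_ne_zero.2 one_ne_zero) h4

/-! ### 4. In the words of `Conclusion` -/

section clauses

variable {𝔉 : FieldSystem B} (S : StressData 𝔉) {𝔏 : FieldSystem B} (e : Extension 𝔉 𝔏)

/-- **What the clause `ConformalWard` of `Conclusion` says about the virial field**: on the enlarged family, `T⁽⁴⁾` satisfies the affine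
Ward identities with the virial field `∂_μ L` ("the virial current is a gradient"). -/
theorem virial_gradient_of_conformalWard {L : 𝔏.F} (hp : 𝔏.par L = L)
    (hW : 𝔏.ConformalWard (improved 𝔏 (fun μ ν => e.ι (S.T4 μ ν)) L)) :
    𝔏.AffineWardOn 𝔏.localAlg (fun μ ν => e.ι (S.T4 μ ν)) fun μ => 𝔏.der μ L :=
  (affineWard_improved_iff 𝔏 hp _).1 fun γ c M κ hγ K F hF P hP φ ψ =>
    hW.affine γ c M κ hγ K F hF P (SanityJoint.localAlg_le_jointAlg 𝔏 K hP) φ ψ

/-- If moreover `T⁽⁴⁾`, `V⁽³⁾` keep their affine Ward identities on the enlarged family, then the conserved current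
`V⁽³⁾_μ - ∂_μ L` (conserved by the clause `∂^μ V⁽³⁾_μ = □ L`) has no charge: its flux through a slab commutes with the enclosed fields. -/
theorem comm_flux_V3_eq {L : 𝔏.F} (hp : 𝔏.par L = L)
    (hW : 𝔏.ConformalWard (improved 𝔏 (fun μ ν => e.ι (S.T4 μ ν)) L))
    (h : 𝔏.AffineWardOn 𝔏.localAlg (fun μ ν => e.ι (S.T4 μ ν)) fun μ => e.ι (S.V3 μ)) {K : Set M4}
    {F : Fin 4 → RTest} (hF : IsSlabFor K F) : ∀ P ∈ 𝔏.localAlg K,
    𝔏.comm (𝔏.flux (fun μ => e.ι (S.V3 μ)) F) P = 𝔏.comm (𝔏.flux (fun μ => 𝔏.der μ L) F) P :=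
  comm_flux_eq_of_ward 𝔏 h (virial_gradient_of_conformalWard S e hp hW) hF

end clauses

end SanityCharge
end Claimed.Open.R282
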