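import Claimed.Open.R282.SanityTest

/-!
# Sanity checks for the causal structure used in `Statement.lean`

The covariance clause `Background.net_cov` evaluates the net on `g.act '' O`, and only the values of the
net on double cones carry information.  This file shows that the clause never hits a junk value, and
that all causal notions of `Statement.lean` are covariant under the similarity group:

* `lorentz_mem_openCone`, `lorentz_mem_closedCone`: `Λ(A)` is orthochronous;
* `isDoubleCone_image_act`: the image of a double cone under a similarity is a double cone;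
* `spacelikeSep_image_act`: spacelike separation is preserved;
* `causalFuture_image_act`, `causalPast_image_act`: `J^±(g K) = g J^±(K)`;
* `mink_pos_of_mem_openCone`: the reverse Cauchy-Schwarz inequality in the form needed;
* `isDoubleCone_isOpen`, `isDoubleCone_nonempty`, `isDoubleCone_isBounded`;
* `exists_isDoubleCone_subset`: double cones form a neighbourhood basis ("arbitrarily small double
  cones"), so that the join defining `Background.alg R` is never empty for a nonempty open `R`.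
-/

open scoped Distributions ContDiff InnerProductSpace ComplexConjugate Topology SchwartzMap Matrix
open TopologicalSpace

noncomputable section

namespace Claimed.Open.R282
namespace SanityCone

open Sanity SanityTest

theorem mink_comm (x y : M4) : mink x y = mink y x := by
  simp only [mink]; exact Finset.sum_congr rfl fun _ _ => by ring

theorem mink_expand (x y : M4) : mink x y = x 0 * y 0 - x 1 * y 1 - x 2 * y 2 - x 3 * y 3 := by
  simp [mink, eta, Fin.sum_univ_four]; ring

theorem mink_smul_smul (c : ℝ) (x : M4) : mink (c • x) (c • x) = c ^ 2 * mink x x := by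
  simp only [mink_expand, Pi.smul_apply, smul_eq_mul]; ring

/-- Reverse Cauchy-Schwarz: a vector of the closed and a vector of the open forward cone (the first
one nonzero in time) have positive product. -/
theorem mink_pos_of_mem_openCone {p q : M4} (hp : p ∈ openCone) (hq : q ∈ openCone) :
    0 < mink p q := by
  obtain ⟨hp0, hp⟩ := hp
  obtain ⟨hq0, hq⟩ := hq
  rw [mink_expand] at hp hq ⊢
  by_contra hcon
  rw [not_lt] at hcon
  set S := p 1 * q 1 + p 2 * q 2 + p 3 * q 3 with hS
  have h1 : p 0 * q 0 ≤ S := by linarith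
  have h2 : S ^ 2 ≤ (p 1 ^ 2 + p 2 ^ 2 + p 3 ^ 2) * (q 1 ^ 2 + q 2 ^ 2 + q 3 ^ 2) := by
    rw [hS]
    nlinarith [sq_nonneg (p 1 * q 2 - p 2 * q 1), sq_nonneg (p 1 * q 3 - p 3 * q 1),
      sq_nonneg (p 2 * q 3 - p 3 * q 2)]
  have h3 : (p 0 * q 0) ^ 2 ≤ S ^ 2 := by
    have : 0 < p 0 * q 0 := mul_pos hp0 hq0
    nlinarith
  have h4 : (p 1 ^ 2 + p 2 ^ 2 + p 3 ^ 2) < p 0 ^ 2 := by nlinarith
  have h5 : (q 1 ^ 2 + q 2 ^ 2 + q 3 ^ 2) < q 0 ^ 2 := by nlinarith
  have h6 : (p 1 ^ 2 + p 2 ^ 2 + p 3 ^ 2) * (q 1 ^ 2 + q 2 ^ 2 + q 3 ^ 2) < p 0 ^ 2 * q 0 ^ 2 := by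
    have a1 : 0 ≤ p 1 ^ 2 + p 2 ^ 2 + p 3 ^ 2 := by positivity
    have a2 : 0 ≤ q 1 ^ 2 + q 2 ^ 2 + q 3 ^ 2 := by positivity
    have a3 : 0 < p 0 ^ 2 := by positivity
    nlinarith
  nlinarith

theorem ev0_mem_openCone : ev 0 ∈ openCone := by
  refine ⟨by simp [ev], ?_⟩
  rw [mink_expand]; simp [ev]

theorem mink_ev0 (x : M4) : mink (ev 0) x = x 0 := by
  rw [mink_expand]; simp [ev]

/-- `Λ(A)^0{}_0 = ½ tr(A A^†) > 0`. -/
theorem lorentz_zero_zero_pos (A : SL2C) : 0 < lorentz A 0 0 := by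
  have hdet := A.2
  rw [Matrix.det_fin_two] at hdet
  have e : lorentz A 0 0 = (Complex.normSq (A.1 0 0) + Complex.normSq (A.1 0 1)
      + Complex.normSq (A.1 1 0) + Complex.normSq (A.1 1 1)) / 2 := by
    simp [lorentz, pauli, Matrix.trace_fin_two, Matrix.mul_apply, Fin.sum_univ_two,
      Matrix.conjTranspose_apply, Complex.normSq_apply]
    ring
  rw [e]
  have h0 := Complex.normSq_nonneg (A.1 0 0)
  have h1 := Complex.normSq_nonneg (A.1 0 1)
  have h2 := Complex.normSq_nonneg (A.1 1 0)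
  have h3 := Complex.normSq_nonneg (A.1 1 1)
  by_contra hcon
  rw [not_lt] at hcon
  have z0 : A.1 0 0 = 0 := Complex.normSq_eq_zero.mp (by linarith)
  have z1 : A.1 0 1 = 0 := Complex.normSq_eq_zero.mp (by linarith)
  rw [z0, z1] at hdet
  simp at hdet

theorem lorentz_ev0_mem_openCone (A : SL2C) : (lorentz A).mulVec (ev 0) ∈ openCone := by
  refine ⟨?_, ?_⟩
  · have : (lorentz A).mulVec (ev 0) 0 = lorentz A 0 0 := by
      simp [ev]
    rw [this]; exact lorentz_zero_zero_pos A
  · rw [mink_self_lorentz]; exact ev0_mem_openCone.2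

theorem lorentz_inv_mulVec (A : SL2C) (x : M4) :
    (lorentz A⁻¹).mulVec ((lorentz A).mulVec x) = x := by
  rw [← lorentz_mulVec_mul, inv_mul_cancel, lorentz_one_mulVec]

theorem lorentz_mulVec_inv (A : SL2C) (x : M4) :
    (lorentz A).mulVec ((lorentz A⁻¹).mulVec x) = x := by
  rw [← lorentz_mulVec_mul, mul_inv_cancel, lorentz_one_mulVec]

/-- the time component of `Λ p` is the product of `p` with the timelike vector `Λ⁻¹ e₀` -/
theorem lorentz_mulVec_zero (A : SL2C) (p : M4) :
    (lorentz A).mulVec p 0 = mink ((lorentz A⁻¹).mulVec (ev 0)) p := by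
  rw [← mink_ev0 ((lorentz A).mulVec p), ← mink_lorentz A⁻¹, lorentz_inv_mulVec]

/-- `Λ(A)` is orthochronous: it maps the open forward cone into itself. -/
theorem lorentz_mem_openCone (A : SL2C) {p : M4} (hp : p ∈ openCone) :
    (lorentz A).mulVec p ∈ openCone := by
  refine ⟨?_, ?_⟩
  · rw [lorentz_mulVec_zero]
    exact mink_pos_of_mem_openCone (lorentz_ev0_mem_openCone _) hp
  · rw [mink_self_lorentz]; exact hp.2

theorem lorentz_mem_openCone_iff (A : SL2C) {p : M4} :
    (lorentz A).mulVec p ∈ openCone ↔ p ∈ openCone :=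
  ⟨fun h => by
    have := lorentz_mem_openCone A⁻¹ h
    rwa [lorentz_inv_mulVec] at this, lorentz_mem_openCone A⟩

theorem smul_mem_openCone {c : ℝ} (hc : 0 < c) {p : M4} (hp : p ∈ openCone) : c • p ∈ openCone := by
  refine ⟨by simpa using mul_pos hc hp.1, ?_⟩
  rw [mink_smul_smul]
  exact mul_pos (by positivity) hp.2

theorem act_sub_act (g : Sim) (x y : M4) :
    g.act x - g.act y = Real.exp g.s • (lorentz g.A).mulVec (x - y) := by
  simp only [Sim.act, Matrix.mulVec_sub, smul_sub]
  abel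

theorem act_sub_act_mem_openCone_iff (g : Sim) (x y : M4) :
    g.act x - g.act y ∈ openCone ↔ x - y ∈ openCone := by
  rw [act_sub_act]
  constructor
  · intro h
    have := smul_mem_openCone (Real.exp_pos (-g.s)) h
    rw [smul_smul, ← Real.exp_add] at this
    simpa [lorentz_mem_openCone_iff] using this
  · intro h
    exact smul_mem_openCone (Real.exp_pos _) (lorentz_mem_openCone _ h)

/-- **The covariance clause of the net is meaningful**: similarities map double cones onto double
cones, `g ((a + V₊) ∩ (b - V₊)) = (g a + V₊) ∩ (g b - V₊)`. -/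
theorem isDoubleCone_image_act (g : Sim) {O : Set M4} (hO : IsDoubleCone O) :
    IsDoubleCone (g.act '' O) := by
  obtain ⟨a, b, hab, rfl⟩ := hO
  refine ⟨g.act a, g.act b, (act_sub_act_mem_openCone_iff g b a).mpr hab, ?_⟩
  ext y
  constructor
  · rintro ⟨x, ⟨h1, h2⟩, rfl⟩
    exact ⟨(act_sub_act_mem_openCone_iff g x a).mpr h1, (act_sub_act_mem_openCone_iff g b x).mpr h2⟩
  · rintro ⟨h1, h2⟩
    refine ⟨invAct g y, ⟨?_, ?_⟩, act_invAct g y⟩
    · rw [← act_sub_act_mem_openCone_iff g, act_invAct]; exact h1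
    · rw [← act_sub_act_mem_openCone_iff g, act_invAct]; exact h2

theorem mink_act_sub_act (g : Sim) (x y : M4) :
    mink (g.act x - g.act y) (g.act x - g.act y) = Real.exp g.s ^ 2 * mink (x - y) (x - y) := by
  rw [act_sub_act, mink_smul_smul, mink_self_lorentz]

/-- Spacelike separation is invariant under similarities. -/
theorem spacelikeSep_image_act (g : Sim) {S T : Set M4} (h : SpacelikeSep S T) :
    SpacelikeSep (g.act '' S) (g.act '' T) := by
  rintro _ ⟨x, hx, rfl⟩ _ ⟨y, hy, rfl⟩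
  rw [mink_act_sub_act]
  exact mul_neg_of_pos_of_neg (by positivity) (h x hx y hy)

/-! ### The closed cone and the causal sets -/

theorem mink_nonneg_of_mem {q p : M4} (hq : q ∈ openCone) (hp : p ∈ closedCone) : 0 ≤ mink q p := by
  obtain ⟨hp0, hp⟩ := hp
  obtain ⟨hq0, hq⟩ := hq
  rw [mink_expand] at hp hq ⊢
  by_contra hcon
  rw [not_le] at hcon
  set S := q 1 * p 1 + q 2 * p 2 + q 3 * p 3 with hS
  have h1 : q 0 * p 0 < S := by linarith
  have h2 : S ^ 2 ≤ (q 1 ^ 2 + q 2 ^ 2 + q 3 ^ 2) * (p 1 ^ 2 + p 2 ^ 2 + p 3 ^ 2) := by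
    rw [hS]
    nlinarith [sq_nonneg (q 1 * p 2 - q 2 * p 1), sq_nonneg (q 1 * p 3 - q 3 * p 1),
      sq_nonneg (q 2 * p 3 - q 3 * p 2)]
  have h3 : (q 0 * p 0) ^ 2 < S ^ 2 := by
    have : 0 ≤ q 0 * p 0 := mul_nonneg hq0.le hp0
    nlinarith
  have h4 : (p 1 ^ 2 + p 2 ^ 2 + p 3 ^ 2) ≤ p 0 ^ 2 := by nlinarith
  have h5 : (q 1 ^ 2 + q 2 ^ 2 + q 3 ^ 2) ≤ q 0 ^ 2 := by nlinarith
  have h6 : (q 1 ^ 2 + q 2 ^ 2 + q 3 ^ 2) * (p 1 ^ 2 + p 2 ^ 2 + p 3 ^ 2) ≤ q 0 ^ 2 * p 0 ^ 2 := by
    have a1 : 0 ≤ p 1 ^ 2 + p 2 ^ 2 + p 3 ^ 2 := by positivity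
    have a3 : 0 ≤ q 0 ^ 2 := by positivity
    nlinarith
  nlinarith

theorem lorentz_mem_closedCone (A : SL2C) {p : M4} (hp : p ∈ closedCone) :
    (lorentz A).mulVec p ∈ closedCone := by
  refine ⟨?_, ?_⟩
  · rw [lorentz_mulVec_zero]
    exact mink_nonneg_of_mem (lorentz_ev0_mem_openCone _) hp
  · rw [mink_self_lorentz]; exact hp.2

theorem smul_mem_closedCone {c : ℝ} (hc : 0 ≤ c) {p : M4} (hp : p ∈ closedCone) :
    c • p ∈ closedCone := by
  refine ⟨by simpa using mul_nonneg hc hp.1, ?_⟩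
  rw [mink_smul_smul]
  exact mul_nonneg (by positivity) hp.2

theorem act_sub_act_mem_closedCone_iff (g : Sim) (x y : M4) :
    g.act x - g.act y ∈ closedCone ↔ x - y ∈ closedCone := by
  rw [act_sub_act]
  constructor
  · intro h
    have h1 := smul_mem_closedCone (Real.exp_pos (-g.s)).le h
    rw [smul_smul, ← Real.exp_add, neg_add_cancel, Real.exp_zero, one_smul] at h1
    have h2 := lorentz_mem_closedCone g.A⁻¹ h1
    rwa [lorentz_inv_mulVec] at h2
  · intro h
    exact smul_mem_closedCone (Real.exp_pos _).le (lorentz_mem_closedCone _ h)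

/-- `J⁺(g K) = g J⁺(K)`. -/
theorem causalFuture_image_act (g : Sim) (K : Set M4) :
    causalFuture (g.act '' K) = g.act '' causalFuture K := by
  ext x
  constructor
  · rintro ⟨_, ⟨y, hy, rfl⟩, h⟩
    refine ⟨invAct g x, ⟨y, hy, ?_⟩, act_invAct g x⟩
    rw [← act_sub_act_mem_closedCone_iff g, act_invAct]; exact h
  · rintro ⟨x, ⟨y, hy, h⟩, rfl⟩
    exact ⟨_, ⟨y, hy, rfl⟩, (act_sub_act_mem_closedCone_iff g x y).mpr h⟩

/-- `J⁻(g K) = g J⁻(K)`. -/
theorem causalPast_image_act (g : Sim) (K : Set M4) :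
    causalPast (g.act '' K) = g.act '' causalPast K := by
  ext x
  constructor
  · rintro ⟨_, ⟨y, hy, rfl⟩, h⟩
    refine ⟨invAct g x, ⟨y, hy, ?_⟩, act_invAct g x⟩
    rw [← act_sub_act_mem_closedCone_iff g, act_invAct]; exact h
  · rintro ⟨x, ⟨y, hy, h⟩, rfl⟩
    exact ⟨_, ⟨y, hy, rfl⟩, (act_sub_act_mem_closedCone_iff g y x).mpr h⟩

/-! ### Topology of double cones -/

theorem continuous_mink_self : Continuous fun p : M4 => mink p p := by
  simp only [mink]
  fun_prop

theorem isOpen_openCone : IsOpen openCone :=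
  (isOpen_lt continuous_const (continuous_apply 0)).inter (isOpen_lt continuous_const continuous_mink_self)

theorem isDoubleCone_isOpen {O : Set M4} (hO : IsDoubleCone O) : IsOpen O := by
  obtain ⟨a, b, -, rfl⟩ := hO
  exact (isOpen_openCone.preimage (continuous_id.sub continuous_const)).inter
    (isOpen_openCone.preimage (continuous_const.sub continuous_id))

theorem isDoubleCone_nonempty {O : Set M4} (hO : IsDoubleCone O) : O.Nonempty := by
  obtain ⟨a, b, hab, rfl⟩ := hO
  refine ⟨(1 / 2 : ℝ) • (a + b), ?_, ?_⟩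
  · have : (1 / 2 : ℝ) • (a + b) - a = (1 / 2 : ℝ) • (b - a) := by
      ext i; simp; ring
    rw [this]; exact smul_mem_openCone (by norm_num) hab
  · have : b - (1 / 2 : ℝ) • (a + b) = (1 / 2 : ℝ) • (b - a) := by
      ext i; simp; ring
    rw [this]; exact smul_mem_openCone (by norm_num) hab

theorem abs_le_of_mem_openCone {p : M4} (hp : p ∈ openCone) (i : Fin 4) : |p i| ≤ p 0 := by
  obtain ⟨h0, h⟩ := hp
  rw [mink_expand] at h
  apply abs_le_of_sq_le_sq _ h0.le
  fin_cases i
  · exact le_refl _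
  · show p 1 ^ 2 ≤ p 0 ^ 2
    nlinarith [sq_nonneg (p 2), sq_nonneg (p 3)]
  · show p 2 ^ 2 ≤ p 0 ^ 2
    nlinarith [sq_nonneg (p 1), sq_nonneg (p 3)]
  · show p 3 ^ 2 ≤ p 0 ^ 2
    nlinarith [sq_nonneg (p 1), sq_nonneg (p 2)]

/-- The double cone with tips `a`, `b` lies in the closed ball of radius `b⁰ - a⁰` about `a`. -/
theorem doubleCone_subset_closedBall (a b : M4) :
    {x : M4 | x - a ∈ openCone ∧ b - x ∈ openCone} ⊆ Metric.closedBall a (b 0 - a 0) := by
  rintro x ⟨h1, h2⟩
  have h3 : 0 < (b - x) 0 := h2.1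
  have h4 : 0 < (x - a) 0 := h1.1
  simp only [Pi.sub_apply] at h3 h4
  rw [Metric.mem_closedBall, dist_pi_le_iff (by linarith)]
  intro i
  rw [Real.dist_eq]
  have := abs_le_of_mem_openCone h1 i
  simp only [Pi.sub_apply] at this
  linarith

theorem isDoubleCone_isBounded {O : Set M4} (hO : IsDoubleCone O) : Bornology.IsBounded O := by
  obtain ⟨a, b, -, rfl⟩ := hO
  exact Metric.isBounded_closedBall.subset (doubleCone_subset_closedBall a b)

/-- **Arbitrarily small double cones**: every point of an open region `R` lies in a double cone whose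
closure is contained in `R`.  In particular the join defining `Background.alg R` is over a nonempty
family when `R` is open and nonempty, and these double cones cover `R`. -/
theorem exists_isDoubleCone_subset {R : Set M4} (hR : IsOpen R) {x : M4} (hx : x ∈ R) :
    ∃ O, IsDoubleCone O ∧ x ∈ O ∧ closure O ⊆ R := by
  obtain ⟨ε, hε, hball⟩ := Metric.isOpen_iff.mp hR x hx
  set δ : ℝ := ε / 4 with hδ
  have hδ0 : 0 < δ := by positivity
  have hcone : δ • ev 0 ∈ openCone := smul_mem_openCone hδ0 ev0_mem_openCone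
  refine ⟨{y | y - (x - δ • ev 0) ∈ openCone ∧ (x + δ • ev 0) - y ∈ openCone},
    ⟨x - δ • ev 0, x + δ • ev 0, ?_, rfl⟩, ⟨?_, ?_⟩, ?_⟩
  · have : x + δ • ev 0 - (x - δ • ev 0) = (2 : ℝ) • (δ • ev 0) := by
      rw [two_smul]; abel
    rw [this]; exact smul_mem_openCone (by norm_num) hcone
  · simpa using hcone
  · simpa using hcone
  · refine (closure_minimal (doubleCone_subset_closedBall _ _) Metric.isClosed_closedBall).trans ?_
    refine Set.Subset.trans ?_ hball
    intro y hy
    rw [Metric.mem_closedBall] at hy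
    rw [Metric.mem_ball]
    have h1 : dist (x - δ • ev 0) x ≤ δ := by
      rw [dist_eq_norm]
      have : x - δ • ev 0 - x = -(δ • ev 0) := by abel
      rw [this, norm_neg, norm_smul, Real.norm_eq_abs, abs_of_pos hδ0]
      have : ‖ev 0‖ ≤ 1 := by
        rw [pi_norm_le_iff_of_nonneg zero_le_one]
        intro i
        by_cases hi : i = 0
        · subst hi; simp [ev]
        · simp [ev, hi]
      nlinarith
    have h2 : (x + δ • ev 0) 0 - (x - δ • ev 0) 0 = 2 * δ := by
      simp [ev]; ring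
    rw [h2] at hy
    calc dist y x ≤ dist y (x - δ • ev 0) + dist (x - δ • ev 0) x := dist_triangle _ _ _
      _ ≤ 2 * δ + δ := add_le_add hy h1
      _ < ε := by rw [hδ]; linarith

end SanityCone
end Claimed.Open.R282
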