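import Claimed.Open.R282.SanityAlgebra

/-!
# Result 282: checks of `iterDer`, `derSpan`, `IsVacuumWord`, `Dold` and `Extension`

No model: everything here holds for EVERY `Background` and EVERY `FieldSystem`.

* `iterDer_mem_grade`, `op_iterDer`: `∂_{μ_1} ⋯ ∂_{μ_k}` raises the dimension by `k` and is dual to
  `(-1)^k ∂_{μ_k} ⋯ ∂_{μ_1}` on tests.
* `derSpan_le_iff`: `derSpan S` is the smallest submodule that contains `S` and is stable under all `∂_μ`.
* `isVacuumWord_unique`: the relation `IsVacuumWord A h ψ` determines `ψ` (it is the graph of a map).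
* `factGraph_ext`, `isVacuumWord_ext`, `Dold_le_Dold`: an `Extension` keeps the factor-test vacuum map, its
  continuous extension and therefore `𝓓_old`.
* `trans`: extensions compose; `conclusion_family_admitted`: two composable extensions as in the last clause
  of `Conclusion` give a family admitted together with the ORIGINAL fields.
* `nonempty_extension_self_iff`: a field system extends itself iff its domain contains its own `𝓓_old`.
* `ι_comp`, `grade_eq_map`, `grade_eq_map_of_lt_two`: if the labels of the extension are the old ones and the derivatives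
  of one field `L` of dimension `Δ₀`, then outside the dimensions `Δ₀ + ℕ` the labels are exactly the old ones.
-/

open scoped Distributions ContDiff InnerProductSpace ComplexConjugate Topology SchwartzMap
open scoped LinearPMap
open TopologicalSpace

noncomputable section

namespace Claimed.Open.R282
namespace SanityExtension

variable {H : Type} [NormedAddCommGroup H] [InnerProductSpace ℂ H] [CompleteSpace H]
variable {B : Background H}

/-! ## 1. Iterated derivatives and their span -/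

section der

variable (𝔉 : FieldSystem B)

@[simp] theorem iterDer_nil (A : 𝔉.F) : 𝔉.iterDer [] A = A := rfl

@[simp] theorem iterDer_cons (μ : Fin 4) (l : List (Fin 4)) (A : 𝔉.F) :
    𝔉.iterDer (μ :: l) A = 𝔉.der μ (𝔉.iterDer l A) := rfl

theorem iterDer_append (l l' : List (Fin 4)) (A : 𝔉.F) :
    𝔉.iterDer (l ++ l') A = 𝔉.iterDer l (𝔉.iterDer l' A) := by
  induction l with
  | nil => rfl
  | cons μ l ih => simp [ih]

/-- `k` derivatives raise the scaling dimension by `k`. -/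
theorem iterDer_mem_grade (l : List (Fin 4)) {Δ : ℝ} {A : 𝔉.F} (hA : A ∈ 𝔉.grade Δ) :
    𝔉.iterDer l A ∈ 𝔉.grade (Δ + l.length) := by
  induction l with
  | nil => simpa using hA
  | cons μ l ih =>
    have := 𝔉.der_grade μ _ _ ih
    simpa [add_assoc] using this

/-- The iterated derivative of a test function, in the reversed order. -/
def iterPd (l : List (Fin 4)) (f : Test) : Test := l.foldl (fun g μ => pd μ g) f

/-- `(∂_{μ_1} ⋯ ∂_{μ_k} A)(f) = (-1)^k A(∂_{μ_k} ⋯ ∂_{μ_1} f)`. -/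
theorem op_iterDer (l : List (Fin 4)) (A : 𝔉.F) (f : Test) :
    𝔉.op (𝔉.iterDer l A) f = (-1 : ℂ) ^ l.length • 𝔉.op A (iterPd l f) := by
  induction l generalizing f with
  | nil => simp [iterPd]
  | cons μ l ih =>
    rw [iterDer_cons, 𝔉.op_der, ih, List.length_cons, pow_succ, mul_neg_one]
    exact (neg_smul _ _).symm

theorem subset_derSpan (S : Set 𝔉.F) : S ⊆ 𝔉.derSpan S := fun A hA =>
  Submodule.subset_span ⟨[], A, hA, rfl⟩

theorem iterDer_mem_derSpan {S : Set 𝔉.F} (l : List (Fin 4)) {A : 𝔉.F} (hA : A ∈ S) :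
    𝔉.iterDer l A ∈ 𝔉.derSpan S :=
  Submodule.subset_span ⟨l, A, hA, rfl⟩

/-- `derSpan S` is stable under differentiation. -/
theorem der_mem_derSpan {S : Set 𝔉.F} (μ : Fin 4) {X : 𝔉.F} (hX : X ∈ 𝔉.derSpan S) :
    𝔉.der μ X ∈ 𝔉.derSpan S := by
  refine Submodule.span_induction (p := fun X _ => 𝔉.der μ X ∈ 𝔉.derSpan S) ?_ ?_ ?_ ?_ hX
  · rintro _ ⟨l, A, hA, rfl⟩
    exact Submodule.subset_span ⟨μ :: l, A, hA, rfl⟩
  · simp
  · intro x y _ _ hx hy
    rw [map_add]; exact add_mem hx hy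
  · intro c x _ hx
    rw [map_smul]; exact Submodule.smul_mem _ _ hx

/-- `derSpan S` is the smallest submodule containing `S` and stable under all `∂_μ`. -/
theorem derSpan_le_iff {S : Set 𝔉.F} {N : Submodule ℂ 𝔉.F} (hN : ∀ μ, ∀ X ∈ N, 𝔉.der μ X ∈ N) :
    𝔉.derSpan S ≤ N ↔ S ⊆ N := by
  constructor
  · intro h A hA
    exact h (subset_derSpan 𝔉 S hA)
  · intro h
    refine Submodule.span_le.2 ?_
    rintro _ ⟨l, A, hA, rfl⟩
    induction l with
    | nil => exact h hA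
    | cons μ l ih => exact hN μ _ ih

theorem derSpan_mono {S S' : Set 𝔉.F} (h : S ⊆ S') : 𝔉.derSpan S ≤ 𝔉.derSpan S' :=
  (derSpan_le_iff 𝔉 fun μ _ hX => der_mem_derSpan 𝔉 μ hX).2
    fun _ hA => subset_derSpan 𝔉 S' (h hA)

theorem derSpan_empty : 𝔉.derSpan ∅ = ⊥ :=
  le_bot_iff.1 ((derSpan_le_iff 𝔉 (N := ⊥) fun μ X hX => by
    rw [Submodule.mem_bot] at hX ⊢; rw [hX, map_zero]).2 (Set.empty_subset _))

theorem derSpan_union (S S' : Set 𝔉.F) : 𝔉.derSpan (S ∪ S') = 𝔉.derSpan S ⊔ 𝔉.derSpan S' := by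
  apply le_antisymm
  · refine (derSpan_le_iff 𝔉 ?_).2 ?_
    · intro μ X hX
      obtain ⟨y, hy, z, hz, rfl⟩ := Submodule.mem_sup.1 hX
      rw [map_add]
      exact Submodule.add_mem_sup (der_mem_derSpan 𝔉 μ hy) (der_mem_derSpan 𝔉 μ hz)
    · rintro A (hA | hA)
      · exact Submodule.mem_sup_left (subset_derSpan 𝔉 S hA)
      · exact Submodule.mem_sup_right (subset_derSpan 𝔉 S' hA)
  · exact sup_le (derSpan_mono 𝔉 Set.subset_union_left) (derSpan_mono 𝔉 Set.subset_union_right)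

end der

/-! ## 2. `IsVacuumWord` is the graph of a map -/

/-- The vector `Ψ_A(h)` is determined by the list `A` and the kernel `h`. -/
theorem isVacuumWord_unique (𝔉 : FieldSystem B) {n : ℕ} {A : Fin n → 𝔉.F} {h : 𝓢(Fin n → M4, ℂ)}
    {ψ ψ' : H} (h₁ : 𝔉.IsVacuumWord A h ψ) (h₂ : 𝔉.IsVacuumWord A h ψ') : ψ = ψ' := by
  by_contra hne
  obtain ⟨W, W', hW, hW', hψ, hψ', hdisj⟩ := t2_separation hne
  obtain ⟨V, hV, hVW⟩ := h₁.2 W (hW.mem_nhds hψ)
  obtain ⟨V', hV', hVW'⟩ := h₂.2 W' (hW'.mem_nhds hψ')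
  obtain ⟨_, hx, p, hp, rfl⟩ := mem_closure_iff_nhds.1 h₁.1 (V ∩ V') (Filter.inter_mem hV hV')
  exact Set.disjoint_left.1 hdisj (hVW p hp hx.1) (hVW' p hp hx.2)

/-! ## 3. Extensions -/

section ext

variable {𝔉 𝔊 𝔎 : FieldSystem B}

theorem ι_iterDer (e : Extension 𝔉 𝔊) (l : List (Fin 4)) (A : 𝔉.F) :
    e.ι (𝔉.iterDer l A) = 𝔊.iterDer l (e.ι A) := by
  induction l with
  | nil => rfl
  | cons μ l ih => rw [iterDer_cons, iterDer_cons, e.ι_der, ih]

/-- The inclusion of labels maps `derSpan S` onto `derSpan (ι S)`. -/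
theorem map_derSpan (e : Extension 𝔉 𝔊) (S : Set 𝔉.F) :
    (𝔉.derSpan S).map e.ι = 𝔊.derSpan (e.ι '' S) := by
  rw [FieldSystem.derSpan, FieldSystem.derSpan, Submodule.map_span]
  congr 1
  ext X
  constructor
  · rintro ⟨_, ⟨l, A, hA, rfl⟩, rfl⟩
    exact ⟨l, e.ι A, ⟨A, hA, rfl⟩, ι_iterDer e l A⟩
  · rintro ⟨l, _, ⟨A, hA, rfl⟩, rfl⟩
    exact ⟨𝔉.iterDer l A, ⟨l, A, hA, rfl⟩, ι_iterDer e l A⟩

/-- An extension does not change the factor-test vacuum map of the old fields. -/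
theorem factGraph_ext (e : Extension 𝔉 𝔊) {n : ℕ} (A : Fin n → 𝔉.F) :
    𝔊.factGraph (fun i => e.ι (A i)) = 𝔉.factGraph A := by
  ext p
  simp only [FieldSystem.factGraph, e.agree]

/-- ... nor its continuous extension to joint Schwartz kernels. -/
theorem isVacuumWord_ext (e : Extension 𝔉 𝔊) {n : ℕ} (A : Fin n → 𝔉.F) (h : 𝓢(Fin n → M4, ℂ)) (ψ : H) :
    𝔊.IsVacuumWord (fun i => e.ι (A i)) h ψ ↔ 𝔉.IsVacuumWord A h ψ := by
  simp only [FieldSystem.IsVacuumWord, factGraph_ext e]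

/-- `𝓓_old` grows along extensions. -/
theorem Dold_le_Dold (e : Extension 𝔉 𝔊) : 𝔉.Dold ≤ 𝔊.Dold := by
  refine Submodule.span_mono ?_
  rintro ψ (hψ | ⟨n, A, h, hψ⟩)
  · exact Or.inl hψ
  · exact Or.inr ⟨n, fun i => e.ι (A i), h, (isVacuumWord_ext e A h ψ).2 hψ⟩

/-- `𝓓_fact` grows along extensions. -/
theorem Dfact_le_Dfact (e : Extension 𝔉 𝔊) : 𝔉.Dfact ≤ 𝔊.Dfact := by
  refine Submodule.span_mono ?_
  rintro _ ⟨n, A, f, rfl⟩
  exact ⟨n, fun i => e.ι (A i), f, (e.agree n A f).symm⟩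

/-- **Extensions compose.** -/
def trans (e : Extension 𝔉 𝔊) (e' : Extension 𝔊 𝔎) : Extension 𝔉 𝔎 where
  ι := e'.ι ∘ₗ e.ι
  ι_inj := e'.ι_inj.comp e.ι_inj
  ι_grade Δ A hA := e'.ι_grade Δ _ (e.ι_grade Δ A hA)
  ι_adj A := by simp [e.ι_adj, e'.ι_adj]
  ι_der μ A := by simp [e.ι_der, e'.ι_der]
  ι_rho Λ A := by simp [e.ι_rho, e'.ι_rho]
  ι_par A := by simp [e.ι_par, e'.ι_par]
  Dold_le := (Dold_le_Dold e).trans e'.Dold_le
  agree n A f := by
    simpa using (e'.agree n (fun i => e.ι (A i)) f).trans (e.agree n A f)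
  fin_gen := by
    classical
    obtain ⟨S, hS, hSt⟩ := e.fin_gen
    obtain ⟨S', hS', hSt'⟩ := e'.fin_gen
    refine ⟨S.image e'.ι ∪ S', ?_, ?_⟩
    · intro G hG
      rcases Finset.mem_union.1 hG with hG | hG
      · obtain ⟨G₀, hG₀, rfl⟩ := Finset.mem_image.1 hG
        obtain ⟨Δ, hΔ⟩ := hS G₀ hG₀
        exact ⟨Δ, e'.ι_grade Δ _ hΔ⟩
      · exact hS' G hG
    · have h1 : LinearMap.range e'.ι
          = LinearMap.range (e'.ι ∘ₗ e.ι) ⊔ 𝔎.derSpan (e'.ι '' (S : Set 𝔊.F)) := by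
        rw [LinearMap.range_comp, ← map_derSpan e', ← Submodule.map_sup, hSt, Submodule.map_top]
      rw [Finset.coe_union, Finset.coe_image, derSpan_union, ← sup_assoc, ← h1, hSt']

@[simp] theorem trans_ι (e : Extension 𝔉 𝔊) (e' : Extension 𝔊 𝔎) (A : 𝔉.F) :
    (trans e e').ι A = e'.ι (e.ι A) := rfl

/-- The families `𝔎` of the last clause of `Conclusion` are admitted together with the ORIGINAL fields, and
the two ways `𝔉 → 𝔊 → 𝔎` and `𝔉 → 𝔏 → 𝔎` of including the original labels are the same extension map. -/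
theorem conclusion_family_admitted {𝔏 : FieldSystem B} (e : Extension 𝔉 𝔏) (eG : Extension 𝔉 𝔊)
    (e₁ : Extension 𝔊 𝔎) (e₂ : Extension 𝔏 𝔎) (hc : ∀ A, e₁.ι (eG.ι A) = e₂.ι (e.ι A)) :
    (trans eG e₁).ι = (trans e e₂).ι :=
  LinearMap.ext hc

/-- The identity is an extension as soon as the domain contains the own `𝓓_old`. -/
def refl (𝔉 : FieldSystem B) (h : 𝔉.Dold ≤ 𝔉.domain) : Extension 𝔉 𝔉 where
  ι := LinearMap.id
  ι_inj := Function.injective_id
  ι_grade _ _ hA := hA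
  ι_adj _ := rfl
  ι_der _ _ := rfl
  ι_rho _ _ := rfl
  ι_par _ := rfl
  Dold_le := h
  agree _ _ _ := rfl
  fin_gen := ⟨∅, by simp, by simp⟩

/-- A field system is an extension of itself iff its invariant domain contains its own `𝓓_old`. -/
theorem nonempty_extension_self_iff (𝔉 : FieldSystem B) :
    Nonempty (Extension 𝔉 𝔉) ↔ 𝔉.Dold ≤ 𝔉.domain :=
  ⟨fun ⟨e⟩ => e.Dold_le, fun h => ⟨refl 𝔉 h⟩⟩

/-- The inclusion of labels commutes with the projection on the component of dimension `Δ`. -/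
theorem ι_comp (e : Extension 𝔉 𝔊) (Δ : ℝ) (A : 𝔉.F) : e.ι (𝔉.comp Δ A) = 𝔊.comp Δ (e.ι A) := by
  refine SanityAlgebra.label_induction 𝔉 (p := fun A => e.ι (𝔉.comp Δ A) = 𝔊.comp Δ (e.ι A)) ?_ ?_ ?_ A
  · intro Δ₀ A hA
    by_cases h : Δ = Δ₀
    · subst h
      rw [SanityAlgebra.comp_of_mem 𝔉 hA, SanityAlgebra.comp_of_mem 𝔊 (e.ι_grade _ _ hA)]
    · rw [SanityAlgebra.comp_of_mem_ne 𝔉 hA h, SanityAlgebra.comp_of_mem_ne 𝔊 (e.ι_grade _ _ hA) h, map_zero]
  · rw [SanityAlgebra.comp_zero, map_zero, SanityAlgebra.comp_zero]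
  · intro A A' h h'
    rw [SanityAlgebra.comp_add, map_add, map_add, SanityAlgebra.comp_add, h, h']

/-- The derivatives of a field of dimension `Δ₀` have no component of a dimension outside `Δ₀ + ℕ`. -/
theorem comp_eq_zero_of_mem_derSpan (𝔊 : FieldSystem B) {L : 𝔊.F} {Δ₀ Δ : ℝ} (hL : L ∈ 𝔊.grade Δ₀)
    (hΔ : ∀ k : ℕ, Δ ≠ Δ₀ + k) {Y : 𝔊.F} (hY : Y ∈ 𝔊.derSpan {L}) : 𝔊.comp Δ Y = 0 := by
  refine Submodule.span_induction (p := fun Y _ => 𝔊.comp Δ Y = 0) ?_ ?_ ?_ ?_ hY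
  · rintro _ ⟨l, A, hA, rfl⟩
    rw [Set.mem_singleton_iff] at hA
    subst hA
    exact SanityAlgebra.comp_of_mem_ne 𝔊 (iterDer_mem_grade 𝔊 l hL) (hΔ l.length)
  · exact SanityAlgebra.comp_zero 𝔊 Δ
  · intro x y _ _ hx hy
    rw [SanityAlgebra.comp_add, hx, hy, add_zero]
  · intro c x _ hx
    rw [SanityAlgebra.comp_smul, hx, smul_zero]

/-- **Nothing is added outside the tower of `L`.**  If the labels of `𝔊` are those of `𝔉` and the derivatives of one
field `L` of dimension `Δ₀` (second clause of `Conclusion`, `Δ₀ = 2`), then in every dimension outside `Δ₀ + ℕ` the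
labels of `𝔊` are exactly the old ones. -/
theorem grade_eq_map (e : Extension 𝔉 𝔊) {L : 𝔊.F} {Δ₀ Δ : ℝ} (hL : L ∈ 𝔊.grade Δ₀)
    (htop : LinearMap.range e.ι ⊔ 𝔊.derSpan {L} = ⊤) (hΔ : ∀ k : ℕ, Δ ≠ Δ₀ + k) :
    𝔊.grade Δ = (𝔉.grade Δ).map e.ι := by
  apply le_antisymm
  · intro X hX
    have hX' : X ∈ LinearMap.range e.ι ⊔ 𝔊.derSpan {L} := htop ▸ Submodule.mem_top
    obtain ⟨_, ⟨A, rfl⟩, Y, hY, hsum⟩ := Submodule.mem_sup.1 hX'
    refine ⟨𝔉.comp Δ A, SanityAlgebra.comp_mem 𝔉 Δ A, ?_⟩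
    rw [ι_comp, ← SanityAlgebra.comp_of_mem 𝔊 hX, ← hsum, SanityAlgebra.comp_add,
      comp_eq_zero_of_mem_derSpan 𝔊 hL hΔ hY, add_zero]
  · rintro _ ⟨A, hA, rfl⟩
    exact e.ι_grade Δ A hA

/-- In particular the admission of a scalar `L` of dimension two adds no label of dimension below two. -/
theorem grade_eq_map_of_lt_two (e : Extension 𝔉 𝔊) {L : 𝔊.F} (hL : L ∈ 𝔊.grade 2)
    (htop : LinearMap.range e.ι ⊔ 𝔊.derSpan {L} = ⊤) {Δ : ℝ} (hΔ : Δ < 2) :
    𝔊.grade Δ = (𝔉.grade Δ).map e.ι :=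
  grade_eq_map e hL htop fun k => by
    have : (0 : ℝ) ≤ k := Nat.cast_nonneg k
    linarith

end ext

end SanityExtension
end Claimed.Open.R282
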