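import Claimed.Open.R282.Sanity

/-!
# Result 282: models of the hypotheses on Hilbert spaces other than `ℂ`

`Sanity.lean` meets the hypotheses of `Statement` on the one-dimensional Hilbert space, where every
operator is a scalar, every algebra is abelian and every operator is affiliated with every algebra.
This file meets them on an arbitrary Hilbert space `H` that carries a bounded self-adjoint operator
`X`, not a scalar, with a cyclic unit vector `Ω` (`Datum H`):

* `Datum.bg`     : `Background H` with the trivial representation and the constant abelian net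
                   `O ↦ {X}''`;
* `Datum.sys`    : `FieldSystem` with the two constant fields `1(f) = ∫ f` and `X(f) = (∫ f) X`, both of
                   dimension `0`;
* `Datum.sys_cyclic`, `Datum.stress` : cyclicity of the vacuum, and the stress data `T = V = 0`.

Here commutants, affiliation, adjoints, faithfulness of the labels, cyclicity and locality are no longer
empty conditions.  The vacuum is not the only invariant vector (`Background` does not ask for it).

Two instances:

* `datum2`  : `H = ℂ²`, `X = diag(1, 0)`, `Ω = (3/5, 4/5)` (`hypotheses_met_C2`); the local algebras are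
              not all of `B(H)` (`flip_not_mem_net`), the vacuum is not unique (`vacuum_not_unique`);
* `datumL2` : `H = L²[0,1]`, `X = M_x`, `Ω = 1` (`hypotheses_met_L2`), the second model described in
              `CLAIM.md`; `H` is infinite-dimensional (`not_finiteDimensional_L2I`) and `M_x` has no
              eigenvector (`Mx_no_eigenvector`).
-/

open scoped Distributions ContDiff InnerProductSpace ComplexConjugate Topology SchwartzMap
open scoped LinearPMap
open TopologicalSpace MeasureTheory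

noncomputable section

set_option linter.unusedSectionVars false

namespace Claimed.Open.R282
namespace SanityTwo

open Sanity

variable {H : Type} [NormedAddCommGroup H] [InnerProductSpace ℂ H] [CompleteSpace H]

variable (H) in
/-- A bounded self-adjoint operator `X`, not a multiple of `1`, with a cyclic unit vector `Ω`. -/
structure Datum where
  /-- the operator -/
  X : H →L[ℂ] H
  X_sa : star X = X
  /-- the cyclic vector -/
  Ω : H
  norm_Ω : ‖Ω‖ = 1
  indep : ∀ a b : ℂ, a • (1 : H →L[ℂ] H) + b • X = 0 → a = 0 ∧ b = 0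
  cyclic : Dense (Submodule.span ℂ (Set.range fun n : ℕ => (X ^ n) Ω) : Set H)

namespace Datum

variable (D : Datum H)

/-- The commutant `{X}'`, a von Neumann algebra because `X` is self-adjoint. -/
def commVN : VonNeumannAlgebra H where
  toStarSubalgebra := StarSubalgebra.centralizer ℂ {D.X}
  centralizer_centralizer' := Set.centralizer_centralizer_centralizer _

lemma mem_commVN (C : H →L[ℂ] H) : C ∈ D.commVN ↔ D.X * C = C * D.X := by
  change C ∈ StarSubalgebra.centralizer ℂ {D.X} ↔ _
  rw [StarSubalgebra.mem_centralizer_iff]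
  constructor
  · intro h; exact (h D.X rfl).1
  · intro h g hg
    have hg' : g = D.X := hg
    subst hg'
    exact ⟨h, by rw [D.X_sa]; exact h⟩

/-- The von Neumann algebra `{X}''` generated by `X`. -/
def vn : VonNeumannAlgebra H := D.commVN.commutant

lemma mem_vn (x : H →L[ℂ] H) : x ∈ D.vn ↔ ∀ C : H →L[ℂ] H, D.X * C = C * D.X → C * x = x * C := by
  rw [vn, VonNeumannAlgebra.mem_commutant_iff]
  simp only [mem_commVN]

lemma X_mem_vn : D.X ∈ D.vn := (D.mem_vn _).2 fun _ h => h.symm

/-- `{X}''` is abelian. -/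
lemma vn_comm {x y : H →L[ℂ] H} (hx : x ∈ D.vn) (hy : y ∈ D.vn) : x * y = y * x :=
  ((D.mem_vn y).1 hy x (((D.mem_vn x).1 hx D.X rfl))).symm ▸ rfl

/-- The background: trivial representation of the similarity group, trivial grading, and the constant
abelian net `O ↦ {X}''`. -/
def bg : Background H where
  Ω := D.Ω
  norm_Ω := D.norm_Ω
  U := fun _ => 1
  U_unitary := fun _ => one_mem _
  U_one := rfl
  U_mul := fun _ _ => by simp
  U_cont := fun ψ => continuous_const
  U_Ω := fun _ => by simp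
  spectrum := by
    intro f hf φ ψ
    have h0 : (0 : M4) ∈ closedCone := by simp [closedCone, mink]
    have := hf 0 h0
    simp only [mink, Pi.zero_apply, mul_zero, zero_mul, Finset.sum_const_zero, Complex.ofReal_zero,
      Complex.exp_zero, mul_one] at this
    simp only [one_apply_eq_self]
    rw [MeasureTheory.integral_mul_const, this, zero_mul]
  Γ := 1
  Γ_sq := by simp
  Γ_sa := by simp
  Γ_Ω := by simp
  Γ_U := fun _ => by simp
  net := fun _ => D.vn
  net_mono := fun _ _ _ _ _ _ h => h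
  net_cov := fun _ _ _ x => by simp
  net_Γ := fun _ _ x h => by simpa using h
  net_local := fun _ _ _ _ _ x hx y hy => by
    have hZ : ((1 + Complex.I)⁻¹ : ℂ) • ((1 : H →L[ℂ] H) + Complex.I • (1 : H →L[ℂ] H)) = 1 := by
      have h1 : (1 + Complex.I) ≠ 0 := by
        intro h
        have := congrArg Complex.re h
        simp at this
      rw [← one_smul ℂ (1 : H →L[ℂ] H), smul_smul, ← add_smul, smul_smul, mul_one,
        inv_mul_cancel₀ h1]
    simp only [hZ, one_mul, star_one, mul_one]
    exact D.vn_comm hx hy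

@[simp] lemma bg_U (g : Sim) : D.bg.U g = 1 := rfl
@[simp] lemma bg_Γ : D.bg.Γ = 1 := rfl
@[simp] lemma bg_Ω : D.bg.Ω = D.Ω := rfl
@[simp] lemma bg_net (O : Set M4) : D.bg.net O = D.vn := rfl

/-- The operator `a + b X` of the label `(a, b)`. -/
def lab : ℂ × ℂ →ₗ[ℂ] (H →L[ℂ] H) where
  toFun A := A.1 • (1 : H →L[ℂ] H) + A.2 • D.X
  map_add' A A' := by simp only [Prod.fst_add, Prod.snd_add, add_smul]; abel
  map_smul' c A := by simp [mul_smul]

lemma lab_apply (A : ℂ × ℂ) : D.lab A = A.1 • (1 : H →L[ℂ] H) + A.2 • D.X := rfl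

lemma lab_mem_vn (A : ℂ × ℂ) : D.lab A ∈ D.vn :=
  add_mem (D.vn.smul_mem (one_mem _) _) (D.vn.smul_mem D.X_mem_vn _)

lemma lab_injective {A : ℂ × ℂ} (h : D.lab A = 0) : A = 0 :=
  Prod.ext (D.indep _ _ h).1 (D.indep _ _ h).2

/-- Field adjunction on labels: `(a, b) ↦ (\bar a, \bar b)`. -/
def adjL : ℂ × ℂ →ₛₗ[starRingEnd ℂ] ℂ × ℂ where
  toFun A := (starRingEnd ℂ A.1, starRingEnd ℂ A.2)
  map_add' A A' := by simp
  map_smul' c A := by simp

lemma star_lab (A : ℂ × ℂ) : star (D.lab A) = D.lab (adjL A) := by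
  simp [lab_apply, adjL, D.X_sa]

end Datum

/-- A bounded operator as an endomorphism of the domain `⊤`. -/
def toEnd : (H →L[ℂ] H) →ₗ[ℂ] Module.End ℂ (⊤ : Submodule ℂ H) where
  toFun Y := (Y : H →ₗ[ℂ] H).restrict (p := ⊤) (q := ⊤) (fun _ _ => trivial)
  map_add' _ _ := rfl
  map_smul' _ _ := rfl

@[simp] lemma toEnd_apply (Y : H →L[ℂ] H) (ψ : (⊤ : Submodule ℂ H)) :
    ((toEnd Y ψ : (⊤ : Submodule ℂ H)) : H) = Y ψ := rfl

lemma toEnd_mul (Y Z : H →L[ℂ] H) : toEnd (Y * Z) = toEnd Y * toEnd Z := rfl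

lemma toEnd_one : toEnd (1 : H →L[ℂ] H) = 1 := rfl

lemma toEnd_injective {Y : H →L[ℂ] H} (h : toEnd Y = 0) : Y = 0 := by
  ext ψ
  exact congrArg (fun Z : Module.End ℂ (⊤ : Submodule ℂ H) =>
    ((Z ⟨ψ, trivial⟩ : (⊤ : Submodule ℂ H)) : H)) h

lemma toEnd_prod {n : ℕ} (y : Fin n → H →L[ℂ] H) :
    (List.ofFn fun i => toEnd (y i)).prod = toEnd (List.ofFn y).prod := by
  induction n with
  | zero => simp [toEnd_one]
  | succ n ih => rw [List.ofFn_succ, List.prod_cons, ih, List.ofFn_succ, List.prod_cons, toEnd_mul]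

lemma prod_ofFn_smul {R : Type*} [Ring R] [Algebra ℂ R] {n : ℕ} (a : Fin n → ℂ) (y : Fin n → R) :
    (List.ofFn fun i => a i • y i).prod = (∏ i, a i) • (List.ofFn y).prod := by
  induction n with
  | zero => simp
  | succ n ih =>
    rw [List.ofFn_succ, List.prod_cons, ih, Fin.prod_univ_succ, List.ofFn_succ, List.prod_cons,
      smul_mul_smul_comm]

/-- The grading of the labels: everything has dimension `0`. -/
def grade2 (Δ : ℝ) : Submodule ℂ (ℂ × ℂ) := if Δ = 0 then ⊤ else ⊥

lemma grade2_internal : DirectSum.IsInternal grade2 := by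
  rw [DirectSum.isInternal_submodule_iff_iSupIndep_and_iSup_eq_top]
  constructor
  · intro i
    by_cases hi : i = 0
    · subst hi
      have : (⨆ j, ⨆ (_ : j ≠ (0:ℝ)), grade2 j) = ⊥ := by
        simp only [iSup_eq_bot]
        intro j hj; simp [grade2, hj]
      rw [this]; exact disjoint_bot_right
    · simp [grade2, hi]
  · exact eq_top_iff.mpr (le_iSup_of_le 0 (by simp [grade2]))

lemma grade2_ne {Δ : ℝ} (h : Δ ≠ 0) {A : ℂ × ℂ} (hA : A ∈ grade2 Δ) : A = 0 := by
  simpa [grade2, h] using hA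

namespace Datum

variable (D : Datum H)

/-- The smeared fields `(a + b X)(f) = (∫ f) (a + b X)`. -/
def op2 : ℂ × ℂ →ₗ[ℂ] Test →ₗ[ℂ] Module.End ℂ (⊤ : Submodule ℂ H) :=
  LinearMap.mk₂ ℂ (fun A f => intL f • toEnd (D.lab A))
    (by intros; simp) (by intro c A f; simp only [map_smul]; exact smul_comm _ _ _)
    (by intros; simp [add_smul]) (by intros; simp [mul_smul])

lemma op2_apply (A : ℂ × ℂ) (f : Test) : D.op2 A f = intL f • toEnd (D.lab A) := rfl

/-- The bounded operator `(∫ f) (a + b X)` as a partially defined operator with domain `⊤`. -/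
def pm (A : ℂ × ℂ) (f : Test) : H →ₗ.[ℂ] H :=
  ⟨⊤, (⊤ : Submodule ℂ H).subtype ∘ₗ D.op2 A f⟩

lemma pm_apply (A : ℂ × ℂ) (f : Test) (ψ : (D.pm A f).domain) :
    D.pm A f ψ = intL f • D.lab A ψ := rfl

lemma pm_isClosed (A : ℂ × ℂ) (f : Test) : (D.pm A f).IsClosed := by
  have : ((D.pm A f).graph : Set (H × H)) = {p | p.2 = intL f • D.lab A p.1} := by
    ext p
    simp only [SetLike.mem_coe, LinearPMap.mem_graph_iff]
    change _ ↔ p.2 = intL f • D.lab A p.1
    constructor
    · rintro ⟨y, hy, hy2⟩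
      rw [← hy2, ← hy]; rfl
    · intro h
      exact ⟨⟨p.1, trivial⟩, rfl, h.symm⟩
  rw [LinearPMap.IsClosed, this]
  exact isClosed_eq continuous_snd (((D.lab A).continuous.comp continuous_fst).const_smul _)

lemma pm_affiliated (A : ℂ × ℂ) (f : Test) : AffiliatedWith (D.pm A f) (D.vn : Set (H →L[ℂ] H)) := by
  intro C hC ψ
  refine ⟨(trivial : C ψ ∈ (⊤ : Submodule ℂ H)), ?_⟩
  have h := Set.mem_centralizer_iff.1 hC (D.lab A) (D.lab_mem_vn A)
  have h' := congrArg (fun Z : H →L[ℂ] H => Z (ψ : H)) h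
  simp only [mul_apply_eq_comp] at h'
  rw [pm_apply, pm_apply, map_smul]
  exact congrArg _ h'

lemma pm_formalAdjoint (A : ℂ × ℂ) (f : Test) :
    (D.pm A f).IsFormalAdjoint (D.pm (adjL A) (conjT f)) := by
  intro x y
  rw [pm_apply, pm_apply, intL_conj, ← D.star_lab, ContinuousLinearMap.star_eq_adjoint,
    inner_smul_left, inner_smul_right, ContinuousLinearMap.adjoint_inner_right]

/-- The field system of the two constant fields `1(f) = ∫ f` and `X(f) = (∫ f) X`. -/
def sys : FieldSystem D.bg where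
  F := ℂ × ℂ
  grade := grade2
  grade_internal := grade2_internal
  grade_finite := fun Δ => inferInstance
  spec_bddBelow := ⟨0, by
    intro Δ hΔ
    by_contra h
    have : Δ ≠ 0 := fun h0 => h (by simp [h0])
    exact hΔ (by simp [grade2, this])⟩
  spec_locFinite := fun a b => by
    refine (Set.finite_singleton (0 : ℝ)).subset ?_
    intro Δ hΔ
    by_contra h
    exact hΔ.1 (by simp [grade2, show Δ ≠ 0 from h])
  adj := adjL
  adj_adj := fun A => by simp [adjL]
  adj_grade := fun Δ A hA => by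
    by_cases h : Δ = 0
    · simp [grade2, h]
    · rw [grade2_ne h hA]; simp
  der := fun _ => 0
  der_grade := fun _ _ _ _ => by simp
  rho := 1
  rho_grade := fun _ _ A hA => by simpa using hA
  rho_adj := fun _ _ => rfl
  par := LinearMap.id
  par_par := fun _ => rfl
  par_grade := fun _ _ h => h
  par_rho := fun _ _ => rfl
  domain := ⊤
  domain_dense := by simp
  Ω_mem := trivial
  U_mem := fun _ _ _ => trivial
  Γ_mem := fun _ _ => trivial
  op := D.op2
  faithful := fun A hA => by
    obtain ⟨f, hf⟩ := exists_intL_ne_zero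
    have h := hA f
    rw [op2_apply, smul_eq_zero] at h
    exact D.lab_injective (toEnd_injective (h.resolve_left hf))
  op_adj := fun A f φ ψ => by
    have h := congrArg (starRingEnd ℂ) (D.pm_formalAdjoint A f ψ φ)
    rw [inner_conj_symm, inner_conj_symm] at h
    exact h
  op_der := fun μ A f => by simp [op2_apply, intL_pd]
  op_cov := fun g Δ A hA f f' hff' ψ => by
    by_cases h : Δ = 0
    · subst h
      have h1 : intL f = (Real.exp (-(4 * g.s)) : ℂ) * intL f' := by
        rw [intL_apply, intL_apply, ← integral_comp_act g f' f'.continuous]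
        simp only [hff']
      simp only [op2_apply, h1]
      simp [mul_smul]
      ring_nf
    · rw [grade2_ne h hA]
      simp
  op_Γ := fun A f ψ => rfl
  joint := fun n A φ ψ => by
    refine ⟨⟪(φ : H), (List.ofFn fun i => D.lab (A i)).prod (ψ : H)⟫_ℂ • intJ n, fun f h hh => ?_⟩
    have h1 : ∫ x, h x = ∏ i, intL (f i) := by
      simp only [hh, intL_apply]
      exact integral_fintype_prod_eq_prod (fun i x => f i x)
    simp only [op2_apply]
    rw [prod_ofFn_smul (fun i => intL (f i)) (fun i => toEnd (D.lab (A i))),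
      toEnd_prod (fun i => D.lab (A i))]
    simp [intJ_apply, h1]
    ring
  op_local := fun A A' f f' _ => by
    constructor
    · intro _
      simp only [op2_apply, smul_mul_smul_comm, ← toEnd_mul]
      rw [mul_comm, D.vn_comm (D.lab_mem_vn A) (D.lab_mem_vn A')]
    · intro hA _
      have : A = 0 := by
        have h1 : A = -A := hA
        have h2 : (2 : ℂ) • A = 0 := by
          rw [two_smul]; nth_rewrite 1 [h1]; simp
        simpa using h2
      subst this; simp
  affiliated := fun A f O _ _ =>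
    ⟨D.pm A f, D.pm_isClosed A f, le_refl _,
      (D.pm_formalAdjoint A f).le_adjoint (by simp [pm]), D.pm_affiliated A f⟩

lemma sys_op (A : ℂ × ℂ) (f : Test) : D.sys.op A f = intL f • toEnd (D.lab A) := rfl

/-- An ordered product of smeared fields is the product of the integrals times the product of the
operators. -/
lemma sys_word {n : ℕ} (A : Fin n → ℂ × ℂ) (f : Fin n → Test) :
    D.sys.word A f = (∏ i, intL (f i)) • toEnd (List.ofFn fun i => D.lab (A i)).prod := by
  rw [← toEnd_prod (fun i => D.lab (A i)),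
    ← prod_ofFn_smul (fun i => intL (f i)) (fun i => toEnd (D.lab (A i)))]
  rfl

lemma Uact_eq (𝔊 : FieldSystem D.bg) (g : Sim) (ψ : 𝔊.domain) : 𝔊.Uact g ψ = ψ := Subtype.ext rfl

/-- The vacuum is cyclic for the fields. -/
theorem sys_cyclic : D.sys.Cyclic := by
  obtain ⟨f, hf⟩ := exists_intL_ne_zero
  refine D.cyclic.mono ?_
  refine Submodule.span_le.2 ?_
  rintro _ ⟨n, rfl⟩
  have hw : (D.sys.word (fun _ : Fin n => ((0, 1) : ℂ × ℂ)) (fun _ => f) D.sys.vac : H)
      ∈ D.sys.Dfact := Submodule.subset_span ⟨n, _, _, rfl⟩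
  have hlab : D.lab (0, 1) = D.X := by simp [lab_apply]
  rw [sys_word] at hw
  simp only [hlab, List.ofFn_const, List.prod_replicate, Finset.prod_const, Finset.card_univ,
    Fintype.card_fin] at hw
  have h2 := D.sys.Dfact.smul_mem ((intL f ^ n)⁻¹) hw
  have h3 : (intL f ^ n)⁻¹ • (((intL f ^ n • toEnd (D.X ^ n)) D.sys.vac : D.sys.domain) : H)
      = (D.X ^ n) D.Ω := by
    change (intL f ^ n)⁻¹ • (intL f ^ n • (D.X ^ n) D.Ω) = _
    rw [smul_smul, inv_mul_cancel₀ (pow_ne_zero _ hf), one_smul]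
  change (D.X ^ n) D.Ω ∈ D.sys.Dfact
  rw [← h3]
  exact h2

/-- With the trivial representation and vanishing currents, the affine Ward identities hold on any
polynomial algebra, in every field system over the background. -/
lemma affineWard_zero (𝔊 : FieldSystem D.bg) (Pol : Set M4 → Subalgebra ℂ (Module.End ℂ 𝔊.domain)) :
    𝔊.AffineWardOn Pol (fun _ _ => 0) (fun _ => 0) := by
  intro γ c M κ _ K F _ P _ φ ψ
  have h : 𝔊.comm (𝔊.charge (fun _ _ => 0) (affineField c M κ) F
      - (κ : ℂ) • 𝔊.flux (fun _ => 0) F) P = 0 := by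
    simp [FieldSystem.comm, FieldSystem.charge, FieldSystem.flux]
  simp only [Uact_eq, h, smul_zero, LinearMap.zero_apply, ZeroMemClass.coe_zero, inner_zero_right]
  exact hasDerivAt_const _ _

/-- The (vanishing) stress tensor and virial field of the model. -/
def stress : StressData D.sys where
  T := fun _ _ => 0
  V := fun _ => 0
  T_tensor := fun _ _ _ => by simp
  V_vector := fun _ _ => by simp
  T_symm := fun _ _ => rfl
  T_cons := fun _ => by simp [FieldSystem.div]
  trace_eq := by simp [FieldSystem.trace, FieldSystem.div]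
  ward := D.affineWard_zero _ _

/-- All the hypotheses of `Statement` are met on `H`. -/
theorem hypotheses_met (D : Datum H) :
    ∃ (B : Background H) (𝔉 : FieldSystem B), 𝔉.Cyclic ∧ Nonempty (StressData 𝔉) :=
  ⟨D.bg, D.sys, D.sys_cyclic, ⟨D.stress⟩⟩

end Datum

/-! ## The two-dimensional instance -/

/-- The Hilbert space `ℂ²`. -/
abbrev C2 : Type := EuclideanSpace ℂ (Fin 2)

/-- first basis vector -/
def e0 : C2 := EuclideanSpace.single 0 1
/-- second basis vector -/
def e1 : C2 := EuclideanSpace.single 1 1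

/-- `X = diag(1, 0)`. -/
def X2 : C2 →L[ℂ] C2 := (innerSL ℂ e0).smulRight e0

lemma X2_apply (v : C2) : X2 v = v 0 • e0 := by
  simp [X2, e0, EuclideanSpace.inner_single_left]

lemma C2_decomp (v : C2) : v = v 0 • e0 + v 1 • e1 := by
  ext i
  fin_cases i <;> simp [e0, e1]

/-- `X = diag(1, 0)` with the cyclic unit vector `Ω = (3/5, 4/5)`. -/
def datum2 : Datum C2 where
  X := X2
  X_sa := by
    rw [ContinuousLinearMap.star_eq_adjoint]
    symm
    rw [ContinuousLinearMap.eq_adjoint_iff]
    intro x y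
    simp [X2_apply, inner_smul_left, inner_smul_right, e0, EuclideanSpace.inner_single_left,
      EuclideanSpace.inner_single_right]
    ring
  Ω := (3 / 5 : ℂ) • e0 + (4 / 5 : ℂ) • e1
  norm_Ω := by
    rw [EuclideanSpace.norm_eq]
    simp [Fin.sum_univ_two, e0, e1]
    norm_num
  indep := fun a b h => by
    have h1 := congrArg (fun Z : C2 →L[ℂ] C2 => Z e1 1) h
    have h0 := congrArg (fun Z : C2 →L[ℂ] C2 => Z e0 0) h
    simp [X2_apply, e0, e1] at h0 h1
    subst h1
    simpa using h0
  cyclic := by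
    have htop : Submodule.span ℂ (Set.range fun n : ℕ =>
        (X2 ^ n) ((3 / 5 : ℂ) • e0 + (4 / 5 : ℂ) • e1)) = ⊤ := by
      set S := Submodule.span ℂ (Set.range fun n : ℕ =>
        (X2 ^ n) ((3 / 5 : ℂ) • e0 + (4 / 5 : ℂ) • e1)) with hS
      have m0 : (3 / 5 : ℂ) • e0 + (4 / 5 : ℂ) • e1 ∈ S :=
        Submodule.subset_span ⟨0, by simp⟩
      have m1 : (3 / 5 : ℂ) • e0 ∈ S :=
        Submodule.subset_span ⟨1, by simp [X2_apply, e0, e1]⟩
      have k0 : e0 ∈ S := by
        have := S.smul_mem (5 / 3 : ℂ) m1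
        rwa [smul_smul, show (5 / 3 : ℂ) * (3 / 5) = 1 by norm_num, one_smul] at this
      have k1 : e1 ∈ S := by
        have := S.smul_mem (5 / 4 : ℂ) (S.sub_mem m0 m1)
        rwa [add_sub_cancel_left, smul_smul, show (5 / 4 : ℂ) * (4 / 5) = 1 by norm_num,
          one_smul] at this
      rw [eq_top_iff]
      intro v _
      rw [C2_decomp v]
      exact S.add_mem (S.smul_mem _ k0) (S.smul_mem _ k1)
    rw [htop]
    simp

/-- All the hypotheses of `Statement` are met on the two-dimensional Hilbert space `ℂ²`. -/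
theorem hypotheses_met_C2 :
    ∃ (B : Background C2) (𝔉 : FieldSystem B), 𝔉.Cyclic ∧ Nonempty (StressData 𝔉) :=
  datum2.hypotheses_met

/-- In this model the local algebras are not all of `B(H)`: the flip of the two coordinates does not belong
to them.  (So affiliation with the net is a condition on the fields.) -/
theorem flip_not_mem_net (O : Set M4) :
    ∃ Y : C2 →L[ℂ] C2, Y ∉ datum2.bg.net O := by
  refine ⟨(innerSL ℂ e0).smulRight e1, fun h => ?_⟩
  have h1 := (datum2.mem_vn _).1 h X2 rfl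
  have h2 := congrArg (fun Z : C2 →L[ℂ] C2 => Z e0 1) h1
  simp [X2_apply, e0, e1] at h2

/-- In this model the vacuum is not the only invariant vector. -/
theorem vacuum_not_unique : ∃ ψ : C2, (∀ g, datum2.bg.U g ψ = ψ) ∧ ∀ c : ℂ, ψ ≠ c • datum2.bg.Ω := by
  refine ⟨e0, fun _ => rfl, fun c h => ?_⟩
  have h0 := congrArg (fun v : C2 => v 0) h
  have h1 := congrArg (fun v : C2 => v 1) h
  simp [datum2, e0, e1] at h0 h1
  subst h1
  simp at h0

/-! ## The instance `L²[0,1]` -/

open unitInterval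
open scoped ENNReal

/-- The Hilbert space `L²[0,1]`. -/
abbrev L2I : Type := Lp ℂ 2 (volume : Measure I)

/-- The coordinate function `t ↦ t` on `[0,1]`. -/
def xC : C(I, ℂ) := ⟨fun t => ((t : ℝ) : ℂ), Complex.continuous_ofReal.comp continuous_subtype_val⟩

/-- The map `C[0,1] → L²[0,1]`. -/
def emb : C(I, ℂ) →L[ℂ] L2I := ContinuousMap.toLp 2 volume ℂ

lemma emb_coe (g : C(I, ℂ)) : emb g =ᵐ[volume] g := ContinuousMap.coeFn_toLp volume g

/-- The multiplication operator `(M_x g)(t) = t g(t)` on `L²[0,1]`. -/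
def Mx : L2I →L[ℂ] L2I :=
  (ContinuousLinearMap.mul ℂ ℂ).holderL volume ∞ 2 2 (ContinuousMap.toLp ∞ volume ℂ xC)

lemma Mx_coe (g : L2I) : Mx g =ᵐ[volume] fun t => ((t : ℝ) : ℂ) * g t := by
  have h1 := (ContinuousLinearMap.mul ℂ ℂ).coeFn_holder (r := 2)
    (ContinuousMap.toLp ∞ volume ℂ xC) g
  have h2 := ContinuousMap.coeFn_toLp (p := ∞) (𝕜 := ℂ) volume xC
  filter_upwards [h1, h2] with t h1 h2
  change ((ContinuousLinearMap.mul ℂ ℂ).holder 2 (ContinuousMap.toLp ∞ volume ℂ xC) g) t = _
  rw [h1, h2]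
  rfl

lemma Mx_emb (g : C(I, ℂ)) : Mx (emb g) = emb (xC * g) := by
  apply Lp.ext
  filter_upwards [Mx_coe (emb g), emb_coe g, emb_coe (xC * g)] with t h1 h2 h3
  rw [h1, h2, h3]
  rfl

lemma Mx_pow_emb (n : ℕ) : (Mx ^ n) (emb 1) = emb (xC ^ n) := by
  induction n with
  | zero => simp
  | succ n ih => rw [pow_succ', mul_apply_eq_comp, ih, Mx_emb, pow_succ']

lemma Mx_sa : star Mx = Mx := by
  rw [ContinuousLinearMap.star_eq_adjoint]
  symm
  rw [ContinuousLinearMap.eq_adjoint_iff]
  intro f g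
  rw [L2.inner_def, L2.inner_def]
  apply integral_congr_ae
  filter_upwards [Mx_coe f, Mx_coe g] with t h1 h2
  rw [h1, h2]
  simp
  ring

lemma norm_emb_one : ‖emb 1‖ = 1 := by
  have h : ⟪emb 1, emb 1⟫_ℂ = 1 := by
    rw [L2.inner_def]
    have : (fun t => ⟪(emb 1 : L2I) t, (emb 1 : L2I) t⟫_ℂ) =ᵐ[volume] fun _ : I => (1 : ℂ) := by
      filter_upwards [emb_coe 1] with t h1
      rw [h1]; simp
    rw [integral_congr_ae this]
    simp
  have h2 : ‖emb 1‖ ^ 2 = 1 := by
    rw [← inner_self_eq_norm_sq (𝕜 := ℂ), h]; simp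
  exact (pow_eq_one_iff_of_nonneg (norm_nonneg _) two_ne_zero).mp h2

lemma Mx_indep (a b : ℂ) (h : a • (1 : L2I →L[ℂ] L2I) + b • Mx = 0) : a = 0 ∧ b = 0 := by
  have h1 : emb (a • 1 + b • xC) = 0 := by
    have := congrArg (fun Z : L2I →L[ℂ] L2I => Z (emb 1)) h
    simpa [Mx_emb] using this
  have h2 : ∀ᵐ t : I ∂volume, a + b * ((t : ℝ) : ℂ) = 0 := by
    filter_upwards [emb_coe (a • 1 + b • xC), Lp.coeFn_zero ℂ 2 (volume : Measure I)] with t h3 h4
    rw [h1, h4] at h3
    simpa [xC] using h3.symm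
  obtain ⟨t₁, ht₁⟩ := h2.exists
  obtain ⟨t₂, ht₂, hne⟩ := (h2.and (Measure.ae_ne volume t₁)).exists
  have hb : b * (((t₂ : ℝ) : ℂ) - ((t₁ : ℝ) : ℂ)) = 0 := by linear_combination ht₂ - ht₁
  have hne' : ((t₂ : ℝ) : ℂ) - ((t₁ : ℝ) : ℂ) ≠ 0 := by
    intro h0
    apply hne
    apply Subtype.ext
    exact_mod_cast sub_eq_zero.1 h0
  have hb0 : b = 0 := (mul_eq_zero.1 hb).resolve_right hne'
  subst hb0
  simpa using ht₁

/-- Polynomials are dense in `C([0,1], ℂ)` (Stone-Weierstrass). -/
lemma dense_span_pow : Dense (Submodule.span ℂ (Set.range fun n : ℕ => xC ^ n) : Set C(I, ℂ)) := by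
  have hstar : star xC = xC := by
    ext t; simp [xC]
  have hA : (StarAlgebra.adjoin ℂ {xC}).SeparatesPoints := by
    intro s t hst
    refine ⟨xC, ⟨xC, StarAlgebra.self_mem_adjoin_singleton ℂ xC, rfl⟩, ?_⟩
    intro h
    apply hst
    apply Subtype.ext
    have : ((s : ℝ) : ℂ) = ((t : ℝ) : ℂ) := h
    exact_mod_cast this
  have htop := ContinuousMap.starSubalgebra_topologicalClosure_eq_top_of_separatesPoints _ hA
  have hspan : ((StarAlgebra.adjoin ℂ {xC} : StarSubalgebra ℂ C(I, ℂ)) : Set C(I, ℂ))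
      = (Submodule.span ℂ (Set.range fun n : ℕ => xC ^ n) : Set C(I, ℂ)) := by
    have h := StarAlgebra.adjoin_eq_span (R := ℂ) ({xC} : Set C(I, ℂ))
    have h2 : (({xC} : Set C(I, ℂ)) ∪ star {xC}) = {xC} := by
      rw [Set.star_singleton, hstar, Set.union_self]
    rw [h2] at h
    have h3 : ((Submonoid.closure ({xC} : Set C(I, ℂ)) : Submonoid C(I, ℂ)) : Set C(I, ℂ))
        = Set.range fun n : ℕ => xC ^ n := by
      rw [← Submonoid.powers_eq_closure]; rfl
    rw [h3] at h
    rw [← h]; rfl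
  rw [← hspan]
  intro g
  have : g ∈ (StarAlgebra.adjoin ℂ {xC} : StarSubalgebra ℂ C(I, ℂ)).topologicalClosure := by
    rw [htop]; trivial
  exact this

lemma Mx_cyclic : Dense (Submodule.span ℂ (Set.range fun n : ℕ => (Mx ^ n) (emb 1)) : Set L2I) := by
  have h1 : Dense (emb '' (Submodule.span ℂ (Set.range fun n : ℕ => xC ^ n) : Set C(I, ℂ))) :=
    (ContinuousMap.toLp_denseRange ℂ volume ℂ (by simp)).dense_image emb.continuous dense_span_pow
  refine h1.mono ?_
  rintro _ ⟨g, hg, rfl⟩
  have : Submodule.span ℂ (Set.range fun n : ℕ => xC ^ n)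
      ≤ (Submodule.span ℂ (Set.range fun n : ℕ => (Mx ^ n) (emb 1))).comap (emb : C(I, ℂ) →ₗ[ℂ] L2I) := by
    refine Submodule.span_le.2 ?_
    rintro _ ⟨n, rfl⟩
    exact Submodule.subset_span ⟨n, Mx_pow_emb n⟩
  exact this hg

/-- `M_x` has no eigenvectors. -/
theorem Mx_no_eigenvector (c : ℂ) (g : L2I) (h : Mx g = c • g) : g = 0 := by
  have hne : ∀ᵐ t : I ∂volume, ((t : ℝ) : ℂ) ≠ c := by
    by_cases hc : ∃ t₀ : I, ((t₀ : ℝ) : ℂ) = c
    · obtain ⟨t₀, rfl⟩ := hc
      filter_upwards [Measure.ae_ne volume t₀] with t ht h0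
      exact ht (Subtype.ext (by exact_mod_cast h0))
    · exact Filter.Eventually.of_forall fun t ht => hc ⟨t, ht⟩
  apply Lp.ext
  filter_upwards [Mx_coe g, Lp.coeFn_smul c g, Lp.coeFn_zero ℂ 2 (volume : Measure I), hne]
    with t h1 h2 h3 h4
  rw [h, h2] at h1
  rw [h3]
  have h5 : (((t : ℝ) : ℂ) - c) * g t = 0 := by
    have : c * g t = ((t : ℝ) : ℂ) * g t := h1
    linear_combination -this
  exact (mul_eq_zero.1 h5).resolve_left (sub_ne_zero.2 h4)

/-- `L²[0,1]` is infinite-dimensional. -/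
theorem not_finiteDimensional_L2I : ¬ FiniteDimensional ℂ L2I := by
  intro hfd
  have : Nontrivial L2I := ⟨⟨emb 1, 0, fun h => by
    have := norm_emb_one; rw [h] at this; simp at this⟩⟩
  obtain ⟨c, hc⟩ := Module.End.exists_eigenvalue (Mx : L2I →ₗ[ℂ] L2I)
  obtain ⟨v, hv⟩ := hc.exists_hasEigenvector
  exact hv.2 (Mx_no_eigenvector c v hv.apply_eq_smul)

/-- `H = L²[0,1]`, `X = M_x`, `Ω = 1`. -/
def datumL2 : Datum L2I where
  X := Mx
  X_sa := Mx_sa
  Ω := emb 1
  norm_Ω := norm_emb_one
  indep := Mx_indep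
  cyclic := Mx_cyclic

/-- All the hypotheses of `Statement` are met on the infinite-dimensional Hilbert space `L²[0,1]`:
`Ω = 1`, `U = 1`, `𝓜(O) = {M_x}''`, the constant fields `(∫ f) (a + b M_x)` of dimension `0`,
`T = V = 0`. -/
theorem hypotheses_met_L2 :
    ∃ (B : Background L2I) (𝔉 : FieldSystem B), 𝔉.Cyclic ∧ Nonempty (StressData 𝔉) :=
  datumL2.hypotheses_met

end SanityTwo
end Claimed.Open.R282
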