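import Claimed.Open.R282.SanityStatic
import Claimed.Open.R282.SanityTwo
import Claimed.Open.R282.SanityJoint

/-!
# Result 282: hypotheses **and** conclusion, checked without any assumption, beyond `H = ℂ`

This file only joins three files:

* `SanityTwo.lean`    (helper72):  `Datum H` gives a model `D.bg`, `D.sys`, `D.stress` of all hypotheses;
* `SanityJoint.lean`  (helper250): `tensor_total`, product tests are total in `C_c^∞((ℝ⁴)^n)`;
* `SanityStatic.lean` (helper247): `static_conclusion`, the whole `Conclusion` over a static background
  on a finite-dimensional Hilbert space, given that product tests are total.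

Results:

* `static_conclusion_unconditional` : Theorem 1.1 holds for **every** cyclic field system without fields
  of dimension three and four, with **every** stress data, over **every** static background on a
  finite-dimensional Hilbert space;
* `datum_conclusion` : in particular in all the models `Datum H`, `dim H < ∞`;
* `conclusion_C2`, `theorem_checked_on_C2` : in particular on `H = ℂ²`, where the local algebras are
  not all of `B(H)` (`SanityTwo.flip_not_mem_net`) and the vacuum is not unique
  (`SanityTwo.vacuum_not_unique`).
-/

open scoped Distributions ContDiff InnerProductSpace ComplexConjugate Topology SchwartzMap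
open TopologicalSpace

noncomputable section

namespace Claimed.Open.R282
namespace SanityFull

open SanityStatic SanityTwo

/-- Product tests are total (helper250). -/
theorem tensorTotal : TensorTotal := fun _ W hW => SanityJoint.tensor_total W hW

section

variable {H : Type} [NormedAddCommGroup H] [InnerProductSpace ℂ H] [CompleteSpace H]
  [FiniteDimensional ℂ H]

/-- Theorem 1.1 on every static finite-dimensional theory without fields of dimension three and four. -/
theorem static_conclusion_unconditional {B : Background H} {𝓜 : VonNeumannAlgebra H}
    (hB : IsStatic B 𝓜) (𝔉 : FieldSystem B) (hcyc : 𝔉.Cyclic) (h3 : 𝔉.grade 3 = ⊥)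
    (h4 : 𝔉.grade 4 = ⊥) (S : StressData 𝔉) : Conclusion 𝔉 S :=
  static_conclusion hB tensorTotal 𝔉 hcyc h3 h4 S

omit [FiniteDimensional ℂ H] in
theorem datum_isStatic (D : Datum H) : IsStatic D.bg D.vn := ⟨fun _ => rfl, fun _ _ => rfl⟩

/-- The conclusion of Theorem 1.1 in the models of `SanityTwo.lean`, for every stress data. -/
theorem datum_conclusion (D : Datum H) (S : StressData D.sys) : Conclusion D.sys S :=
  static_conclusion_unconditional (datum_isStatic D) D.sys D.sys_cyclic
    (by show grade2 3 = ⊥; simp [grade2]) (by show grade2 4 = ⊥; simp [grade2]) S

end

/-- The conclusion of Theorem 1.1 holds in the model on `ℂ²`. -/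
theorem conclusion_C2 : Conclusion datum2.sys datum2.stress := datum_conclusion datum2 _

/-- Hypotheses and conclusion of `Statement` at once, on a Hilbert space other than `ℂ`. -/
theorem theorem_checked_on_C2 :
    ∃ (B : Background C2) (𝔉 : FieldSystem B) (_ : 𝔉.Cyclic) (S : StressData 𝔉), Conclusion 𝔉 S :=
  ⟨datum2.bg, datum2.sys, datum2.sys_cyclic, datum2.stress, conclusion_C2⟩

end SanityFull
end Claimed.Open.R282
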