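import Claimed.Open.R282.SanityCone

/-!
# Result 282: the parameters `Sim` form a group, and `Background.U` is a unitary representation of it

`Background.U_one` and `Background.U_mul` say "representation"; this needs that `Sim.mul`, `Sim.one` are group laws.

* `one_mul'`, `mul_one'`, `mul_assoc'`, `inv_mul'`, `mul_inv'`, `simGroup`: `Sim` is a group.
* `inv_act`: the inverse acts on space-time by the inverse similarity.
* `U_inv`, `Urep`: for EVERY `Background`, `U(g⁻¹) = U(g)^*` and `U` is a homomorphism into the unitary group.
* `lorentz_neg`, `spin_act`, `U_spin_sq`, `spin_central`, `net_spin`: the rotation by `2π`, `(0, -1, 0)`, acts trivially on space-time, is central of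
  order two, and `U(0,-1,0)` is a self-adjoint unitary commuting with all `U(g)` which normalises every local algebra.
-/

open scoped Distributions ContDiff InnerProductSpace ComplexConjugate Topology SchwartzMap
open scoped LinearPMap
open TopologicalSpace

noncomputable section

namespace Claimed.Open.R282
namespace SanityGroup

theorem sim_ext {g h : Sim} (ha : g.a = h.a) (hA : g.A = h.A) (hs : g.s = h.s) : g = h := by
  cases g; cases h; simp_all

theorem act_zero (g : Sim) : g.act 0 = g.a := by
  simp [Sim.act]

theorem one_mul' (g : Sim) : Sim.one.mul g = g :=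
  sim_ext (Sanity.act_one g.a) (one_mul g.A) (zero_add g.s)

theorem mul_one' (g : Sim) : g.mul Sim.one = g :=
  sim_ext (act_zero g) (mul_one g.A) (add_zero g.s)

theorem mul_assoc' (g h k : Sim) : (g.mul h).mul k = g.mul (h.mul k) :=
  sim_ext (Sanity.act_mul g h k.a) (mul_assoc g.A h.A k.A) (add_assoc g.s h.s k.s)

/-- The inverse similarity, as a parameter. -/
def inv (g : Sim) : Sim := ⟨SanityTest.invAct g 0, g.A⁻¹, -g.s⟩

/-- The inverse parameter acts by the inverse similarity. -/
theorem inv_act (g : Sim) (x : M4) : (inv g).act x = SanityTest.invAct g x := by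
  simp only [inv, Sim.act, SanityTest.invAct, zero_sub, Matrix.mulVec_neg, Matrix.mulVec_sub, smul_neg, smul_sub]
  abel

theorem mul_inv' (g : Sim) : g.mul (inv g) = Sim.one :=
  sim_ext (SanityTest.act_invAct g 0) (mul_inv_cancel g.A) (add_neg_cancel g.s)

theorem inv_mul' (g : Sim) : (inv g).mul g = Sim.one := by
  refine sim_ext ?_ (inv_mul_cancel g.A) (neg_add_cancel g.s)
  show (inv g).act g.a = 0
  rw [inv_act, ← act_zero g, SanityTest.invAct_act]

/-- **`Sim` is a group** under `Sim.mul`, `Sim.one`. -/
@[reducible] def simGroup : Group Sim where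
  mul := Sim.mul
  one := Sim.one
  inv := inv
  mul_assoc := mul_assoc'
  one_mul := one_mul'
  mul_one := mul_one'
  inv_mul_cancel := inv_mul'

/-- The translations form a subgroup isomorphic to `(ℝ⁴, +)`. -/
theorem transl_mul (a b : M4) : (Sim.transl a).mul (Sim.transl b) = Sim.transl (a + b) := by
  refine sim_ext ?_ (one_mul _) (zero_add _)
  show (Sim.transl a).act b = a + b
  simp [Sim.act, Sim.transl, Sanity.lorentz_one_mulVec, add_comm]

/-- The translations are normal: `g T(b) g⁻¹ = T(e^s Λ b)`. -/
theorem conj_transl (g : Sim) (b : M4) :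
    (g.mul (Sim.transl b)).mul (inv g) = Sim.transl (Real.exp g.s • (lorentz g.A).mulVec b) := by
  refine sim_ext ?_ ?_ ?_
  · show (g.mul (Sim.transl b)).act (SanityTest.invAct g 0) = _
    rw [Sanity.act_mul]
    have h : (Sim.transl b).act (SanityTest.invAct g 0) = SanityTest.invAct g 0 + b := by
      simp [Sim.act, Sim.transl, Sanity.lorentz_one_mulVec]
    rw [h]
    have h2 : g.act (SanityTest.invAct g 0 + b)
        = g.act (SanityTest.invAct g 0) + Real.exp g.s • (lorentz g.A).mulVec b := by
      simp only [Sim.act, Matrix.mulVec_add, smul_add]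
      abel
    rw [h2, SanityTest.act_invAct, zero_add]
    rfl
  · show g.A * 1 * g.A⁻¹ = 1
    rw [mul_one, mul_inv_cancel]
  · show g.s + 0 + -g.s = 0
    ring

section rep

variable {H : Type} [NormedAddCommGroup H] [InnerProductSpace ℂ H] [CompleteSpace H]
variable (B : Background H)

/-- `U(g⁻¹) = U(g)^*`. -/
theorem U_inv (g : Sim) : B.U (inv g) = star (B.U g) := by
  have h1 : B.U (inv g) * B.U g = 1 := by rw [← B.U_mul, inv_mul', B.U_one]
  have h2 : B.U g * star (B.U g) = 1 := (B.U_unitary g).2
  calc B.U (inv g) = B.U (inv g) * (B.U g * star (B.U g)) := by rw [h2, mul_one]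
    _ = star (B.U g) := by rw [← mul_assoc, h1, one_mul]

/-- `U` as a homomorphism from the group `Sim` into the unitary group of `H`. -/
def Urep : letI := simGroup; Sim →* unitary (H →L[ℂ] H) :=
  letI := simGroup
  { toFun := fun g => ⟨B.U g, B.U_unitary g⟩
    map_one' := Subtype.ext B.U_one
    map_mul' := fun g h => Subtype.ext (B.U_mul g h) }

/-- The translations are represented by commuting unitaries. -/
theorem U_transl_comm (a b : M4) :
    B.U (Sim.transl a) * B.U (Sim.transl b) = B.U (Sim.transl b) * B.U (Sim.transl a) := by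
  rw [← B.U_mul, ← B.U_mul, transl_mul, transl_mul, add_comm]

end rep

/-! ## The rotation by `2π` -/

theorem lorentz_neg (A : SL2C) : lorentz (-A) = lorentz A := by
  ext μ ν
  simp [lorentz]

/-- The rotation by `2π` in the spin covering. -/
def spin : Sim := ⟨0, -1, 0⟩

theorem spin_act (x : M4) : spin.act x = x := by
  have h : lorentz (-1 : SL2C) = lorentz 1 := lorentz_neg 1
  simp [spin, Sim.act, h, Sanity.lorentz_one_mulVec]

theorem spin_ne_one : spin ≠ Sim.one := by
  intro h
  have h1 : (-1 : SL2C) = 1 := congrArg Sim.A h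
  have h2 := congrArg (fun A : SL2C => A.1 0 0) h1
  simp at h2
  norm_num at h2

theorem spin_mul_spin : spin.mul spin = Sim.one :=
  sim_ext (spin_act 0) (by show (-1 : SL2C) * -1 = 1; simp) (add_zero 0)

/-- The rotation by `2π` is central. -/
theorem spin_central (g : Sim) : spin.mul g = g.mul spin :=
  sim_ext ((spin_act g.a).trans (act_zero g).symm) (by show (-1 : SL2C) * g.A = g.A * -1; simp)
    (by show (0 : ℝ) + g.s = g.s + 0; ring)

section rep2

variable {H : Type} [NormedAddCommGroup H] [InnerProductSpace ℂ H] [CompleteSpace H]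
variable (B : Background H)

theorem U_spin_sq : B.U spin * B.U spin = 1 := by rw [← B.U_mul, spin_mul_spin, B.U_one]

theorem U_spin_comm (g : Sim) : B.U spin * B.U g = B.U g * B.U spin := by
  rw [← B.U_mul, ← B.U_mul, spin_central]

theorem U_spin_sa : star (B.U spin) = B.U spin := by
  have h2 : star (B.U spin) * B.U spin = 1 := (B.U_unitary spin).1
  calc star (B.U spin) = star (B.U spin) * (B.U spin * B.U spin) := by rw [U_spin_sq, mul_one]
    _ = B.U spin := by rw [← mul_assoc, h2, one_mul]

/-- `U(2π)` normalises every local algebra (as the statistics grading `Γ` does). -/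
theorem net_spin {O : Set M4} (hO : IsDoubleCone O) (x : H →L[ℂ] H) :
    x ∈ B.net O ↔ B.U spin * x * B.U spin ∈ B.net O := by
  have h := B.net_cov spin O hO x
  have hi : spin.act '' O = O := by
    ext y
    simp [spin_act]
  rwa [hi, U_spin_sa] at h

end rep2

end SanityGroup
end Claimed.Open.R282
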