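import Claimed.Open.R282.SanityAlgebra

/-!
# Section 2.3, first half: the even and the Hermitian parts keep the affine Ward identities, in EVERY theory

No model: everything is proved for an ARBITRARY `FieldSystem` over an arbitrary `Background`.  `StressData` does not assume `T`, `V` even or
Hermitian (`CLAIM.md`, item 8(c)); the paper replaces them by the Hermitian parts of their even parts and says that these "preserve all
required charges".  Here this is proved for `AffineWardOn localAlg`, the form in which `StressData.ward` is assumed: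

1. `ward_par`: `ΓJΓ` has the same Ward action as `J` (`Γd`: the grading on the invariant domain; `cj_mem`: it normalises `localAlg K`;
   `cj_charge`, `cj_flux`: it maps the charges of `T`, `V` to those of `par T`, `par V`; `Γ` commutes with `U`).
2. `ward_half`: the mean of two pairs of currents with the affine Ward identities has them too (the derivative is unique).
3. `ward_adj` (helper215): `J^†` has the same Ward action as `J` (`FAdj`: formal adjoints on the domain; `exists_fadj`: `localAlg K` is closed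
   under them; `fadj_charge`, `fadj_flux`: the test functions `X^ν F_μ` and the coefficients of `charge`, `flux` are real).
4. `ward_evenPart`, `ward_hermPart`, **`ward_herm_even`**: for every `S : StressData 𝔉` the fields `hermPart (evenPart T)`, `hermPart (evenPart V)`
   satisfy the affine Ward identities.
-/

open scoped Distributions ContDiff InnerProductSpace ComplexConjugate Topology
open TopologicalSpace

noncomputable section

namespace Claimed.Open.R282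
namespace SanityHerm

open SanityAlgebra

variable {H : Type} [NormedAddCommGroup H] [InnerProductSpace ℂ H] [CompleteSpace H]
variable {B : Background H} (𝔉 : FieldSystem B)

/-! ### 1. The even part -/

/-- The grading on the invariant domain. -/
def Γd : Module.End ℂ 𝔉.domain where
  toFun ψ := ⟨B.Γ ψ, 𝔉.Γ_mem ψ ψ.2⟩
  map_add' a b := Subtype.ext (by simp)
  map_smul' r a := Subtype.ext (by simp)

theorem Γd_sq : Γd 𝔉 * Γd 𝔉 = 1 := LinearMap.ext fun ψ => Subtype.ext (Γ_Γ (ψ : H))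

theorem Γd_cancel (X : Module.End ℂ 𝔉.domain) : Γd 𝔉 * (Γd 𝔉 * X) = X := by
  rw [← mul_assoc, Γd_sq, one_mul]

theorem Γd_op (A : 𝔉.F) (f : Test) : Γd 𝔉 * 𝔉.op A f * Γd 𝔉 = 𝔉.op (𝔉.par A) f :=
  LinearMap.ext fun χ => Subtype.ext (op_par 𝔉 A f χ).symm

theorem cj_mem {K : Set M4} {P : Module.End ℂ 𝔉.domain} (hP : P ∈ 𝔉.localAlg K) :
    Γd 𝔉 * P * Γd 𝔉 ∈ 𝔉.localAlg K := by
  unfold FieldSystem.localAlg at hP ⊢
  induction hP using Algebra.adjoin_induction with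
  | mem X hX =>
    obtain ⟨A, f, hf, rfl⟩ := hX
    rw [Γd_op]
    exact Algebra.subset_adjoin ⟨_, f, hf, rfl⟩
  | algebraMap r =>
    rw [Algebra.algebraMap_eq_smul_one, mul_smul_comm, mul_one, smul_mul_assoc, Γd_sq,
      ← Algebra.algebraMap_eq_smul_one]
    exact Subalgebra.algebraMap_mem _ r
  | add P Q _ _ hP hQ =>
    rw [mul_add, add_mul]
    exact Subalgebra.add_mem _ hP hQ
  | mul P Q _ _ hP hQ =>
    have h : Γd 𝔉 * (P * Q) * Γd 𝔉 = (Γd 𝔉 * P * Γd 𝔉) * (Γd 𝔉 * Q * Γd 𝔉) := by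
      simp only [mul_assoc, Γd_cancel]
    rw [h]
    exact Subalgebra.mul_mem _ hP hQ

theorem cj_charge (T : Fin 4 → Fin 4 → 𝔉.F) (X : M4 → M4) (F : Fin 4 → RTest) :
    Γd 𝔉 * 𝔉.charge T X F * Γd 𝔉 = 𝔉.charge (fun μ ν => 𝔉.par (T μ ν)) X F := by
  unfold FieldSystem.charge
  simp only [Finset.mul_sum, Finset.sum_mul, mul_smul_comm, smul_mul_assoc, Γd_op]

theorem cj_flux (V : Fin 4 → 𝔉.F) (F : Fin 4 → RTest) :
    Γd 𝔉 * 𝔉.flux V F * Γd 𝔉 = 𝔉.flux (fun μ => 𝔉.par (V μ)) F := by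
  unfold FieldSystem.flux
  simp only [Finset.mul_sum, Finset.sum_mul, mul_smul_comm, smul_mul_assoc, Γd_op]

theorem cj_comm (Q P : Module.End ℂ 𝔉.domain) :
    Γd 𝔉 * 𝔉.comm Q (Γd 𝔉 * P * Γd 𝔉) * Γd 𝔉 = 𝔉.comm (Γd 𝔉 * Q * Γd 𝔉) P := by
  unfold FieldSystem.comm
  simp only [mul_sub, sub_mul, mul_assoc, Γd_cancel, Γd_sq, mul_one]

theorem Γd_inner (φ ψ : 𝔉.domain) : ⟪(Γd 𝔉 φ : H), (ψ : H)⟫_ℂ = ⟪(φ : H), (Γd 𝔉 ψ : H)⟫_ℂ :=
  Γ_inner (φ : H) (ψ : H)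

theorem Γd_Γd (ψ : 𝔉.domain) : Γd 𝔉 (Γd 𝔉 ψ) = ψ := Subtype.ext (Γ_Γ (ψ : H))

/-- `ΓJΓ` has the same Ward action as `J`. -/
theorem ward_par {T : Fin 4 → Fin 4 → 𝔉.F} {V : Fin 4 → 𝔉.F} (h : 𝔉.AffineWardOn 𝔉.localAlg T V) :
    𝔉.AffineWardOn 𝔉.localAlg (fun μ ν => 𝔉.par (T μ ν)) fun μ => 𝔉.par (V μ) := by
  intro γ c M κ hγ K F hF P hP φ ψ
  have h1 := h γ c M κ hγ K F hF _ (cj_mem 𝔉 hP) (Γd 𝔉 φ) (Γd 𝔉 ψ)
  have hfun : (fun s : ℝ => ⟪(𝔉.Uact (γ s) (Γd 𝔉 φ) : H),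
      ((Γd 𝔉 * P * Γd 𝔉) (𝔉.Uact (γ s) (Γd 𝔉 ψ)) : H)⟫_ℂ) =
      fun s : ℝ => ⟪(𝔉.Uact (γ s) φ : H), (P (𝔉.Uact (γ s) ψ) : H)⟫_ℂ := by
    funext s
    have hU : ∀ χ : 𝔉.domain, 𝔉.Uact (γ s) (Γd 𝔉 χ) = Γd 𝔉 (𝔉.Uact (γ s) χ) := fun χ =>
      Subtype.ext (congrArg (fun X : H →L[ℂ] H => X (χ : H)) (B.Γ_U (γ s))).symm
    rw [hU, hU]
    simp only [Module.End.mul_apply, Γd_Γd]
    rw [Γd_inner, Γd_Γd]
  rw [hfun] at h1
  have hval : ⟪(Γd 𝔉 φ : H), (((-Complex.I) • 𝔉.comm (𝔉.charge T (affineField c M κ) F -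
      (κ : ℂ) • 𝔉.flux V F) (Γd 𝔉 * P * Γd 𝔉)) (Γd 𝔉 ψ) : H)⟫_ℂ =
      ⟪(φ : H), (((-Complex.I) • 𝔉.comm (𝔉.charge (fun μ ν => 𝔉.par (T μ ν)) (affineField c M κ) F -
        (κ : ℂ) • 𝔉.flux (fun μ => 𝔉.par (V μ)) F) P) ψ : H)⟫_ℂ := by
    rw [Γd_inner, ← cj_charge, ← cj_flux]
    have h2 : Γd 𝔉 * 𝔉.charge T (affineField c M κ) F * Γd 𝔉 - (κ : ℂ) • (Γd 𝔉 * 𝔉.flux V F * Γd 𝔉) =
        Γd 𝔉 * (𝔉.charge T (affineField c M κ) F - (κ : ℂ) • 𝔉.flux V F) * Γd 𝔉 := by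
      rw [mul_sub, sub_mul, mul_smul_comm, smul_mul_assoc]
    rw [h2, ← cj_comm]
    simp only [LinearMap.smul_apply, Module.End.mul_apply, map_smul]
  rw [hval] at h1
  exact h1

/-! ### 2. Convexity -/

theorem charge_half (T T' : Fin 4 → Fin 4 → 𝔉.F) (X : M4 → M4) (F : Fin 4 → RTest) :
    𝔉.charge (fun μ ν => (1 / 2 : ℂ) • (T μ ν + T' μ ν)) X F =
      (1 / 2 : ℂ) • (𝔉.charge T X F + 𝔉.charge T' X F) := by
  unfold FieldSystem.charge
  simp only [map_add, map_smul, LinearMap.add_apply, LinearMap.smul_apply, smul_add, Finset.sum_add_distrib,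
    Finset.smul_sum, smul_comm (1 / 2 : ℂ)]

theorem flux_half (V V' : Fin 4 → 𝔉.F) (F : Fin 4 → RTest) :
    𝔉.flux (fun μ => (1 / 2 : ℂ) • (V μ + V' μ)) F = (1 / 2 : ℂ) • (𝔉.flux V F + 𝔉.flux V' F) := by
  unfold FieldSystem.flux
  simp only [map_add, map_smul, LinearMap.add_apply, LinearMap.smul_apply, smul_add, Finset.sum_add_distrib,
    Finset.smul_sum, smul_comm (1 / 2 : ℂ)]

/-- The mean of two pairs of currents with the affine Ward identities has them too. -/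
theorem ward_half {T T' : Fin 4 → Fin 4 → 𝔉.F} {V V' : Fin 4 → 𝔉.F} (h : 𝔉.AffineWardOn 𝔉.localAlg T V)
    (h' : 𝔉.AffineWardOn 𝔉.localAlg T' V') :
    𝔉.AffineWardOn 𝔉.localAlg (fun μ ν => (1 / 2 : ℂ) • (T μ ν + T' μ ν)) fun μ => (1 / 2 : ℂ) • (V μ + V' μ) := by
  intro γ c M κ hγ K F hF P hP φ ψ
  have h1 := h γ c M κ hγ K F hF P hP φ ψ
  have h2 := h' γ c M κ hγ K F hF P hP φ ψ
  have he := h1.unique h2
  have hop : (-Complex.I) • 𝔉.comm (𝔉.charge (fun μ ν => (1 / 2 : ℂ) • (T μ ν + T' μ ν)) (affineField c M κ) F -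
      (κ : ℂ) • 𝔉.flux (fun μ => (1 / 2 : ℂ) • (V μ + V' μ)) F) P =
      (1 / 2 : ℂ) • ((-Complex.I) • 𝔉.comm (𝔉.charge T (affineField c M κ) F - (κ : ℂ) • 𝔉.flux V F) P +
        (-Complex.I) • 𝔉.comm (𝔉.charge T' (affineField c M κ) F - (κ : ℂ) • 𝔉.flux V' F) P) := by
    rw [charge_half, flux_half]
    unfold FieldSystem.comm
    simp only [sub_mul, mul_sub, smul_mul_assoc, mul_smul_comm, add_mul, mul_add]
    module
  rw [hop]
  simp only [LinearMap.smul_apply, LinearMap.add_apply, Submodule.coe_smul, Submodule.coe_add, inner_smul_right,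
    inner_add_right] at he ⊢
  rw [← he]
  convert h1 using 1
  simp only [LinearMap.smul_apply, Submodule.coe_smul, inner_smul_right]
  ring

/-! ### 3. The Hermitian part (proofs of this section: helper215) -/

/-- `P'` is a formal adjoint of `P` on the invariant domain. -/
def FAdj (P P' : Module.End ℂ 𝔉.domain) : Prop :=
  ∀ φ ψ : 𝔉.domain, ⟪(φ : H), (P ψ : H)⟫_ℂ = ⟪(P' φ : H), (ψ : H)⟫_ℂ

variable {𝔉}

theorem FAdj.symm {P P' : Module.End ℂ 𝔉.domain} (h : FAdj 𝔉 P P') : FAdj 𝔉 P' P := by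
  intro φ ψ
  rw [← inner_conj_symm, ← h ψ φ, inner_conj_symm]

theorem FAdj.add {P P' Q Q' : Module.End ℂ 𝔉.domain} (h : FAdj 𝔉 P P') (k : FAdj 𝔉 Q Q') :
    FAdj 𝔉 (P + Q) (P' + Q') := by
  intro φ ψ
  simp only [LinearMap.add_apply, Submodule.coe_add, inner_add_right, inner_add_left, h φ ψ, k φ ψ]

theorem FAdj.smul {P P' : Module.End ℂ 𝔉.domain} (h : FAdj 𝔉 P P') (c : ℂ) :
    FAdj 𝔉 (c • P) (conj c • P') := by
  intro φ ψ
  simp only [LinearMap.smul_apply, Submodule.coe_smul, inner_smul_right, inner_smul_left, h φ ψ,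
    Complex.conj_conj]

theorem FAdj.neg {P P' : Module.End ℂ 𝔉.domain} (h : FAdj 𝔉 P P') : FAdj 𝔉 (-P) (-P') := by
  intro φ ψ
  simp only [LinearMap.neg_apply, Submodule.coe_neg, inner_neg_right, inner_neg_left, h φ ψ]

theorem FAdj.sub {P P' Q Q' : Module.End ℂ 𝔉.domain} (h : FAdj 𝔉 P P') (k : FAdj 𝔉 Q Q') :
    FAdj 𝔉 (P - Q) (P' - Q') := by
  rw [sub_eq_add_neg, sub_eq_add_neg]
  exact h.add k.neg

theorem FAdj.mul {P P' Q Q' : Module.End ℂ 𝔉.domain} (h : FAdj 𝔉 P P') (k : FAdj 𝔉 Q Q') :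
    FAdj 𝔉 (P * Q) (Q' * P') := by
  intro φ ψ
  rw [Module.End.mul_apply, Module.End.mul_apply, h φ (Q ψ), k (P' φ) ψ]

theorem FAdj.one : FAdj 𝔉 1 1 := fun _ _ => rfl

theorem FAdj.zero : FAdj 𝔉 0 0 := by
  intro φ ψ
  simp

theorem FAdj.sum {κ : Type*} (s : Finset κ) {P P' : κ → Module.End ℂ 𝔉.domain}
    (h : ∀ i ∈ s, FAdj 𝔉 (P i) (P' i)) : FAdj 𝔉 (∑ i ∈ s, P i) (∑ i ∈ s, P' i) := by
  classical
  induction s using Finset.induction_on with
  | empty => simpa using FAdj.zero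
  | insert a s ha ih =>
    rw [Finset.sum_insert ha, Finset.sum_insert ha]
    exact (h a (Finset.mem_insert_self a s)).add (ih fun i hi => h i (Finset.mem_insert_of_mem hi))

theorem FAdj.op (A : 𝔉.F) (f : Test) : FAdj 𝔉 (𝔉.op A f) (𝔉.op (𝔉.adj A) (conjT f)) :=
  fun φ ψ => 𝔉.op_adj A f φ ψ

theorem tsupport_conjT_subset (f : Test) : tsupport (conjT f) ⊆ tsupport f := by
  refine closure_mono fun x hx => ?_
  rw [Function.mem_support] at hx ⊢
  intro h0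
  apply hx
  rw [SanityTest.conjT_apply, h0, map_zero]

theorem conjT_toC (G : RTest) : conjT (toC G) = toC G := by
  ext x
  rw [SanityTest.conjT_apply, SanityTest.toC_apply, Complex.conj_ofReal]

theorem conjT_mulT_toC (p : M4 → ℝ) (G : RTest) : conjT (mulT p (toC G)) = mulT p (toC G) := by
  by_cases hp : ContDiff ℝ ∞ p
  · ext x
    rw [SanityTest.conjT_apply, SanityTest.mulT_apply hp, SanityTest.toC_apply, map_mul, Complex.conj_ofReal,
      Complex.conj_ofReal]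
  · have h0 : mulT p (toC G) = 0 := by
      unfold mulT
      rw [dif_neg hp]
    rw [h0]
    ext x
    rw [SanityTest.conjT_apply]
    simp

/-- (1) every element of `localAlg K` has a formal adjoint in `localAlg K` -/
theorem exists_fadj {K : Set M4} {P : Module.End ℂ 𝔉.domain} (hP : P ∈ 𝔉.localAlg K) :
    ∃ P' ∈ 𝔉.localAlg K, FAdj 𝔉 P P' := by
  unfold FieldSystem.localAlg at hP ⊢
  induction hP using Algebra.adjoin_induction with
  | mem x hx =>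
    obtain ⟨A, f, hf, rfl⟩ := hx
    exact ⟨𝔉.op (𝔉.adj A) (conjT f),
      Algebra.subset_adjoin ⟨𝔉.adj A, conjT f, (tsupport_conjT_subset f).trans hf, rfl⟩, FAdj.op A f⟩
  | algebraMap r =>
    refine ⟨algebraMap ℂ _ (conj r), Subalgebra.algebraMap_mem _ _, ?_⟩
    rw [Algebra.algebraMap_eq_smul_one, Algebra.algebraMap_eq_smul_one]
    exact FAdj.one.smul r
  | add x y hx hy ihx ihy =>
    obtain ⟨x', hx', kx⟩ := ihx
    obtain ⟨y', hy', ky⟩ := ihy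
    exact ⟨x' + y', add_mem hx' hy', kx.add ky⟩
  | mul x y hx hy ihx ihy =>
    obtain ⟨x', hx', kx⟩ := ihx
    obtain ⟨y', hy', ky⟩ := ihy
    exact ⟨y' * x', mul_mem hy' hx', kx.mul ky⟩

/-- (2) the charges of `T`, `V` and of `T^†`, `V^†` are formal adjoints of each other -/
theorem fadj_charge (T : Fin 4 → Fin 4 → 𝔉.F) (X : M4 → M4) (F : Fin 4 → RTest) :
    FAdj 𝔉 (𝔉.charge T X F) (𝔉.charge (fun μ ν => 𝔉.adj (T μ ν)) X F) := by
  unfold FieldSystem.charge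
  refine FAdj.sum _ fun μ _ => FAdj.sum _ fun ν _ => ?_
  have h1 := (FAdj.op (T μ ν) (mulT (fun x => X x ν) (toC (F μ)))).smul (eta μ : ℂ)
  rwa [conjT_mulT_toC, Complex.conj_ofReal] at h1

theorem fadj_flux (V : Fin 4 → 𝔉.F) (F : Fin 4 → RTest) :
    FAdj 𝔉 (𝔉.flux V F) (𝔉.flux (fun μ => 𝔉.adj (V μ)) F) := by
  unfold FieldSystem.flux
  refine FAdj.sum _ fun μ _ => ?_
  have h1 := (FAdj.op (V μ) (toC (F μ))).smul (eta μ : ℂ)
  rwa [conjT_toC, Complex.conj_ofReal] at h1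

/-- Section 2.3 of the paper: "`J^†` has the same Ward action as `J`". -/
theorem ward_adj {T : Fin 4 → Fin 4 → 𝔉.F} {V : Fin 4 → 𝔉.F} (h : 𝔉.AffineWardOn 𝔉.localAlg T V) :
    𝔉.AffineWardOn 𝔉.localAlg (fun μ ν => 𝔉.adj (T μ ν)) (fun μ => 𝔉.adj (V μ)) := by
  intro γ c M κ hγ K F hF P hP φ ψ
  obtain ⟨P', hP', hPP'⟩ := exists_fadj hP
  set Q := 𝔉.charge T (affineField c M κ) F - (κ : ℂ) • 𝔉.flux V F with hQ
  set Q' := 𝔉.charge (fun μ ν => 𝔉.adj (T μ ν)) (affineField c M κ) F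
    - (κ : ℂ) • 𝔉.flux (fun μ => 𝔉.adj (V μ)) F with hQ'
  have hQQ' : FAdj 𝔉 Q Q' := by
    have h1 := (fadj_flux V F).smul (κ : ℂ)
    rw [Complex.conj_ofReal] at h1
    exact (fadj_charge T _ F).sub h1
  have hcomm : FAdj 𝔉 ((-Complex.I) • 𝔉.comm Q' P) ((-Complex.I) • 𝔉.comm Q P') := by
    have h1 : FAdj 𝔉 (𝔉.comm Q' P) (P' * Q - Q * P') := by
      unfold FieldSystem.comm
      exact (hQQ'.symm.mul hPP').sub (hPP'.mul hQQ'.symm)
    have h2 := h1.smul (-Complex.I)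
    have h3 : conj (-Complex.I) • (P' * Q - Q * P') = (-Complex.I) • 𝔉.comm Q P' := by
      unfold FieldSystem.comm
      rw [map_neg, Complex.conj_I, neg_neg]
      module
    rwa [h3] at h2
  have h0 := (h γ c M κ hγ K F hF P' hP' ψ φ).star
  have hfun : (fun s : ℝ => ⟪(𝔉.Uact (γ s) φ : H), (P (𝔉.Uact (γ s) ψ) : H)⟫_ℂ)
      = fun s : ℝ => star ⟪(𝔉.Uact (γ s) ψ : H), (P' (𝔉.Uact (γ s) φ) : H)⟫_ℂ := by
    funext s
    rw [hPP' _ _]
    exact (inner_conj_symm _ _).symm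
  have hval : ⟪((((-Complex.I) • 𝔉.comm Q P') φ : 𝔉.domain) : H), (ψ : H)⟫_ℂ
      = star ⟪(ψ : H), ((((-Complex.I) • 𝔉.comm Q P') φ : 𝔉.domain) : H)⟫_ℂ :=
    (inner_conj_symm _ _).symm
  rw [hcomm φ ψ, hfun, hval]
  exact h0

/-! ### 4. The Hermitian part of the even part -/

variable (𝔉)

theorem ward_evenPart {T : Fin 4 → Fin 4 → 𝔉.F} {V : Fin 4 → 𝔉.F} (h : 𝔉.AffineWardOn 𝔉.localAlg T V) :
    𝔉.AffineWardOn 𝔉.localAlg (fun μ ν => 𝔉.evenPart (T μ ν)) fun μ => 𝔉.evenPart (V μ) :=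
  ward_half 𝔉 h (ward_par 𝔉 h)

theorem ward_hermPart {T : Fin 4 → Fin 4 → 𝔉.F} {V : Fin 4 → 𝔉.F} (h : 𝔉.AffineWardOn 𝔉.localAlg T V) :
    𝔉.AffineWardOn 𝔉.localAlg (fun μ ν => 𝔉.hermPart (T μ ν)) fun μ => 𝔉.hermPart (V μ) :=
  ward_half 𝔉 h (ward_adj h)

/-- **Section 2.3, first half**: the Hermitian parts of the even parts of `T`, `V` "preserve all required charges". -/
theorem ward_herm_even (S : StressData 𝔉) :
    𝔉.AffineWardOn 𝔉.localAlg (fun μ ν => 𝔉.hermPart (𝔉.evenPart (S.T μ ν)))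
      fun μ => 𝔉.hermPart (𝔉.evenPart (S.V μ)) :=
  ward_hermPart 𝔉 (ward_evenPart 𝔉 S.ward)

end SanityHerm
end Claimed.Open.R282
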