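import Claimed.Open.R282.SanityLorentz

/-!
# Result 282: the local charges are symmetric operators; the vacuum Ward identity for affine fields

No model: everything for an arbitrary `FieldSystem` over an arbitrary `Background`.

* `conjT_toC`, `conjT_mulT`: the test functions `X^ν F^μ` which smear the currents are real;
* `charge_symmetric`, `flux_symmetric`: if the labels `T_{μν}` (`V_μ`) are Hermitian, the local charge `Q_X(F) = ∫F^μX^νT_{μν}` (the
  flux `∫F^μV_μ`) is a symmetric operator on the invariant domain, `⟨φ, Qψ⟩ = ⟨Qφ, ψ⟩`, for every vector field `X` and every real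
  test one-form `F`;
* `charge_T4_symmetric`, `flux_V3_symmetric`: so are the charges of `T⁽⁴⁾`, `V⁽³⁾` in the first clause of `Conclusion` (this is what
  the Hermitian part in the definition of `T4`, `V3` is for; `T`, `V` themselves are not assumed Hermitian, deviation 8 (c));
* `charge_improved_symmetric`: so are the conformal charges `Q_X(F)` of the improved tensor `t` of `Conclusion`, for every `X`;
* `comm_adjoint`: hence `δ_X = i[Q_X(F), ·]` commutes with the formal adjoint: if `P'` is a formal adjoint of `P`, then `i[Q,P']` is a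
  formal adjoint of `i[Q,P]`;
* `vacuum_of_affineWard`: `AffineWardOn Pol T V` implies the vacuum Ward identity `⟨Ω, [Q, P]Ω⟩ = 0` for the charge
  `Q = Q_X(F) - κ∫F^μV_μ` of every affine field `X = c + Mx + κx` tangent to a curve of similarities (`U(g)Ω = Ω`);
* `vacuum_affine_of_conformalWard`: so for these `X` the clause `vacuum` of `ConformalWard` follows from its clause `affine`; it is a
  new condition only for the special conformal fields.
-/

open scoped Distributions ContDiff InnerProductSpace ComplexConjugate Topology SchwartzMap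
open TopologicalSpace MeasureTheory

noncomputable section

namespace Claimed.Open.R282
namespace SanityHermitian

open SanityTest SanityAlgebra SanityLorentz

variable {H : Type} [NormedAddCommGroup H] [InnerProductSpace ℂ H] [CompleteSpace H]

variable {B : Background H} (𝔉 : FieldSystem B)

/-- A real test function is its own complex conjugate. -/
theorem conjT_toC (F : RTest) : conjT (toC F) = toC F := by
  ext x
  rw [conjT_apply, toC_apply, Complex.conj_ofReal]

theorem conjT_zero : conjT 0 = 0 := by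
  ext x
  rw [conjT_apply]
  simp

/-- Multiplication by a real function commutes with complex conjugation. -/
theorem conjT_mulT (g : M4 → ℝ) (f : Test) : conjT (mulT g f) = mulT g (conjT f) := by
  by_cases hg : ContDiff ℝ ∞ g
  · ext x
    rw [conjT_apply, mulT_apply hg, mulT_apply hg, conjT_apply, map_mul, Complex.conj_ofReal]
  · unfold mulT
    rw [dif_neg hg, dif_neg hg, conjT_zero]

/-- A Hermitian label smeared with a real test function is a symmetric operator. -/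
theorem op_symmetric {A : 𝔉.F} (hA : 𝔉.adj A = A) {f : Test} (hf : conjT f = f) (φ ψ : 𝔉.domain) :
    ⟪(φ : H), (𝔉.op A f ψ : H)⟫_ℂ = ⟪(𝔉.op A f φ : H), (ψ : H)⟫_ℂ := by
  have h := 𝔉.op_adj A f φ ψ
  rwa [hA, hf] at h

/-- `IsSym X`: `⟨φ, Xψ⟩ = ⟨Xφ, ψ⟩` on the invariant domain. -/
def IsSym (X : Module.End ℂ 𝔉.domain) : Prop :=
  ∀ φ ψ : 𝔉.domain, ⟪(φ : H), (X ψ : H)⟫_ℂ = ⟪(X φ : H), (ψ : H)⟫_ℂ

variable {𝔉}

theorem IsSym.zero : IsSym 𝔉 0 := fun φ ψ => by simp

theorem IsSym.add {X Y : Module.End ℂ 𝔉.domain} (hX : IsSym 𝔉 X) (hY : IsSym 𝔉 Y) :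
    IsSym 𝔉 (X + Y) := fun φ ψ => by
  simp only [LinearMap.add_apply, Submodule.coe_add, inner_add_left, inner_add_right, hX φ ψ, hY φ ψ]

theorem IsSym.sub {X Y : Module.End ℂ 𝔉.domain} (hX : IsSym 𝔉 X) (hY : IsSym 𝔉 Y) :
    IsSym 𝔉 (X - Y) := fun φ ψ => by
  simp only [LinearMap.sub_apply, Submodule.coe_sub, inner_sub_left, inner_sub_right, hX φ ψ, hY φ ψ]

theorem IsSym.smul_real (r : ℝ) {X : Module.End ℂ 𝔉.domain} (hX : IsSym 𝔉 X) :
    IsSym 𝔉 ((r : ℂ) • X) := fun φ ψ => by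
  simp only [LinearMap.smul_apply, Submodule.coe_smul, inner_smul_left, inner_smul_right, hX φ ψ,
    Complex.conj_ofReal]

theorem IsSym.sum {ι : Type} (s : Finset ι) (X : ι → Module.End ℂ 𝔉.domain)
    (h : ∀ i, IsSym 𝔉 (X i)) : IsSym 𝔉 (∑ i ∈ s, X i) := by
  classical
  induction s using Finset.induction_on with
  | empty => simpa using IsSym.zero
  | insert a s ha ih => rw [Finset.sum_insert ha]; exact (h a).add ih

variable (𝔉)

/-- **The local charge of a Hermitian tensor is a symmetric operator.** -/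
theorem charge_symmetric {T : Fin 4 → Fin 4 → 𝔉.F} (hT : ∀ μ ν, 𝔉.adj (T μ ν) = T μ ν) (X : M4 → M4)
    (F : Fin 4 → RTest) : IsSym 𝔉 (𝔉.charge T X F) :=
  IsSym.sum _ _ fun μ => IsSym.sum _ _ fun ν =>
    IsSym.smul_real (eta μ) (op_symmetric 𝔉 (hT μ ν) (by rw [conjT_mulT, conjT_toC]))

/-- The flux of a Hermitian vector field is a symmetric operator. -/
theorem flux_symmetric {V : Fin 4 → 𝔉.F} (hV : ∀ μ, 𝔉.adj (V μ) = V μ) (F : Fin 4 → RTest) :
    IsSym 𝔉 (𝔉.flux V F) :=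
  IsSym.sum _ _ fun μ => IsSym.smul_real (eta μ) (op_symmetric 𝔉 (hV μ) (conjT_toC _))

/-- The charges of `T⁽⁴⁾` are symmetric, whatever `T` is. -/
theorem charge_T4_symmetric (S : StressData 𝔉) (X : M4 → M4) (F : Fin 4 → RTest) :
    IsSym 𝔉 (𝔉.charge S.T4 X F) := charge_symmetric 𝔉 (adj_T4 S) X F

/-- The fluxes of `V⁽³⁾` are symmetric, whatever `V` is. -/
theorem flux_V3_symmetric (S : StressData 𝔉) (F : Fin 4 → RTest) : IsSym 𝔉 (𝔉.flux S.V3 F) :=
  flux_symmetric 𝔉 (adj_V3 S) F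

/-- The full affine charge of the first clause of `Conclusion` is symmetric. -/
theorem affineCharge_symmetric (S : StressData 𝔉) (X : M4 → M4) (κ : ℝ) (F : Fin 4 → RTest) :
    IsSym 𝔉 (𝔉.charge S.T4 X F - (κ : ℂ) • 𝔉.flux S.V3 F) :=
  (charge_T4_symmetric 𝔉 S X F).sub (IsSym.smul_real κ (flux_V3_symmetric 𝔉 S F))

variable {𝔉}

/-- **`δ = i[Q, ·]` commutes with the formal adjoint** when `Q` is symmetric. -/
theorem comm_adjoint {Q P P' : Module.End ℂ 𝔉.domain} (hQ : IsSym 𝔉 Q)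
    (hP : ∀ φ ψ : 𝔉.domain, ⟪(φ : H), (P ψ : H)⟫_ℂ = ⟪(P' φ : H), (ψ : H)⟫_ℂ) (φ ψ : 𝔉.domain) :
    ⟪(φ : H), ((Complex.I • 𝔉.comm Q P) ψ : H)⟫_ℂ = ⟪((Complex.I • 𝔉.comm Q P') φ : H), (ψ : H)⟫_ℂ := by
  have h1 : ⟪(φ : H), (Q (P ψ) : H)⟫_ℂ = ⟪(P' (Q φ) : H), (ψ : H)⟫_ℂ := by rw [hQ, hP]
  have h2 : ⟪(φ : H), (P (Q ψ) : H)⟫_ℂ = ⟪(Q (P' φ) : H), (ψ : H)⟫_ℂ := by rw [hP, hQ]
  simp only [FieldSystem.comm, LinearMap.smul_apply, LinearMap.sub_apply, Module.End.mul_apply,
    Submodule.coe_smul, Submodule.coe_sub, inner_smul_left, inner_smul_right, inner_sub_left,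
    inner_sub_right, h1, h2, Complex.conj_I]
  ring

/-- **The affine Ward identities imply the vacuum Ward identity** `⟨Ω, [Q, P]Ω⟩ = 0` of the affine charges: the function
`s ↦ ⟨U(g_s)Ω, P U(g_s)Ω⟩` is constant. -/
theorem vacuum_of_affineWard {Pol : Set M4 → Subalgebra ℂ (Module.End ℂ 𝔉.domain)}
    {T : Fin 4 → Fin 4 → 𝔉.F} {V : Fin 4 → 𝔉.F} (hW : 𝔉.AffineWardOn Pol T V) {γ : ℝ → Sim} {c : M4}
    {M : Matrix (Fin 4) (Fin 4) ℝ} {κ : ℝ} (hγ : IsTangent γ c M κ) {K : Set M4}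
    {F : Fin 4 → RTest} (hF : IsSlabFor K F) {P : Module.End ℂ 𝔉.domain} (hP : P ∈ Pol K) :
    ⟪B.Ω, (𝔉.comm (𝔉.charge T (affineField c M κ) F - (κ : ℂ) • 𝔉.flux V F) P 𝔉.vac : H)⟫_ℂ = 0 := by
  have h := hW γ c M κ hγ K F hF P hP 𝔉.vac 𝔉.vac
  have hU : ∀ s : ℝ, 𝔉.Uact (γ s) 𝔉.vac = 𝔉.vac := fun s => Subtype.ext (B.U_Ω (γ s))
  simp only [hU] at h
  have h0 := h.unique (hasDerivAt_const (0 : ℝ) _)
  simp only [LinearMap.smul_apply, Submodule.coe_smul, inner_smul_right] at h0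
  rcases mul_eq_zero.1 h0 with h1 | h1
  · exact absurd h1 (neg_ne_zero.2 Complex.I_ne_zero)
  · exact h1

/-- For affine fields tangent to a curve of similarities the clause `vacuum` of `ConformalWard` follows from its clause `affine`. -/
theorem vacuum_affine_of_conformalWard {t : Fin 4 → Fin 4 → 𝔉.F} (hW : 𝔉.AffineWardOn 𝔉.jointAlg t 0)
    {γ : ℝ → Sim} {c : M4} {M : Matrix (Fin 4) (Fin 4) ℝ} {κ : ℝ} (hγ : IsTangent γ c M κ) {K : Set M4}
    {F : Fin 4 → RTest} (hF : IsSlabFor K F) {P : Module.End ℂ 𝔉.domain} (hP : P ∈ 𝔉.jointAlg K) :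
    ⟪B.Ω, (𝔉.comm (𝔉.charge t (affineField c M κ) F) P 𝔉.vac : H)⟫_ℂ = 0 := by
  have h := vacuum_of_affineWard hW hγ hF hP
  have h0 : 𝔉.flux (0 : Fin 4 → 𝔉.F) F = 0 := by simp [FieldSystem.flux]
  rwa [h0, smul_zero, sub_zero] at h

/-- **The conformal charges of the improved tensor of `Conclusion` are symmetric operators**, for every vector field `X`: by the
clauses of `Conclusion` on `L` the tensor `t = T⁽⁴⁾ + (1/3)(∂∂ - η□)L` is Hermitian (`SanityLorentz.improved_props`). -/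
theorem charge_improved_symmetric {𝔏 : FieldSystem B} (e : Extension 𝔉 𝔏) (S : StressData 𝔉) {L : 𝔏.F}
    (h2 : L ∈ 𝔏.grade 2) (ha : 𝔏.adj L = L) (hp : 𝔏.par L = L) (hr : ∀ Λ, 𝔏.rho Λ L = L)
    (X : M4 → M4) (F : Fin 4 → RTest) :
    IsSym 𝔏 (𝔏.charge (improved 𝔏 (fun μ ν => e.ι (S.T4 μ ν)) L) X F) :=
  charge_symmetric 𝔏 (improved_props S e h2 ha hp hr).2.2.1 X F

end SanityHermitian
end Claimed.Open.R282
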