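import Claimed.Open.R282.Sanity

/-!
# Sanity checks for `IsConformalKilling`, `sigmaOf`, `affineField` and `IsTangent`

* The fifteen generators of Section 8.8 of the paper, `p_c(z) = c`, `d(z) = z`,
  `m_{b,c}(z) = (b·z)c - (c·z)b`, `k_b(z) = 2(b·z)z - z²b`, are conformal Killing fields, with
  `σ = 0, 1, 0, 2 b·z` (`isConformalKilling_*`, `sigmaOf_*`).
* `x ↦ x¹ e_0` and `x ↦ (x¹)² e_0` are not (`not_isConformalKilling_*`).
* Mathlib's `VectorField.lieBracket` reproduces the brackets quoted in the proof of Proposition 8.10: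
  `[p_c, k_b] = 2(b·c)d + 2m_{b,c}`, `[d, k_b] = k_b`, `[m_M, k_b] = -k_{Mb}`, and the expansion
  `k_b(z-x) = k_b(z) - 2(b·x)d(z) - 2m_{b,x}(z) + p_{k_b(x)}(z)`.
* `affineField c M κ` is conformal Killing iff `ηM + (ηM)ᵀ` is a multiple of `η`; in particular if
  `ηM` is antisymmetric, and then `σ = κ`.
-/

open scoped Distributions ContDiff InnerProductSpace ComplexConjugate Topology SchwartzMap
open TopologicalSpace

noncomputable section

namespace Claimed.Open.R282
namespace SanityKilling

theorem mink_eq (x y : M4) : mink x y = x 0 * y 0 - x 1 * y 1 - x 2 * y 2 - x 3 * y 3 := by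
  have h1 : (1 : Fin 4) ≠ 0 := by decide
  have h2 : (2 : Fin 4) ≠ 0 := by decide
  have h3 : (3 : Fin 4) ≠ 0 := by decide
  simp only [mink, Fin.sum_univ_four, eta, if_true, if_neg h1, if_neg h2, if_neg h3]
  ring

theorem mink_comm (x y : M4) : mink x y = mink y x := by
  simp only [mink_eq]; ring

/-- `y ↦ x·y` as a continuous linear functional. -/
def minkL (x : M4) : M4 →L[ℝ] ℝ :=
  LinearMap.toContinuousLinearMap
    { toFun := fun y => mink x y
      map_add' := fun y z => by simp only [mink_eq, Pi.add_apply]; ring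
      map_smul' := fun c y => by
        simp only [mink_eq, Pi.smul_apply, smul_eq_mul, RingHom.id_apply]; ring }

@[simp] theorem minkL_apply (x y : M4) : minkL x y = mink x y := rfl

theorem hasFDerivAt_mink_self (z : M4) :
    HasFDerivAt (fun y : M4 => mink y y) ((2 : ℝ) • minkL z) z := by
  have h : ∀ i : Fin 4, HasFDerivAt (fun y : M4 => y i * y i)
      (z i • (ContinuousLinearMap.proj i : M4 →L[ℝ] ℝ) +
        z i • (ContinuousLinearMap.proj i : M4 →L[ℝ] ℝ)) z := fun i =>
    ((ContinuousLinearMap.proj i : M4 →L[ℝ] ℝ).hasFDerivAt).mul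
      ((ContinuousLinearMap.proj i : M4 →L[ℝ] ℝ).hasFDerivAt)
  have h2 := (((h 0).sub (h 1)).sub (h 2)).sub (h 3)
  refine (h2.congr_fderiv ?_).congr_of_eventuallyEq (Filter.Eventually.of_forall fun y => mink_eq y y)
  ext v
  simp [mink_eq]
  ring

/-! ### The generators -/

/-- `p_c(z) = c`. -/
def pField (c : M4) (_ : M4) : M4 := c

/-- `d(z) = z`. -/
def dField (z : M4) : M4 := z

/-- `m_{b,c}(z) = (b·z) c - (c·z) b`. -/
def mField (b c : M4) (z : M4) : M4 := mink b z • c - mink c z • b

/-- `k_b(z) = 2 (b·z) z - z² b`. -/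
def kField (b : M4) (z : M4) : M4 := (2 * mink b z) • z - mink z z • b

theorem hasFDerivAt_pField (c z : M4) : HasFDerivAt (pField c) (0 : M4 →L[ℝ] M4) z :=
  hasFDerivAt_const c z

theorem hasFDerivAt_dField (z : M4) : HasFDerivAt dField (ContinuousLinearMap.id ℝ M4) z :=
  hasFDerivAt_id z

theorem hasFDerivAt_mField (b c z : M4) :
    HasFDerivAt (mField b c) ((minkL b).smulRight c - (minkL c).smulRight b) z :=
  ((minkL b).hasFDerivAt.smul_const c).sub ((minkL c).hasFDerivAt.smul_const b)

theorem hasFDerivAt_kField (b z : M4) :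
    HasFDerivAt (kField b)
      (((2 * mink b z) • ContinuousLinearMap.id ℝ M4 + ((2 : ℝ) • minkL b).smulRight z)
        - ((2 : ℝ) • minkL z).smulRight b) z := by
  have h1 : HasFDerivAt (fun y : M4 => 2 * mink b y) ((2 : ℝ) • minkL b) z :=
    ((minkL b).hasFDerivAt).const_mul 2
  exact (h1.smul (hasFDerivAt_id z)).sub ((hasFDerivAt_mink_self z).smul_const b)

theorem mField_contDiff (b c : M4) : ContDiff ℝ ∞ (mField b c) :=
  ((minkL b).contDiff.smul contDiff_const).sub ((minkL c).contDiff.smul contDiff_const)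

theorem kField_contDiff (b : M4) : ContDiff ℝ ∞ (kField b) := by
  have h1 : ContDiff ℝ ∞ (fun y : M4 => mink b y) := (minkL b).contDiff
  have h2 : ContDiff ℝ ∞ (fun y : M4 => mink y y) := by
    simp only [mink_eq]
    fun_prop
  exact ((contDiff_const.mul h1).smul contDiff_id).sub (h2.smul contDiff_const)

theorem isConformalKilling_pField (c : M4) : IsConformalKilling (pField c) :=
  ⟨contDiff_const, fun _ => 0, fun x μ ν => by rw [(hasFDerivAt_pField c x).fderiv]; simp⟩

theorem isConformalKilling_dField : IsConformalKilling dField :=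
  ⟨contDiff_id, fun _ => 1, fun x μ ν => by
    rw [(hasFDerivAt_dField x).fderiv]
    fin_cases μ <;> fin_cases ν <;> simp [ev, etaM, eta] <;> norm_num⟩

theorem isConformalKilling_mField (b c : M4) : IsConformalKilling (mField b c) := by
  refine ⟨mField_contDiff b c, fun _ => 0, fun z μ ν => ?_⟩
  rw [(hasFDerivAt_mField b c z).fderiv]
  fin_cases μ <;> fin_cases ν <;> simp [mink_eq, eta, ev] <;> ring

theorem isConformalKilling_kField (b : M4) : IsConformalKilling (kField b) := by
  refine ⟨kField_contDiff b, fun z => 2 * mink b z, fun z μ ν => ?_⟩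
  rw [(hasFDerivAt_kField b z).fderiv]
  fin_cases μ <;> fin_cases ν <;> simp [mink_eq, eta, etaM, ev] <;> ring

theorem sigmaOf_pField (c z : M4) : sigmaOf (pField c) z = 0 := by
  simp [sigmaOf, (hasFDerivAt_pField c z).fderiv]

theorem sigmaOf_dField (z : M4) : sigmaOf dField z = 1 := by
  simp [sigmaOf, (hasFDerivAt_dField z).fderiv, ev]

theorem sigmaOf_mField (b c z : M4) : sigmaOf (mField b c) z = 0 := by
  simp [sigmaOf, (hasFDerivAt_mField b c z).fderiv, ev, Fin.sum_univ_four, mink_eq]
  ring

theorem sigmaOf_kField (b z : M4) : sigmaOf (kField b) z = 2 * mink b z := by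
  simp [sigmaOf, (hasFDerivAt_kField b z).fderiv, ev, Fin.sum_univ_four, mink_eq]
  ring

/-- For a conformal Killing field the function `σ` of the definition is `sigmaOf X = (∂·X)/4`. -/
theorem sigma_eq_sigmaOf {X : M4 → M4} {σ : M4 → ℝ}
    (h : ∀ x μ ν, eta ν * fderiv ℝ X x (ev μ) ν + eta μ * fderiv ℝ X x (ev ν) μ
      = 2 * σ x * etaM μ ν) (x : M4) : σ x = sigmaOf X x := by
  have h0 := h x 0 0
  have h1 := h x 1 1
  have h2 := h x 2 2
  have h3 := h x 3 3
  simp [eta, etaM] at h0 h1 h2 h3
  simp only [sigmaOf, Fin.sum_univ_four]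
  linarith

/-! ### Non-examples -/

theorem hasFDerivAt_shear (x : M4) :
    HasFDerivAt (fun y : M4 => (y 1 • ev 0 : M4))
      ((ContinuousLinearMap.proj 1 : M4 →L[ℝ] ℝ).smulRight (ev 0)) x :=
  (ContinuousLinearMap.proj 1 : M4 →L[ℝ] ℝ).hasFDerivAt.smul_const (ev 0)

/-- The shear `x ↦ x¹ e_0` is not conformal Killing (it is linear, but not in `so(1,3) ⊕ ℝ`). -/
theorem not_isConformalKilling_shear : ¬ IsConformalKilling fun y : M4 => (y 1 • ev 0 : M4) := by
  rintro ⟨-, σ, h⟩
  have := h 0 0 1
  rw [(hasFDerivAt_shear 0).fderiv] at this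
  simp [eta, etaM, ev] at this

/-- `x ↦ (x¹)² e_0` is not conformal Killing. -/
theorem not_isConformalKilling_square :
    ¬ IsConformalKilling fun y : M4 => ((y 1 ^ 2) • ev 0 : M4) := by
  rintro ⟨-, σ, h⟩
  have hd : ∀ x : M4, HasFDerivAt (fun y : M4 => ((y 1 ^ 2) • ev 0 : M4))
      (((2 * x 1) • (ContinuousLinearMap.proj 1 : M4 →L[ℝ] ℝ)).smulRight (ev 0)) x := by
    intro x
    have h1 : HasFDerivAt (fun y : M4 => y 1 ^ 2)
        ((2 * x 1) • (ContinuousLinearMap.proj 1 : M4 →L[ℝ] ℝ)) x := by
      have := ((ContinuousLinearMap.proj 1 : M4 →L[ℝ] ℝ).hasFDerivAt (x := x)).pow 2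
      simpa using this
    exact h1.smul_const (ev 0)
  have := h (ev 1) 0 1
  rw [(hd _).fderiv] at this
  simp [eta, etaM, ev] at this

/-! ### Brackets (proof of Proposition 8.10) -/

/-- `[p_c, k_b] = 2 (b·c) d + 2 m_{b,c}`. -/
theorem lieBracket_pField_kField (b c z : M4) :
    VectorField.lieBracket ℝ (pField c) (kField b) z
      = (2 * mink b c) • dField z + (2 : ℝ) • mField b c z := by
  rw [VectorField.lieBracket, (hasFDerivAt_kField b z).fderiv, (hasFDerivAt_pField c z).fderiv]
  ext μ
  simp [mField, dField, pField, mink_comm z c]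
  ring

/-- `[d, k_b] = k_b`. -/
theorem lieBracket_dField_kField (b z : M4) :
    VectorField.lieBracket ℝ dField (kField b) z = kField b z := by
  rw [VectorField.lieBracket, (hasFDerivAt_kField b z).fderiv, (hasFDerivAt_dField z).fderiv]
  ext μ
  simp [kField, dField]
  ring

/-- `[d, p_c] = - p_c`. -/
theorem lieBracket_dField_pField (c z : M4) :
    VectorField.lieBracket ℝ dField (pField c) z = - pField c z := by
  rw [VectorField.lieBracket, (hasFDerivAt_pField c z).fderiv, (hasFDerivAt_dField z).fderiv]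
  simp [pField]

/-- `[m_M, k_b] = - k_{Mb}` for the Lorentz generator `M = m_{a,c}`. -/
theorem lieBracket_mField_kField (a c b z : M4) :
    VectorField.lieBracket ℝ (mField a c) (kField b) z = - kField (mField a c b) z := by
  rw [VectorField.lieBracket, (hasFDerivAt_kField b z).fderiv, (hasFDerivAt_mField a c z).fderiv]
  ext μ
  simp only [kField, mField, mink_eq, sub_apply, add_apply, smul_apply,
    ContinuousLinearMap.id_apply, ContinuousLinearMap.smulRight_apply, minkL_apply, Pi.sub_apply,
    Pi.add_apply, Pi.smul_apply, Pi.neg_apply, smul_eq_mul]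
  ring

/-- Two special conformal fields commute. -/
theorem lieBracket_kField_kField (a b z : M4) :
    VectorField.lieBracket ℝ (kField a) (kField b) z = 0 := by
  rw [VectorField.lieBracket, (hasFDerivAt_kField b z).fderiv, (hasFDerivAt_kField a z).fderiv]
  ext μ
  simp only [kField, mink_eq, sub_apply, add_apply, smul_apply,
    ContinuousLinearMap.id_apply, ContinuousLinearMap.smulRight_apply, minkL_apply, Pi.sub_apply,
    Pi.add_apply, Pi.smul_apply, Pi.zero_apply, smul_eq_mul]
  ring

/-- `k_b(z-x) = k_b(z) - 2 (b·x) d(z) - 2 m_{b,x}(z) + p_{k_b(x)}(z)`. -/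
theorem kField_sub (b x z : M4) :
    kField b (z - x)
      = kField b z - (2 * mink b x) • dField z - (2 : ℝ) • mField b x z + pField (kField b x) z := by
  ext μ
  simp only [kField, mField, dField, pField, mink_eq, Pi.sub_apply, Pi.add_apply, Pi.smul_apply,
    smul_eq_mul]
  ring

/-! ### Affine fields -/

theorem hasFDerivAt_affineField (c : M4) (M : Matrix (Fin 4) (Fin 4) ℝ) (κ : ℝ) (x : M4) :
    HasFDerivAt (affineField c M κ)
      (LinearMap.toContinuousLinearMap (Matrix.mulVecLin M) + κ • ContinuousLinearMap.id ℝ M4) x := by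
  unfold affineField
  exact ((hasFDerivAt_const c x).add
    (LinearMap.toContinuousLinearMap (Matrix.mulVecLin M)).hasFDerivAt).add
    ((hasFDerivAt_id x).const_smul κ) |>.congr_fderiv (by simp)

theorem affineField_contDiff (c : M4) (M : Matrix (Fin 4) (Fin 4) ℝ) (κ : ℝ) :
    ContDiff ℝ ∞ (affineField c M κ) := by
  unfold affineField
  exact (contDiff_const.add (LinearMap.toContinuousLinearMap (Matrix.mulVecLin M)).contDiff).add
    (contDiff_id.const_smul κ)

theorem fderiv_affineField_apply (c : M4) (M : Matrix (Fin 4) (Fin 4) ℝ) (κ : ℝ) (x : M4)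
    (μ ν : Fin 4) :
    fderiv ℝ (affineField c M κ) x (ev μ) ν = M ν μ + κ * (if μ = ν then 1 else 0) := by
  rw [(hasFDerivAt_affineField c M κ x).fderiv]
  simp [ev, Pi.single_apply, eq_comm]

/-- `x ↦ c + M x + κ x` is conformal Killing iff the symmetric part of `ηM` is a multiple of `η`. -/
theorem isConformalKilling_affineField_iff (c : M4) (M : Matrix (Fin 4) (Fin 4) ℝ) (κ : ℝ) :
    IsConformalKilling (affineField c M κ) ↔
      ∃ m : ℝ, ∀ μ ν, eta ν * M ν μ + eta μ * M μ ν = 2 * m * etaM μ ν := by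
  constructor
  · rintro ⟨-, σ, h⟩
    refine ⟨σ 0 - κ, fun μ ν => ?_⟩
    have := h 0 μ ν
    rw [fderiv_affineField_apply, fderiv_affineField_apply] at this
    by_cases hμν : μ = ν
    · subst hμν; simp [etaM] at this ⊢; linarith
    · simp [etaM, hμν, Ne.symm hμν] at this ⊢; linarith
  · rintro ⟨m, h⟩
    refine ⟨affineField_contDiff c M κ, fun _ => m + κ, fun x μ ν => ?_⟩
    rw [fderiv_affineField_apply, fderiv_affineField_apply]
    have := h μ ν
    by_cases hμν : μ = ν
    · subst hμν; simp [etaM] at this ⊢; linarith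
    · simp [etaM, hμν, Ne.symm hμν] at this ⊢; linarith

/-- Poincare transformations and dilations: if `ηM` is antisymmetric, `c + M x + κ x` is conformal
Killing. -/
theorem isConformalKilling_affineField (c : M4) {M : Matrix (Fin 4) (Fin 4) ℝ}
    (hM : ∀ μ ν, eta ν * M ν μ + eta μ * M μ ν = 0) (κ : ℝ) :
    IsConformalKilling (affineField c M κ) :=
  (isConformalKilling_affineField_iff c M κ).mpr ⟨0, fun μ ν => by rw [hM]; ring⟩

theorem sigmaOf_affineField (c : M4) {M : Matrix (Fin 4) (Fin 4) ℝ}
    (hM : ∀ μ ν, eta ν * M ν μ + eta μ * M μ ν = 0) (κ : ℝ) (x : M4) :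
    sigmaOf (affineField c M κ) x = κ := by
  have h0 := hM 0 0
  have h1 := hM 1 1
  have h2 := hM 2 2
  have h3 := hM 3 3
  simp [eta] at h0 h1 h2 h3
  simp only [sigmaOf, fderiv_affineField_apply, Fin.sum_univ_four, if_true]
  linarith

/-- The matrix of `m_{b,c}`. -/
def mMatrix (b c : M4) : Matrix (Fin 4) (Fin 4) ℝ :=
  Matrix.of fun α β => c α * (eta β * b β) - b α * (eta β * c β)

theorem affineField_mMatrix (b c : M4) : affineField 0 (mMatrix b c) 0 = mField b c := by
  funext z
  ext α
  simp only [affineField, mMatrix, mField, Matrix.mulVec, dotProduct, Matrix.of_apply, mink,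
    Fin.sum_univ_four, Pi.add_apply, Pi.zero_apply, Pi.sub_apply, Pi.smul_apply, smul_eq_mul]
  ring

theorem affineField_translation (c : M4) : affineField c 0 0 = pField c := by
  funext z; simp [affineField, pField]

theorem affineField_dilation : affineField 0 0 1 = dField := by
  funext z; simp [affineField, dField]

end SanityKilling
end Claimed.Open.R282
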