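import Claimed.Open.R282.Statement

/-!
# Sanity checks for `IsSlabFor` (compact Cauchy slabs)

* `exists_slab`: every bounded (in particular every compact) set `K` has a compact Cauchy slab, namely
  the flat time slab `F = χ · dρ`, `ρ(x) = σ(x⁰)` with a smooth step `σ` and a cutoff `χ` equal to one
  on a large ball.  Hence the Ward identities of `Statement.lean` are never vacuous.
* `isSlabFor_mono`: a slab around `K` is a slab around every subset of `K`.
* `isSlabFor_isBounded`: only bounded sets have slabs.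
* `not_isSlabFor_zero`, `not_isSlabFor_smul`: the unit-flux normalisation is really imposed: neither
  `0` nor `c · F` (`c ≠ 1`) is a slab around a point when `F` is.
-/

open scoped Distributions ContDiff InnerProductSpace ComplexConjugate Topology SchwartzMap
open TopologicalSpace

noncomputable section

namespace Claimed.Open.R282
namespace SanitySlab

theorem mink_eq (x y : M4) : mink x y = x 0 * y 0 - x 1 * y 1 - x 2 * y 2 - x 3 * y 3 := by
  have h1 : (1 : Fin 4) ≠ 0 := by decide
  have h2 : (2 : Fin 4) ≠ 0 := by decide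
  have h3 : (3 : Fin 4) ≠ 0 := by decide
  simp only [mink, Fin.sum_univ_four, eta, if_true, if_neg h1, if_neg h2, if_neg h3]
  ring

/-- In the closed forward cone every coordinate is bounded by the time coordinate. -/
theorem abs_le_of_mem_closedCone {z : M4} (hz : z ∈ closedCone) (i : Fin 4) : |z i| ≤ z 0 := by
  obtain ⟨h0, h1⟩ := hz
  rw [mink_eq] at h1
  rw [← abs_of_nonneg h0]
  apply sq_le_sq.mp
  fin_cases i <;> simp <;> nlinarith [sq_nonneg (z 1), sq_nonneg (z 2), sq_nonneg (z 3)]

theorem zero_mem_closedCone : (0 : M4) ∈ closedCone := ⟨le_rfl, by simp [mink]⟩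

theorem subset_causalFuture (K : Set M4) : K ⊆ causalFuture K :=
  fun x hx => ⟨x, hx, by rw [sub_self]; exact zero_mem_closedCone⟩

theorem subset_causalPast (K : Set M4) : K ⊆ causalPast K :=
  fun x hx => ⟨x, hx, by rw [sub_self]; exact zero_mem_closedCone⟩

/-- The flat time step `ρ(x) = σ(x⁰)`: `0` for `x⁰ ≤ 0`, `1` for `x⁰ ≥ 1`. -/
def timeStep (x : M4) : ℝ := Real.smoothTransition (x 0)

theorem timeStep_contDiff : ContDiff ℝ ∞ timeStep :=
  Real.smoothTransition.contDiff.comp (contDiff_apply ℝ ℝ (0 : Fin 4))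

theorem fderiv_timeStep_of_lt {x : M4} (hx : x 0 < 0) : fderiv ℝ timeStep x = 0 := by
  have : timeStep =ᶠ[𝓝 x] fun _ => 0 := by
    have hopen : IsOpen {y : M4 | y 0 < 0} := isOpen_lt (continuous_apply 0) continuous_const
    filter_upwards [hopen.mem_nhds hx] with y hy
    exact Real.smoothTransition.zero_of_nonpos (le_of_lt hy)
  rw [this.fderiv_eq]; simp

theorem fderiv_timeStep_of_gt {x : M4} (hx : 1 < x 0) : fderiv ℝ timeStep x = 0 := by
  have : timeStep =ᶠ[𝓝 x] fun _ => 1 := by
    have hopen : IsOpen {y : M4 | 1 < y 0} := isOpen_lt continuous_const (continuous_apply 0)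
    filter_upwards [hopen.mem_nhds hx] with y hy
    exact Real.smoothTransition.one_of_one_le (le_of_lt hy)
  rw [this.fderiv_eq]; simp

/-- The cutoff `χ`: a smooth bump equal to one on the ball of radius `R`. -/
def cut (R : ℝ) (hR : 0 < R) : ContDiffBump (0 : M4) := ⟨R, R + 1, hR, by linarith⟩

theorem flatSlab_contDiff (R : ℝ) (hR : 0 < R) (μ : Fin 4) :
    ContDiff ℝ ∞ fun x : M4 => cut R hR x * fderiv ℝ timeStep x (ev μ) :=
  (cut R hR).contDiff.mul
    ((timeStep_contDiff.fderiv_right (m := ∞) (by simp)).clm_apply contDiff_const)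

theorem flatSlab_hasCompactSupport (R : ℝ) (hR : 0 < R) (μ : Fin 4) :
    HasCompactSupport fun x : M4 => cut R hR x * fderiv ℝ timeStep x (ev μ) :=
  HasCompactSupport.mul_right (cut R hR).hasCompactSupport

/-- The flat time slab `F_μ = χ ∂_μ ρ`, with `χ = 1` on the ball of radius `R`. -/
def flatSlab (R : ℝ) (hR : 0 < R) (μ : Fin 4) : RTest :=
  ⟨fun x => cut R hR x * fderiv ℝ timeStep x (ev μ), flatSlab_contDiff R hR μ,
    flatSlab_hasCompactSupport R hR μ, fun _ _ => trivial⟩

theorem flatSlab_apply (R : ℝ) (hR : 0 < R) (μ : Fin 4) (x : M4) :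
    flatSlab R hR μ x = cut R hR x * fderiv ℝ timeStep x (ev μ) := rfl

/-- The flat slab has only a time component: it is `χ(x) σ'(x⁰) dx⁰`. -/
theorem flatSlab_spatial (R : ℝ) (hR : 0 < R) {μ : Fin 4} (hμ : μ ≠ 0) (x : M4) :
    flatSlab R hR μ x = 0 := by
  rw [flatSlab_apply]
  have h : HasFDerivAt timeStep
      ((deriv Real.smoothTransition (x 0)) • (ContinuousLinearMap.proj 0 : M4 →L[ℝ] ℝ)) x := by
    have h1 : HasDerivAt Real.smoothTransition (deriv Real.smoothTransition (x 0)) (x 0) :=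
      (Real.smoothTransition.contDiff.differentiable (n := ∞) (by simp) (x 0)).hasDerivAt
    exact h1.comp_hasFDerivAt x (ContinuousLinearMap.proj 0 : M4 →L[ℝ] ℝ).hasFDerivAt
  rw [h.fderiv]
  simp [ev, hμ.symm]

/-- **Every bounded set has a compact Cauchy slab.** -/
theorem exists_slab_of_isBounded {K : Set M4} (hK : Bornology.IsBounded K) :
    ∃ F : Fin 4 → RTest, IsSlabFor K F := by
  obtain ⟨r, hr⟩ := hK.subset_closedBall (0 : M4)
  have hr' : ∀ x ∈ K, ∀ i, |x i| ≤ |r| := fun x hx i => by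
    have h1 := hr hx
    rw [mem_closedBall_zero_iff] at h1
    exact ((norm_le_pi_norm x i).trans h1).trans (le_abs_self r)
  set R : ℝ := 2 * |r| + 2 with hRdef
  have hR : 0 < R := by positivity
  -- points of the causal set at times in `[0,1]` lie in the ball of radius `R`
  have keyF : ∀ x ∈ causalFuture K, x 0 ≤ 1 → x ∈ Metric.ball (0 : M4) R := by
    rintro x ⟨y, hy, hxy⟩ hx1
    rw [mem_ball_zero_iff, pi_norm_lt_iff hR]
    intro i
    have h2 := abs_le_of_mem_closedCone hxy i
    simp only [Pi.sub_apply] at h2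
    have h3 := hr' y hy i
    have h4 := abs_le.mp (hr' y hy 0)
    have h6 : |x i| ≤ |x i - y i| + |y i| := by
      have := abs_add_le (x i - y i) (y i); simpa using this
    rw [Real.norm_eq_abs]
    linarith [h4.1, h4.2]
  have keyP : ∀ x ∈ causalPast K, 0 ≤ x 0 → x ∈ Metric.ball (0 : M4) R := by
    rintro x ⟨y, hy, hxy⟩ hx0
    rw [mem_ball_zero_iff, pi_norm_lt_iff hR]
    intro i
    have h2 := abs_le_of_mem_closedCone hxy i
    simp only [Pi.sub_apply] at h2
    have h3 := hr' y hy i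
    have h4 := abs_le.mp (hr' y hy 0)
    have h6 : |x i| ≤ |y i - x i| + |y i| := by
      have := abs_sub_le (x i) (y i) 0
      simp only [sub_zero] at this
      rwa [abs_sub_comm] at this
    rw [Real.norm_eq_abs]
    linarith [h4.1, h4.2]
  refine ⟨flatSlab R hR, timeStep, timeStep_contDiff,
    ⟨Metric.ball 0 R ∪ {x | x 0 < 0} ∪ {x | 1 < x 0}, ?_, ?_, ?_⟩,
    ⟨Metric.closedBall 0 R, isCompact_closedBall _ _, ?_⟩,
    ⟨Metric.closedBall 0 R, isCompact_closedBall _ _, ?_⟩⟩
  · exact (Metric.isOpen_ball.union (isOpen_lt (continuous_apply 0) continuous_const)).union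
      (isOpen_lt continuous_const (continuous_apply 0))
  · rintro x (hx | hx)
    · by_cases h1 : 1 < x 0
      · exact Or.inr h1
      · exact Or.inl (Or.inl (keyF x hx (not_lt.mp h1)))
    · by_cases h0 : x 0 < 0
      · exact Or.inl (Or.inr h0)
      · exact Or.inl (Or.inl (keyP x hx (not_lt.mp h0)))
  · intro x hx μ
    rw [flatSlab_apply]
    rcases hx with (hx | hx) | hx
    · rw [(cut R hR).one_of_mem_closedBall (Metric.ball_subset_closedBall hx), one_mul]
    · rw [fderiv_timeStep_of_lt hx]; simp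
    · rw [fderiv_timeStep_of_gt hx]; simp
  · intro x hx hxC
    apply Real.smoothTransition.one_of_one_le
    by_contra h
    exact hxC (Metric.ball_subset_closedBall (keyF x hx (le_of_lt (not_le.mp h))))
  · intro x hx hxC
    apply Real.smoothTransition.zero_of_nonpos
    by_contra h
    exact hxC (Metric.ball_subset_closedBall (keyP x hx (le_of_lt (not_le.mp h))))

/-- Every compact set has a compact Cauchy slab. -/
theorem exists_slab {K : Set M4} (hK : IsCompact K) : ∃ F : Fin 4 → RTest, IsSlabFor K F :=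
  exists_slab_of_isBounded hK.isBounded

/-- In particular the support of every test function is enclosed by a slab. -/
theorem exists_slab_tsupport (f : Test) : ∃ F : Fin 4 → RTest, IsSlabFor (tsupport f) F :=
  exists_slab f.hasCompactSupport

theorem causalFuture_mono {K K' : Set M4} (h : K' ⊆ K) : causalFuture K' ⊆ causalFuture K :=
  fun _ ⟨y, hy, hxy⟩ => ⟨y, h hy, hxy⟩

theorem causalPast_mono {K K' : Set M4} (h : K' ⊆ K) : causalPast K' ⊆ causalPast K :=
  fun _ ⟨y, hy, hxy⟩ => ⟨y, h hy, hxy⟩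

/-- A slab around `K` is a slab around every subset of `K`. -/
theorem isSlabFor_mono {K K' : Set M4} {F : Fin 4 → RTest} (hF : IsSlabFor K F) (h : K' ⊆ K) :
    IsSlabFor K' F := by
  obtain ⟨ρ, hρ, ⟨N, hN, hKN, hFN⟩, ⟨C₁, hC₁, h₁⟩, ⟨C₂, hC₂, h₂⟩⟩ := hF
  exact ⟨ρ, hρ,
    ⟨N, hN, (Set.union_subset_union (causalFuture_mono h) (causalPast_mono h)).trans hKN, hFN⟩,
    ⟨C₁, hC₁, fun x hx => h₁ x (causalFuture_mono h hx)⟩,
    ⟨C₂, hC₂, fun x hx => h₂ x (causalPast_mono h hx)⟩⟩

/-- Only bounded sets are enclosed by compact Cauchy slabs. -/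
theorem isSlabFor_isBounded {K : Set M4} {F : Fin 4 → RTest} (hF : IsSlabFor K F) :
    Bornology.IsBounded K := by
  obtain ⟨ρ, -, -, ⟨C₁, hC₁, h₁⟩, ⟨C₂, hC₂, h₂⟩⟩ := hF
  refine (hC₁.union hC₂).isBounded.subset fun x hx => ?_
  by_contra hxC
  rw [Set.mem_union, not_or] at hxC
  have e1 := h₁ x (subset_causalFuture K hx) hxC.1
  have e0 := h₂ x (subset_causalPast K hx) hxC.2
  rw [e1] at e0
  exact one_ne_zero e0

/-- The time axis through the origin. -/
def axis (t : ℝ) : M4 := Pi.single 0 t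

theorem axis_mem_future {t : ℝ} (ht : 0 ≤ t) : axis t ∈ causalFuture {(0 : M4)} :=
  ⟨0, rfl, by
    refine ⟨by simpa [axis] using ht, ?_⟩
    rw [mink_eq]; simp [axis]; exact mul_self_nonneg t⟩

theorem axis_mem_past {t : ℝ} (ht : t ≤ 0) : axis t ∈ causalPast {(0 : M4)} :=
  ⟨0, rfl, by
    refine ⟨by simpa [axis] using ht, ?_⟩
    rw [mink_eq]; simp [axis]; exact mul_self_nonneg t⟩

theorem hasDerivAt_axis (t : ℝ) : HasDerivAt axis (ev 0) t := by
  rw [hasDerivAt_pi]
  intro i
  by_cases hi : i = 0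
  · subst hi; simp only [axis, ev, Pi.single_eq_same]; exact hasDerivAt_id' t
  · simpa [axis, ev, Pi.single_apply, hi] using hasDerivAt_const t (0 : ℝ)

theorem exists_axis_notMem {C : Set M4} (hC : IsCompact C) :
    ∃ T : ℝ, 0 ≤ T ∧ ∀ t, T < |t| → axis t ∉ C := by
  obtain ⟨r, hr⟩ := hC.isBounded.subset_closedBall (0 : M4)
  refine ⟨|r|, abs_nonneg r, fun t ht h => ?_⟩
  have h1 := hr h
  rw [mem_closedBall_zero_iff] at h1
  have h2 : |t| ≤ ‖axis t‖ := by
    have := norm_le_pi_norm (axis t) 0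
    simpa [axis] using this
  linarith [le_abs_self r]

/-- **Unit-flux normalisation.**  Along the time axis the time component `t ↦ F_0(t,0,0,0)` of a slab
around the origin is the derivative of a function that is `0` at early times and `1` at late times,
i.e. `∫ F_0(t,0,0,0) dt = 1`. -/
theorem isSlabFor_unit_step {F : Fin 4 → RTest} (hF : IsSlabFor {(0 : M4)} F) :
    ∃ (u : ℝ → ℝ) (T : ℝ), (∀ t, HasDerivAt u (F 0 (axis t)) t) ∧
      (∀ t, T < t → u t = 1) ∧ (∀ t, t < -T → u t = 0) := by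
  obtain ⟨ρ, hρ, ⟨N, -, hKN, hFN⟩, ⟨C₁, hC₁, h₁⟩, ⟨C₂, hC₂, h₂⟩⟩ := hF
  obtain ⟨T₁, hT₁, hT₁'⟩ := exists_axis_notMem hC₁
  obtain ⟨T₂, hT₂, hT₂'⟩ := exists_axis_notMem hC₂
  have hmem : ∀ t, axis t ∈ N := fun t => by
    rcases le_total 0 t with ht | ht
    · exact hKN (Or.inl (axis_mem_future ht))
    · exact hKN (Or.inr (axis_mem_past ht))
  refine ⟨fun t => ρ (axis t), max T₁ T₂, fun t => ?_, fun t ht => ?_, fun t ht => ?_⟩
  · have h2 : HasFDerivAt ρ (fderiv ℝ ρ (axis t)) (axis t) :=
      (hρ.differentiable (by simp) (axis t)).hasFDerivAt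
    have h4 := h2.comp_hasDerivAt t (hasDerivAt_axis t)
    rw [hFN (axis t) (hmem t) 0]
    exact h4
  · have ht0 : 0 ≤ t := hT₁.trans ((le_max_left _ _).trans ht.le)
    exact h₁ _ (axis_mem_future ht0)
      (hT₁' t (lt_of_lt_of_le ((le_max_left _ _).trans_lt ht) (le_abs_self t)))
  · have ht0 : t ≤ 0 := by linarith [le_max_right T₁ T₂]
    refine h₂ _ (axis_mem_past ht0) (hT₂' t ?_)
    rw [abs_of_nonpos ht0]; linarith [le_max_right T₁ T₂]

/-- Non-example: `0` is not a slab around a point. -/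
theorem not_isSlabFor_zero : ¬ IsSlabFor {(0 : M4)} 0 := by
  intro hF
  obtain ⟨u, T, hu, h1, h0⟩ := isSlabFor_unit_step hF
  have hconst : ∀ s t, u s = u t :=
    is_const_of_deriv_eq_zero (fun t => (hu t).differentiableAt) (fun t => (hu t).deriv)
  have e1 := h1 (|T| + 1) (by linarith [le_abs_self T])
  have e0 := h0 (-(|T| + 1)) (by linarith [le_abs_self T])
  rw [hconst _ (|T| + 1), e1] at e0
  exact one_ne_zero e0

/-- Non-example: a slab cannot be rescaled. -/
theorem not_isSlabFor_smul {F : Fin 4 → RTest} (hF : IsSlabFor {(0 : M4)} F) {c : ℝ} (hc : c ≠ 1) :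
    ¬ IsSlabFor {(0 : M4)} (fun μ => c • F μ) := by
  intro hF'
  obtain ⟨u, T, hu, h1, h0⟩ := isSlabFor_unit_step hF
  obtain ⟨v, T', hv, h1', h0'⟩ := isSlabFor_unit_step hF'
  have hd : ∀ t, HasDerivAt (fun t => v t - c * u t) 0 t := fun t => by
    have h := (hv t).sub ((hu t).const_mul c)
    have e : (c • F 0) (axis t) - c * F 0 (axis t) = 0 := by simp
    rw [e] at h
    exact h
  have hconst : ∀ s t, v s - c * u s = v t - c * u t :=
    is_const_of_deriv_eq_zero (fun t => (hd t).differentiableAt) (fun t => (hd t).deriv)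
  set S := |T| + |T'| + 1
  have hS := hconst S (-S)
  rw [h1 S (by simp only [S]; linarith [le_abs_self T, abs_nonneg T']),
    h1' S (by simp only [S]; linarith [le_abs_self T', abs_nonneg T]),
    h0 (-S) (by simp only [S]; linarith [le_abs_self T, abs_nonneg T']),
    h0' (-S) (by simp only [S]; linarith [le_abs_self T', abs_nonneg T])] at hS
  apply hc
  linarith

end SanitySlab
end Claimed.Open.R282
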