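import Claimed.Open.R282.SanityCharge
import Claimed.Open.R282.SanityKilling
import Claimed.Open.R282.SanitySlab

/-!
# Slab independence of the local charges, in EVERY theory

No model: everything is proved for an ARBITRARY `FieldSystem` over an arbitrary `Background`.

1. `exists_potential` (proof by helper215): two compact Cauchy slabs `F`, `F'` of the same region `K` differ, on an open neighbourhood
   of the causal set `J⁺(K) ∪ J⁻(K)`, by the gradient `dh` of ONE test function `h`.  Here all clauses of `IsSlabFor` are used: `F = dρ`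
   near the causal set, `ρ = 1` late in `J⁺(K)`, `ρ = 0` early in `J⁻(K)`.
2. `exact_part`: `∫ (∂^μ h) X^ν t_{μν} = - ∫ h σ_X t^μ{}_μ` for a symmetric conserved `t` and a conformal Killing field `X`: the smeared
   form of `∂^μ (X^ν t_{μν}) = σ_X t^μ{}_μ` (`killing_upper`: the equation of `IsConformalKilling` with the indices where `charge` has them).
3. `comm_charge_indep`: for a symmetric, conserved, traceless Bose tensor `t` and EVERY conformal Killing field `X` (the special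
   conformal ones included) the commutator of `charge t X F` with `localAlg K` does not depend on the slab `F` of `K`.
4. `comm_affine_indep`: the same for the affine charges `charge T X F - κ flux V F` of a symmetric conserved Bose tensor with
   `T^μ{}_μ = ∂^μ V_μ` (`CLAIM.md`, item 8(a): "by conservation and locality all of them give the same commutator").
5. In the words of the statement: `comm_affine_indep_T4` (the charges of `T⁽⁴⁾`, `V⁽³⁾` in the first clause of `Conclusion`),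
   **`indep_improved`**: the clause `ConformalWard.indep` of `Conclusion`, read on `localAlg`, holds in every theory as soon as `L` is a
   Bose field of an admitted extension with `∂^μ V⁽³⁾_μ = □ L`.

Not shown: the same on `jointAlg` (locality of insertions with joint kernels); `T`, `V` themselves (they are not assumed even).
-/

open scoped Distributions ContDiff InnerProductSpace ComplexConjugate Topology
open TopologicalSpace

noncomputable section

namespace Claimed.Open.R282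
namespace SanityIndep

open SanityAlgebra SanityCharge

/-! ### 0. Two slabs of the same region differ by an exact form near the causal set -/

/-- Two compact Cauchy slabs around `K` differ, near the causal set of `K`, by the gradient of a test function. -/
theorem exists_potential {K : Set M4} {F F' : Fin 4 → RTest} (hF : IsSlabFor K F) (hF' : IsSlabFor K F') :
    ∃ (h : Test) (N : Set M4), IsOpen N ∧ causalFuture K ∪ causalPast K ⊆ N ∧
      ∀ x ∈ N, ∀ μ, (toC (F μ) - toC (F' μ) - pd μ h) x = 0 := by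
  obtain ⟨ρ, hρ, ⟨N₁, hN₁, hKN₁, hd₁⟩, ⟨Cp, hCp, hp⟩, ⟨Cm, hCm, hm⟩⟩ := hF
  obtain ⟨ρ', hρ', ⟨N₂, hN₂, hKN₂, hd₂⟩, ⟨Cp', hCp', hp'⟩, ⟨Cm', hCm', hm'⟩⟩ := hF'
  set u : M4 → ℝ := fun x => ρ x - ρ' x with hu
  have hus : ContDiff ℝ ∞ u := hρ.sub hρ'
  have hud : Differentiable ℝ u := hus.differentiable (by simp)
  have hρd : Differentiable ℝ ρ := hρ.differentiable (by simp)
  have hρd' : Differentiable ℝ ρ' := hρ'.differentiable (by simp)
  -- the derivative of `u` on `N₁ ∩ N₂`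
  have hdu : ∀ y ∈ N₁ ∩ N₂, ∀ μ, fderiv ℝ u y (ev μ) = F μ y - F' μ y := by
    intro y hy μ
    have h1 : HasFDerivAt u (fderiv ℝ ρ y - fderiv ℝ ρ' y) y :=
      (hρd y).hasFDerivAt.sub (hρd' y).hasFDerivAt
    rw [h1.fderiv, sub_apply, hd₁ y hy.1 μ, hd₂ y hy.2 μ]
  -- a big ball
  let S : Set M4 := Cp ∪ Cm ∪ Cp' ∪ Cm' ∪ ⋃ μ, (tsupport (F μ) ∪ tsupport (F' μ))
  have hS : IsCompact S := (((hCp.union hCm).union hCp').union hCm').union
    (isCompact_iUnion fun μ => (F μ).hasCompactSupport.union (F' μ).hasCompactSupport)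
  obtain ⟨R, hR0, hR⟩ : ∃ R : ℝ, 0 < R ∧ S ⊆ Metric.closedBall 0 R := by
    obtain ⟨R, hR⟩ := hS.isBounded.subset_closedBall 0
    exact ⟨max R 1, by positivity, hR.trans (Metric.closedBall_subset_closedBall (le_max_left _ _))⟩
  let χ : ContDiffBump (0 : M4) := ⟨R + 1, R + 2, by linarith, by linarith⟩
  let h : Test := ⟨fun x => ((χ x * u x : ℝ) : ℂ),
    Complex.ofRealCLM.contDiff.comp (χ.contDiff.mul hus),
    (HasCompactSupport.mul_right χ.hasCompactSupport).comp_left (g := Complex.ofReal) Complex.ofReal_zero,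
    fun _ _ => trivial⟩
  have hh : ∀ x, h x = ((χ x * u x : ℝ) : ℂ) := fun _ => rfl
  have hval : ∀ y μ, (toC (F μ) - toC (F' μ) - pd μ h) y
      = (F μ y : ℂ) - (F' μ y : ℂ) - fderiv ℝ h y (ev μ) := by
    intro y μ
    simp only [sub_apply, SanityTest.toC_apply, SanityTest.pd_apply]
  have hL : ∀ L : M4 →L[ℝ] ℝ, (∀ μ, L (ev μ) = 0) → L = 0 := by
    intro L hL
    apply ContinuousLinearMap.coe_injective
    apply LinearMap.pi_ext
    intro i c
    have h1 : (Pi.single i c : M4) = c • ev i := by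
      ext j
      simp [ev, Pi.single_apply]
    simp [h1, hL i]
  refine ⟨h, {x | ∀ᶠ y in 𝓝 x, ∀ μ, (toC (F μ) - toC (F' μ) - pd μ h) y = 0},
    isOpen_setOfPred_eventually_nhds, ?_, fun x hx => hx.self_of_nhds⟩
  intro x hx
  have hxN : x ∈ N₁ ∩ N₂ := ⟨hKN₁ hx, hKN₂ hx⟩
  show ∀ᶠ y in 𝓝 x, ∀ μ, (toC (F μ) - toC (F' μ) - pd μ h) y = 0
  by_cases hxR : x ∈ Metric.ball (0 : M4) (R + 1)
  · -- CASE A
    have hopen : IsOpen (N₁ ∩ N₂ ∩ Metric.ball (0 : M4) (R + 1)) := (hN₁.inter hN₂).inter Metric.isOpen_ball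
    filter_upwards [hopen.mem_nhds ⟨hxN, hxR⟩] with y hy μ
    have h1 : (h : M4 → ℂ) =ᶠ[𝓝 y] fun z => Complex.ofRealCLM (u z) := by
      filter_upwards [Metric.isOpen_ball.mem_nhds hy.2] with z hz
      rw [hh, χ.one_of_mem_closedBall (Metric.ball_subset_closedBall hz), one_mul]
      rfl
    have h2 : HasFDerivAt (fun z => Complex.ofRealCLM (u z)) (Complex.ofRealCLM.comp (fderiv ℝ u y)) y :=
      Complex.ofRealCLM.hasFDerivAt.comp y (hud y).hasFDerivAt
    rw [hval, h1.fderiv_eq, h2.fderiv, ContinuousLinearMap.comp_apply, hdu y hy.1 μ, Complex.ofRealCLM_apply]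
    push_cast
    ring
  · -- CASE B
    have hxR' : x ∉ Metric.closedBall (0 : M4) R := by
      intro hc
      apply hxR
      rw [Metric.mem_closedBall] at hc
      rw [Metric.mem_ball]
      linarith
    have hxS : x ∉ S := fun hc => hxR' (hR hc)
    have hux : u x = 0 := by
      rcases hx with hx | hx
      · have e1 := hp x hx (fun hc => hxS (Or.inl (Or.inl (Or.inl (Or.inl hc)))))
        have e2 := hp' x hx (fun hc => hxS (Or.inl (Or.inl (Or.inr hc))))
        simp only [hu, e1, e2, sub_self]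
      · have e1 := hm x hx (fun hc => hxS (Or.inl (Or.inl (Or.inl (Or.inr hc)))))
        have e2 := hm' x hx (fun hc => hxS (Or.inl (Or.inr hc)))
        simp only [hu, e1, e2, sub_self]
    have hopen : IsOpen (N₁ ∩ N₂ ∩ (Metric.closedBall (0 : M4) R)ᶜ) :=
      (hN₁.inter hN₂).inter Metric.isClosed_closedBall.isOpen_compl
    obtain ⟨ε, hε, hball⟩ := Metric.isOpen_iff.1 hopen x ⟨hxN, hxR'⟩
    have hFz : ∀ z ∈ Metric.ball x ε, ∀ μ, F μ z = 0 ∧ F' μ z = 0 := by
      intro z hz μ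
      have hzS : z ∉ S := fun hc => (hball hz).2 (hR hc)
      constructor
      · exact image_eq_zero_of_notMem_tsupport
          (fun hc => hzS (Or.inr (Set.mem_iUnion.2 ⟨μ, Or.inl hc⟩)))
      · exact image_eq_zero_of_notMem_tsupport
          (fun hc => hzS (Or.inr (Set.mem_iUnion.2 ⟨μ, Or.inr hc⟩)))
    have hdz : Set.EqOn (fderiv ℝ u) 0 (Metric.ball x ε) := by
      intro z hz
      apply hL
      intro μ
      rw [hdu z (hball hz).1 μ, (hFz z hz μ).1, (hFz z hz μ).2, sub_self]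
    have huz : ∀ z ∈ Metric.ball x ε, u z = 0 := by
      intro z hz
      rw [← hux]
      exact Metric.isOpen_ball.is_const_of_fderiv_eq_zero (convex_ball x ε).isPreconnected
        hud.differentiableOn hdz hz (Metric.mem_ball_self hε)
    filter_upwards [Metric.isOpen_ball.mem_nhds (Metric.mem_ball_self hε)] with y hy μ
    have h1 : (h : M4 → ℂ) =ᶠ[𝓝 y] fun _ => (0 : ℂ) := by
      filter_upwards [Metric.isOpen_ball.mem_nhds hy] with z hz
      rw [hh, huz z hz, mul_zero, Complex.ofReal_zero]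
    rw [hval, h1.fderiv_eq, (hFz y hy μ).1, (hFz y hy μ).2]
    simp

/-! ### 1. Test functions -/

theorem mulT_add' {p : M4 → ℝ} (hp : ContDiff ℝ ∞ p) (f g : Test) : mulT p (f + g) = mulT p f + mulT p g := by
  ext x
  simp only [_root_.add_apply, SanityTest.mulT_apply hp]
  ring

/-- The Leibniz rule for the components of a smooth vector field, as an identity of test functions. -/
theorem pd_mulT_comp {X : M4 → M4} (hX : ContDiff ℝ ∞ X) (μ ν : Fin 4) (f : Test) :
    pd μ (mulT (fun x => X x ν) f) =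
      mulT (fun x => fderiv ℝ X x (ev μ) ν) f + mulT (fun x => X x ν) (pd μ f) := by
  have hp := SanityTest.contDiff_component hX ν
  have hp' := SanityTest.contDiff_fderiv_component hX μ ν
  ext x
  rw [SanityTest.pd_mulT hp, SanityTest.fderiv_component hX]
  simp only [_root_.add_apply, SanityTest.mulT_apply hp, SanityTest.mulT_apply hp', SanityTest.pd_apply]

theorem eta_sq (μ : Fin 4) : eta μ * eta μ = 1 := by
  unfold eta
  by_cases h : μ = 0 <;> simp [h]

/-- The conformal Killing equation with the indices where `charge` needs them. -/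
theorem killing_upper {X : M4 → M4} (hX : IsConformalKilling X) (x : M4) (μ ν : Fin 4) :
    eta μ * fderiv ℝ X x (ev μ) ν + eta ν * fderiv ℝ X x (ev ν) μ =
      if μ = ν then 2 * eta μ * sigmaOf X x else 0 := by
  obtain ⟨-, σ, hσ⟩ := hX
  have h := hσ x μ ν
  rw [SanityKilling.sigma_eq_sigmaOf hσ x] at h
  have h1 : eta μ * fderiv ℝ X x (ev μ) ν + eta ν * fderiv ℝ X x (ev ν) μ =
      (eta μ * eta ν) * (eta ν * fderiv ℝ X x (ev μ) ν + eta μ * fderiv ℝ X x (ev ν) μ) := by
    have a := eta_sq μ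
    have b := eta_sq ν
    linear_combination (-(eta μ * fderiv ℝ X x (ev μ) ν)) * b - (eta ν * fderiv ℝ X x (ev ν) μ) * a
  rw [h1, h]
  unfold etaM
  by_cases hμν : μ = ν
  · subst hμν
    rw [if_pos rfl, if_pos rfl]
    have a := eta_sq μ
    linear_combination (2 * sigmaOf X x * eta μ) * a
  · rw [if_neg hμν, if_neg hμν]; ring

variable {H : Type} [NormedAddCommGroup H] [InnerProductSpace ℂ H] [CompleteSpace H]
variable {B : Background H} (𝔊 : FieldSystem B)

/-! ### 2. The charge through an exact form -/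

/-- `∫ (∂^μ h) X^ν t_{μν} = - ∫ h σ_X t^μ{}_μ` for a symmetric conserved `t` and a conformal Killing field `X`:
the smeared form of `∂^μ (X^ν t_{μν}) = σ_X t^μ{}_μ`. -/
theorem exact_part {t : Fin 4 → Fin 4 → 𝔊.F} (hs : ∀ μ ν, t μ ν = t ν μ)
    (hc : ∀ ν, 𝔊.div (fun μ => t μ ν) = 0) {X : M4 → M4} (hX : IsConformalKilling X) (h : Test) :
    ∑ μ, ∑ ν, (eta μ : ℂ) • 𝔊.op (t μ ν) (mulT (fun x => X x ν) (pd μ h)) =
      - 𝔊.op (𝔊.trace t) (mulT (sigmaOf X) h) := by
  have hXs := hX.1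
  have hσ := SanityTest.contDiff_sigmaOf hXs
  -- the divergence term
  have h1 : ∑ μ, ∑ ν, (eta μ : ℂ) • 𝔊.op (t μ ν) (pd μ (mulT (fun x => X x ν) h)) = 0 := by
    rw [Finset.sum_comm]
    refine Finset.sum_eq_zero fun ν _ => ?_
    have h2 : 𝔊.op (𝔊.div fun μ => t μ ν) (mulT (fun x => X x ν) h) =
        - ∑ μ, (eta μ : ℂ) • 𝔊.op (t μ ν) (pd μ (mulT (fun x => X x ν) h)) := by
      unfold FieldSystem.div
      simp only [map_sum, map_smul, LinearMap.sum_apply, LinearMap.smul_apply, 𝔊.op_der, smul_neg,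
        Finset.sum_neg_distrib]
    rw [hc ν, map_zero, LinearMap.zero_apply] at h2
    exact neg_eq_zero.1 h2.symm
  -- the Killing term
  have h3 : ∑ μ, ∑ ν, (eta μ : ℂ) • 𝔊.op (t μ ν) (mulT (fun x => fderiv ℝ X x (ev μ) ν) h) =
      𝔊.op (𝔊.trace t) (mulT (sigmaOf X) h) := by
    have hsw : ∑ μ, ∑ ν, (eta μ : ℂ) • 𝔊.op (t μ ν) (mulT (fun x => fderiv ℝ X x (ev μ) ν) h) =
        ∑ μ, ∑ ν, (eta ν : ℂ) • 𝔊.op (t μ ν) (mulT (fun x => fderiv ℝ X x (ev ν) μ) h) := by
      rw [Finset.sum_comm]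
      exact Finset.sum_congr rfl fun μ _ => Finset.sum_congr rfl fun ν _ => by rw [hs ν μ]
    have hpt : ∀ μ ν, (eta μ : ℂ) • mulT (fun x => fderiv ℝ X x (ev μ) ν) h +
        (eta ν : ℂ) • mulT (fun x => fderiv ℝ X x (ev ν) μ) h =
        if μ = ν then (2 * eta μ : ℂ) • mulT (sigmaOf X) h else 0 := by
      intro μ ν
      ext x
      have hk := killing_upper hX x μ ν
      have hk' : (eta μ : ℂ) * (fderiv ℝ X x (ev μ) ν : ℂ) + (eta ν : ℂ) * (fderiv ℝ X x (ev ν) μ : ℂ) =
          ((if μ = ν then 2 * eta μ * sigmaOf X x else 0 : ℝ) : ℂ) := by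
        rw [← hk]; push_cast; ring
      simp only [_root_.add_apply, _root_.smul_apply, smul_eq_mul,
        SanityTest.mulT_apply (SanityTest.contDiff_fderiv_component hXs μ ν),
        SanityTest.mulT_apply (SanityTest.contDiff_fderiv_component hXs ν μ)]
      by_cases hμν : μ = ν
      · rw [if_pos hμν] at hk' ⊢
        rw [_root_.smul_apply, SanityTest.mulT_apply hσ, smul_eq_mul]
        push_cast at hk'
        linear_combination (h x) * hk'
      · rw [if_neg hμν] at hk' ⊢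
        push_cast at hk'
        have : (0 : Test) x = 0 := rfl
        rw [this]
        linear_combination (h x) * hk'
    have h2S : (2 : ℂ) • ∑ μ, ∑ ν, (eta μ : ℂ) • 𝔊.op (t μ ν) (mulT (fun x => fderiv ℝ X x (ev μ) ν) h) =
        (2 : ℂ) • 𝔊.op (𝔊.trace t) (mulT (sigmaOf X) h) := by
      rw [two_smul]
      nth_rewrite 2 [hsw]
      rw [← Finset.sum_add_distrib]
      have h4 : ∀ μ, ∑ ν, (eta μ : ℂ) • 𝔊.op (t μ ν) (mulT (fun x => fderiv ℝ X x (ev μ) ν) h) +
          ∑ ν, (eta ν : ℂ) • 𝔊.op (t μ ν) (mulT (fun x => fderiv ℝ X x (ev ν) μ) h) =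
          (2 * eta μ : ℂ) • 𝔊.op (t μ μ) (mulT (sigmaOf X) h) := by
        intro μ
        rw [← Finset.sum_add_distrib]
        have h5 : ∀ ν, (eta μ : ℂ) • 𝔊.op (t μ ν) (mulT (fun x => fderiv ℝ X x (ev μ) ν) h) +
            (eta ν : ℂ) • 𝔊.op (t μ ν) (mulT (fun x => fderiv ℝ X x (ev ν) μ) h) =
            𝔊.op (t μ ν) (if μ = ν then (2 * eta μ : ℂ) • mulT (sigmaOf X) h else 0) := by
          intro ν
          rw [← hpt μ ν, map_add, map_smul, map_smul]
        rw [Finset.sum_congr rfl fun ν _ => h5 ν, Finset.sum_eq_single μ]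
        · rw [if_pos rfl, map_smul]
        · intro ν _ hν
          rw [if_neg (Ne.symm hν), map_zero]
        · intro hh; exact absurd (Finset.mem_univ μ) hh
      rw [Finset.sum_congr rfl fun μ _ => h4 μ]
      unfold FieldSystem.trace
      simp only [map_sum, map_smul, LinearMap.sum_apply, LinearMap.smul_apply, Finset.smul_sum, smul_smul]
    exact smul_right_injective _ (two_ne_zero) h2S
  have h6 : ∀ μ ν, (eta μ : ℂ) • 𝔊.op (t μ ν) (mulT (fun x => X x ν) (pd μ h)) =
      (eta μ : ℂ) • 𝔊.op (t μ ν) (pd μ (mulT (fun x => X x ν) h)) -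
        (eta μ : ℂ) • 𝔊.op (t μ ν) (mulT (fun x => fderiv ℝ X x (ev μ) ν) h) := by
    intro μ ν
    rw [pd_mulT_comp hXs, map_add, smul_add]
    abel
  simp only [h6, Finset.sum_sub_distrib, h1, h3, zero_sub]

/-! ### 3. Slab independence -/

theorem comm_sum_sum (a : Fin 4 → ℂ) (Q : Fin 4 → Fin 4 → Module.End ℂ 𝔊.domain) (P : Module.End ℂ 𝔊.domain)
    (h : ∀ μ ν, 𝔊.comm (Q μ ν) P = 0) : 𝔊.comm (∑ μ, ∑ ν, a μ • Q μ ν) P = 0 := by
  unfold FieldSystem.comm at h ⊢
  simp only [Finset.sum_mul, Finset.mul_sum, smul_mul_assoc, mul_smul_comm, ← Finset.sum_sub_distrib]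
  exact Finset.sum_eq_zero fun μ _ => Finset.sum_eq_zero fun ν _ => by rw [sub_eq_zero.1 (h μ ν), sub_self]

theorem comm_sum (a : Fin 4 → ℂ) (Q : Fin 4 → Module.End ℂ 𝔊.domain) (P : Module.End ℂ 𝔊.domain)
    (h : ∀ μ, 𝔊.comm (Q μ) P = 0) : 𝔊.comm (∑ μ, a μ • Q μ) P = 0 := by
  unfold FieldSystem.comm at h ⊢
  simp only [Finset.sum_mul, Finset.mul_sum, smul_mul_assoc, mul_smul_comm, ← Finset.sum_sub_distrib]
  exact Finset.sum_eq_zero fun μ _ => by rw [sub_eq_zero.1 (h μ), sub_self]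

theorem charge_split (t : Fin 4 → Fin 4 → 𝔊.F) {X : M4 → M4} (hX : ContDiff ℝ ∞ X) (F F' : Fin 4 → RTest)
    (h : Test) : 𝔊.charge t X F = 𝔊.charge t X F' +
      ∑ μ, ∑ ν, (eta μ : ℂ) • 𝔊.op (t μ ν) (mulT (fun x => X x ν) (pd μ h)) +
      ∑ μ, ∑ ν, (eta μ : ℂ) • 𝔊.op (t μ ν) (mulT (fun x => X x ν) (toC (F μ) - toC (F' μ) - pd μ h)) := by
  unfold FieldSystem.charge
  rw [← Finset.sum_add_distrib, ← Finset.sum_add_distrib]
  refine Finset.sum_congr rfl fun μ _ => ?_
  rw [← Finset.sum_add_distrib, ← Finset.sum_add_distrib]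
  refine Finset.sum_congr rfl fun ν _ => ?_
  have hp := SanityTest.contDiff_component hX ν
  rw [← smul_add, ← smul_add, ← map_add, ← map_add, ← mulT_add' hp, ← mulT_add' hp]
  congr 3
  abel

theorem flux_split (V : Fin 4 → 𝔊.F) (F F' : Fin 4 → RTest) (h : Test) :
    𝔊.flux V F = 𝔊.flux V F' + ∑ μ, (eta μ : ℂ) • 𝔊.op (V μ) (pd μ h) +
      ∑ μ, (eta μ : ℂ) • 𝔊.op (V μ) (toC (F μ) - toC (F' μ) - pd μ h) := by
  unfold FieldSystem.flux
  rw [← Finset.sum_add_distrib, ← Finset.sum_add_distrib]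
  refine Finset.sum_congr rfl fun μ _ => ?_
  rw [← smul_add, ← smul_add, ← map_add, ← map_add]
  congr 2
  abel

/-- **Slab independence of the conformal charges** (the clause `ConformalWard.indep`, on the algebra generated by the smeared
fields): for a symmetric, conserved, traceless Bose tensor `t` and every conformal Killing field `X`, the commutator of the local
charge with the fields in `K` does not depend on the slab enclosing `K`. -/
theorem comm_charge_indep {t : Fin 4 → Fin 4 → 𝔊.F} (hp : ∀ μ ν, 𝔊.par (t μ ν) = t μ ν)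
    (hs : ∀ μ ν, t μ ν = t ν μ) (hc : ∀ ν, 𝔊.div (fun μ => t μ ν) = 0) (htr : 𝔊.trace t = 0) {X : M4 → M4}
    (hX : IsConformalKilling X) {K : Set M4} {F F' : Fin 4 → RTest} (hF : IsSlabFor K F) (hF' : IsSlabFor K F') :
    ∀ P ∈ 𝔊.localAlg K, 𝔊.comm (𝔊.charge t X F) P = 𝔊.comm (𝔊.charge t X F') P := by
  intro P hP
  obtain ⟨h, N, hN, hKN, hg⟩ := exists_potential hF hF'
  have h1 := comm_sum_sum 𝔊 (fun μ => (eta μ : ℂ))
    (fun μ ν => 𝔊.op (t μ ν) (mulT (fun x => X x ν) (toC (F μ) - toC (F' μ) - pd μ h))) P fun μ ν =>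
      comm_op_of_van 𝔊 (hp μ ν) hN hKN
        (van_mulT (fun x hx => hg x hx μ) (SanityTest.contDiff_component hX.1 ν)) P hP
  have h2 := comm_add_smul 𝔊 (𝔊.charge t X F')
    (∑ μ, ∑ ν, (eta μ : ℂ) • 𝔊.op (t μ ν) (mulT (fun x => X x ν) (toC (F μ) - toC (F' μ) - pd μ h))) P 1
  rw [one_smul, one_smul, h1, add_zero] at h2
  rw [charge_split 𝔊 t hX.1 F F' h, exact_part 𝔊 hs hc hX h, htr, map_zero, LinearMap.zero_apply, neg_zero,
    add_zero, h2]

/-- **Slab independence of the affine charges with a virial field** (`CLAIM.md`, item 8(a): "by conservation and locality all of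
them give the same commutator"): `T` symmetric, conserved, `T^μ{}_μ = ∂^μ V_μ`, `T` and `V` Bose fields. -/
theorem comm_affine_indep {T : Fin 4 → Fin 4 → 𝔊.F} {V : Fin 4 → 𝔊.F} (hp : ∀ μ ν, 𝔊.par (T μ ν) = T μ ν)
    (hpV : ∀ μ, 𝔊.par (V μ) = V μ) (hs : ∀ μ ν, T μ ν = T ν μ) (hc : ∀ ν, 𝔊.div (fun μ => T μ ν) = 0)
    (htr : 𝔊.trace T = 𝔊.div V) (c : M4) {M : Matrix (Fin 4) (Fin 4) ℝ}
    (hM : ∀ μ ν, eta ν * M ν μ + eta μ * M μ ν = 0) (κ : ℝ) {K : Set M4} {F F' : Fin 4 → RTest}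
    (hF : IsSlabFor K F) (hF' : IsSlabFor K F') : ∀ P ∈ 𝔊.localAlg K,
    𝔊.comm (𝔊.charge T (affineField c M κ) F - (κ : ℂ) • 𝔊.flux V F) P =
      𝔊.comm (𝔊.charge T (affineField c M κ) F' - (κ : ℂ) • 𝔊.flux V F') P := by
  intro P hP
  have hX := SanityKilling.isConformalKilling_affineField c hM κ
  obtain ⟨h, N, hN, hKN, hg⟩ := exists_potential hF hF'
  have h1 := comm_sum_sum 𝔊 (fun μ => (eta μ : ℂ))
    (fun μ ν => 𝔊.op (T μ ν) (mulT (fun x => affineField c M κ x ν) (toC (F μ) - toC (F' μ) - pd μ h))) P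
    fun μ ν => comm_op_of_van 𝔊 (hp μ ν) hN hKN
        (van_mulT (fun x hx => hg x hx μ) (SanityTest.contDiff_component hX.1 ν)) P hP
  have h1V := comm_sum 𝔊 (fun μ => (eta μ : ℂ))
    (fun μ => 𝔊.op (V μ) (toC (F μ) - toC (F' μ) - pd μ h)) P fun μ =>
      comm_op_of_van 𝔊 (hpV μ) hN hKN (fun x hx => hg x hx μ) P hP
  have hσ : mulT (sigmaOf (affineField c M κ)) h = (κ : ℂ) • h := by
    ext x
    rw [SanityTest.mulT_apply (SanityTest.contDiff_sigmaOf hX.1), SanityKilling.sigmaOf_affineField c hM κ x,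
      _root_.smul_apply, smul_eq_mul]
  have hdiv : 𝔊.op (𝔊.div V) h = - ∑ μ, (eta μ : ℂ) • 𝔊.op (V μ) (pd μ h) := by
    unfold FieldSystem.div
    simp only [map_sum, map_smul, LinearMap.sum_apply, LinearMap.smul_apply, 𝔊.op_der, smul_neg,
      Finset.sum_neg_distrib]
  have h3 : 𝔊.charge T (affineField c M κ) F - (κ : ℂ) • 𝔊.flux V F =
      (𝔊.charge T (affineField c M κ) F' - (κ : ℂ) • 𝔊.flux V F') +
      (1 : ℂ) • (∑ μ, ∑ ν, (eta μ : ℂ) • 𝔊.op (T μ ν)
        (mulT (fun x => affineField c M κ x ν) (toC (F μ) - toC (F' μ) - pd μ h)) +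
        (-(κ : ℂ)) • ∑ μ, (eta μ : ℂ) • 𝔊.op (V μ) (toC (F μ) - toC (F' μ) - pd μ h)) := by
    rw [charge_split 𝔊 T hX.1 F F' h, exact_part 𝔊 hs hc hX h, htr, hσ, map_smul, hdiv, flux_split 𝔊 V F F' h]
    module
  rw [h3, comm_add_smul, comm_add_smul, h1, h1V, smul_zero, add_zero, smul_zero, add_zero]

/-! ### 4. In the words of the statement -/

section clauses

variable {𝔉 : FieldSystem B} (S : StressData 𝔉) {𝔏 : FieldSystem B} (e : Extension 𝔉 𝔏)

/-- The affine charges of `T⁽⁴⁾`, `V⁽³⁾` (first clause of `Conclusion`) do not depend on the slab. -/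
theorem comm_affine_indep_T4 (c : M4) {M : Matrix (Fin 4) (Fin 4) ℝ}
    (hM : ∀ μ ν, eta ν * M ν μ + eta μ * M μ ν = 0) (κ : ℝ) {K : Set M4} {F F' : Fin 4 → RTest}
    (hF : IsSlabFor K F) (hF' : IsSlabFor K F') : ∀ P ∈ 𝔉.localAlg K,
    𝔉.comm (𝔉.charge S.T4 (affineField c M κ) F - (κ : ℂ) • 𝔉.flux S.V3 F) P =
      𝔉.comm (𝔉.charge S.T4 (affineField c M κ) F' - (κ : ℂ) • 𝔉.flux S.V3 F') P :=
  comm_affine_indep 𝔉 (par_T4 S) (par_V3 S) (T4_symm S) (T4_cons S) (trace_T4 S) c hM κ hF hF'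

/-- **The clause `ConformalWard.indep` of `Conclusion`, on `localAlg`, holds in every theory** as soon as `L` is a Bose field of an
admitted extension with `∂^μ V⁽³⁾_μ = □ L`. -/
theorem indep_improved {L : 𝔏.F} (hL : e.ι (𝔉.div S.V3) = 𝔏.box L) (hp : 𝔏.par L = L) :
    ∀ X, IsConformalKilling X → ∀ K F F', IsSlabFor K F → IsSlabFor K F' → ∀ P ∈ 𝔏.localAlg K,
      𝔏.comm (𝔏.charge (improved 𝔏 (fun μ ν => e.ι (S.T4 μ ν)) L) X F) P =
        𝔏.comm (𝔏.charge (improved 𝔏 (fun μ ν => e.ι (S.T4 μ ν)) L) X F') P := by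
  intro X hX K F F' hF hF'
  obtain ⟨h1, h2, h3⟩ := improved_clauses S e L hL
  refine comm_charge_indep 𝔏 (fun μ ν => ?_) h1 h2 h3 hX hF hF'
  rw [improved_eq]
  exact SanityLorentz.par_improvedWith 𝔏 _ (fun μ ν => by rw [← e.ι_par, par_T4]) hp μ ν

end clauses

end SanityIndep
end Claimed.Open.R282
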