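import Claimed.Open.R282.SanityJoint

/-!
# Result 282: translation invariant distributions are constant

* `jt_conv_invariant`, `invariant_eq_integral`: on a finite-dimensional real normed space with a Haar
  measure, a distribution `W` with `W (g(· - y)) = W g` for all `g`, `y` is a multiple of the integral.
  Proof with the jet engine of `SanityJoint.lean`: the jet of `h ⋆ ρ - (∫ h) ρ` is the Bochner integral of
  `h(y)` times the jets of `ρ(· - y) - ρ`, which `W` kills; hence `W (h ⋆ ρ) = (∫ h) W ρ`, and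
  `h ⋆ ρ = ρ ⋆ h`.
-/

open scoped Distributions ContDiff InnerProductSpace ComplexConjugate Topology SchwartzMap
open scoped BoundedContinuousFunction Convolution Pointwise
open TopologicalSpace MeasureTheory

noncomputable section

namespace Claimed.Open.R282
namespace SanityInvariant

open Sanity SanityTest SanityJoint

section general

variable {X : Type*} [NormedAddCommGroup X] [NormedSpace ℝ X] [FiniteDimensional ℝ X]
  [MeasurableSpace X] [BorelSpace X] (μ : Measure X) [μ.IsAddHaarMeasure]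

/-- For a translation invariant distribution, `W (h ⋆ ρ) = (∫ h) W ρ`. -/
theorem jt_conv_invariant (W : 𝓓((⊤ : Opens X), ℂ) →L[ℂ] ℂ)
    (hW : ∀ (g : 𝓓((⊤ : Opens X), ℂ)) (y : X), W (jtTr g y) = W g)
    (h ρ : 𝓓((⊤ : Opens X), ℂ)) : W (jtConv μ h ρ) = (∫ y, h y ∂μ) * W ρ := by
  set K : Compacts X := ⟨tsupport ρ ∪ (tsupport h + tsupport ρ),
    ρ.hasCompactSupport.isCompact.union (h.hasCompactSupport.isCompact.add
      ρ.hasCompactSupport.isCompact)⟩ with hK
  have hKmem : ∀ y x : X, h y ≠ 0 → ρ (x - y) ≠ 0 → x ∈ K := fun y x hy hxy =>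
    Or.inr ⟨y, subset_tsupport _ hy, x - y, subset_tsupport _ hxy, add_sub_cancel y x⟩
  set WK : 𝓓_{K}(X, ℂ) →L[ℂ] ℂ :=
    W.comp (TestFunction.ofSupportedInCLM ℂ (Ω := (⊤ : Opens X)) (K := K) (fun _ _ => trivial)) with hWK
  have hWKa : ∀ (g : 𝓓((⊤ : Opens X), ℂ)) (hg : Function.support g ⊆ K), WK (jtK K g hg) = W g := by
    intro g hg
    change W (TestFunction.ofSupportedIn (Ω := (⊤ : Opens X)) (K := K) (fun _ _ => trivial)
      (jtK K g hg)) = W g
    rw [jt_ofSupportedIn_jtK]
  obtain ⟨s, C, hC, hb⟩ := jt_bound K WK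
  have hρK : Function.support ρ ⊆ K := fun x hx => Or.inl (subset_tsupport _ hx)
  have hcK : Function.support (jtConv μ h ρ) ⊆ K := by
    intro x hx
    by_contra hxK
    apply hx
    rw [jtConv_apply]
    refine integral_eq_zero_of_ae (Filter.Eventually.of_forall fun y => ?_)
    by_contra hy
    have hy' : h y • ρ (x - y) ≠ 0 := hy
    rw [smul_ne_zero_iff] at hy'
    exact hxK (hKmem y x hy'.1 hy'.2)
  have h1 : WK (jtK K (jtConv μ h ρ) hcK - (∫ y, h y ∂μ) • jtK K ρ hρK) = 0 := by
    refine jt_zero_of_mem_closure K WK s C hb _ ?_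
    have hi1 := jtT_integrable μ s h.continuous h.hasCompactSupport ρ
    have hi0 : Integrable (fun y => h y • jtT s ρ 0) μ :=
      (h.continuous.smul continuous_const).integrable_of_hasCompactSupport
        h.hasCompactSupport.smul_right
    have e : jtJ K s (jtK K (jtConv μ h ρ) hcK - (∫ y, h y ∂μ) • jtK K ρ hρK)
        = ∫ y, (h y • jtT s ρ y - h y • jtT s ρ 0) ∂μ := by
      rw [map_sub, map_smul, jtJ_jtK, jtJ_jtK,
        jt_jet_conv μ s h.continuous h.hasCompactSupport ρ (jtConv μ h ρ) (fun _ => rfl),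
        integral_sub hi1 hi0, integral_smul_const]
    rw [e]
    refine jt_integral_mem_closure μ _ (hi1.sub hi0) fun y => ?_
    by_cases hy : h y = 0
    · rw [hy, zero_smul, zero_smul, sub_zero]; exact zero_mem _
    · have hsup : Function.support (jtTr ρ y) ⊆ K := fun x hx => hKmem y x hy hx
      have hmem : jtT s ρ y - jtT s ρ 0 ∈ (LinearMap.ker WK.toLinearMap).map (jtJ K s) :=
        ⟨jtK K (jtTr ρ y) hsup - jtK K ρ hρK, by
          change WK _ = 0
          rw [map_sub, hWKa, hWKa, hW, sub_self], by rw [map_sub, jtJ_jtK, jtJ_jtK, jtT_jtTr]⟩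
      rw [← smul_sub]
      exact Submodule.smul_mem _ (h y) hmem
  rw [map_sub, map_smul, hWKa, hWKa, sub_eq_zero] at h1
  exact h1

/-- **A translation invariant distribution is a multiple of the integral.** -/
theorem invariant_eq_integral (W : 𝓓((⊤ : Opens X), ℂ) →L[ℂ] ℂ)
    (hW : ∀ (g : 𝓓((⊤ : Opens X), ℂ)) (y : X), W (jtTr g y) = W g)
    (ρ : 𝓓((⊤ : Opens X), ℂ)) (hρ : ∫ y, ρ y ∂μ = 1) (h : 𝓓((⊤ : Opens X), ℂ)) :
    W h = (∫ y, h y ∂μ) * W ρ := by
  have e : jtConv μ h ρ = jtConv μ ρ h := by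
    ext x
    rw [jtConv_comm, jtConv_apply]
  have h1 := jt_conv_invariant μ W hW h ρ
  have h2 := jt_conv_invariant μ W hW ρ h
  rw [e, h2, hρ, one_mul] at h1
  exact h1

end general

end SanityInvariant
end Claimed.Open.R282
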