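import Claimed.Open.R282.SanityIndep

/-!
# R282, sanity: locality on the polynomial algebra with JOINT kernels; the clause `indep` of `Conclusion` verbatim

No model is chosen.  `SanityCharge.lean` and `SanityIndep.lean` prove their results on `localAlg K` (products of smeared fields) and say
that `jointAlg K`, the algebra in which `ConformalWard` of `Statement.lean` is written, is not covered.  This file covers it.

* `tensor_total_local`: a distribution in the joint variables that vanishes on the factorised kernels concentrated near the points where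
  `h ≠ 0` vanishes at `h` (the local form of `SanityJoint.tensor_total`, same proof).
* `comm_op_insertion`, `comm_op_of_van_joint`: a Bose field smeared outside a neighbourhood of `J⁺(K) ∪ J⁻(K)` commutes with every element
  of `jointAlg K`.  Used: `op_local`, `op_adj`, `domain_dense` and the definition of `IsInsertion`.
* `comm_charge_indep_joint`, `comm_charge_improved_joint`, `affineWard_improved_iff_joint`: the results of the two files on `jointAlg`.
* `indep_improved_joint`: **the field `indep` of `ConformalWard`, for the tensor of `Conclusion`, word for word** (on `jointAlg`): it holds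
  in every theory for every Bose `L` of an admitted extension with `∂^μ V⁽³⁾_μ = □ L`.  So this field of `ConformalWard` adds nothing to
  the clauses `par L = L` and `∂^μ V⁽³⁾_μ = □ L` of `Conclusion`; it is consistent with them, and not an extra demand.
  `conformalWard_of_rest` lets the kernel check the words "word for word": it fills the first field of the structure with this theorem.
* `affine_clause_iff`: the field `affine` of `ConformalWard` for that tensor says exactly that on the enlarged family, on `jointAlg`,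
  `T⁽⁴⁾` satisfies the affine Ward identities with the virial field `∂_μ L`.

NOT shown: the fields `preserve`, `affine`, `vacuum`, `lie` of `ConformalWard`, and the first clause of `Conclusion` on `jointAlg`.
-/

open scoped Distributions ContDiff InnerProductSpace ComplexConjugate Topology SchwartzMap
open scoped BoundedContinuousFunction Convolution
open TopologicalSpace MeasureTheory

noncomputable section

namespace Claimed.Open.R282
namespace SanityJointLocal

open Sanity SanityTest SanityJoint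

/-! ### 1. Product tests near the support of a joint kernel decide a distribution on it -/

section general

variable {X : Type*} [NormedAddCommGroup X] [NormedSpace ℝ X] [FiniteDimensional ℝ X]
  [MeasurableSpace X] [BorelSpace X] (μ : Measure X) [μ.IsAddHaarMeasure]

/-- The local form of `SanityJoint.jt_total_aux` (same proof, which uses the translates by the points of the support of `h` only): if a
distribution kills the translates, BY THE POINTS WHERE `h ≠ 0`, of arbitrarily concentrated approximate units, then it kills `h`. -/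
theorem jt_total_local (W : 𝓓((⊤ : Opens X), ℂ) →L[ℂ] ℂ) (h : 𝓓((⊤ : Opens X), ℂ))
    (hρ : ∀ r > 0, ∃ ρ : 𝓓((⊤ : Opens X), ℂ), (∀ x, ρ x ≠ 0 → ‖x‖ < r) ∧
      (∀ x, ρ x = (‖ρ x‖ : ℂ)) ∧ ∫ x, ρ x ∂μ = 1 ∧ ∀ y, h y ≠ 0 → W (jtTr ρ y) = 0) : W h = 0 := by
  set K : Compacts X := ⟨Metric.cthickening 1 (tsupport h), h.hasCompactSupport.isCompact.cthickening⟩
    with hK
  have hKmem : ∀ y x : X, h y ≠ 0 → ‖x - y‖ < 1 → x ∈ K := fun y x hy hxy =>
    Metric.mem_cthickening_of_dist_le x y 1 _ (subset_tsupport _ hy) (by rw [dist_eq_norm]; exact hxy.le)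
  set WK : 𝓓_{K}(X, ℂ) →L[ℂ] ℂ :=
    W.comp (TestFunction.ofSupportedInCLM ℂ (Ω := (⊤ : Opens X)) (K := K) (fun _ _ => trivial)) with hWK
  have hWKa : ∀ (g : 𝓓((⊤ : Opens X), ℂ)) (hg : Function.support g ⊆ K), WK (jtK K g hg) = W g := by
    intro g hg
    change W (TestFunction.ofSupportedIn (Ω := (⊤ : Opens X)) (K := K) (fun _ _ => trivial)
      (jtK K g hg)) = W g
    rw [jt_ofSupportedIn_jtK]
  obtain ⟨s, C, hC, hb⟩ := jt_bound K WK
  have hhK : Function.support h ⊆ K := fun x hx => hKmem x x hx (by simp)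
  rw [← norm_le_zero_iff]
  refine le_of_forall_pos_le_add fun ε hε => ?_
  rw [zero_add]
  -- the radius
  obtain ⟨r, hr, hcont⟩ := Metric.continuous_iff.mp (jtT_continuous s h) 0 (ε / (C + 1)) (by positivity)
  obtain ⟨ρ, hρs, hρn, hρi, hρW⟩ := hρ (min r 1) (lt_min hr one_pos)
  have hcK : Function.support (jtConv μ h ρ) ⊆ K := by
    intro x hx
    by_contra hxK
    apply hx
    rw [jtConv_apply]
    refine integral_eq_zero_of_ae (Filter.Eventually.of_forall fun y => ?_)
    by_contra hy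
    have hy' : h y • ρ (x - y) ≠ 0 := hy
    rw [smul_ne_zero_iff] at hy'
    exact hxK (hKmem y x hy'.1 ((hρs _ hy'.2).trans_le (min_le_right _ _)))
  -- the convolution is killed
  have h1 : W (jtConv μ h ρ) = 0 := by
    rw [← hWKa _ hcK]
    refine jt_zero_of_mem_closure K WK s C hb _ ?_
    rw [jtJ_jtK, jt_jet_conv μ s h.continuous h.hasCompactSupport ρ (jtConv μ h ρ) (fun _ => rfl)]
    refine jt_integral_mem_closure μ _ (jtT_integrable μ s h.continuous h.hasCompactSupport ρ)
      fun y => ?_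
    by_cases hy : h y = 0
    · rw [hy, zero_smul]; exact zero_mem _
    · have hsup : Function.support (jtTr ρ y) ⊆ K := fun x hx =>
        hKmem y x hy ((hρs _ hx).trans_le (min_le_right _ _))
      have hmem : jtT s ρ y ∈ (LinearMap.ker WK.toLinearMap).map (jtJ K s) :=
        ⟨jtK K (jtTr ρ y) hsup, by
          change WK _ = 0
          rw [hWKa, hρW y hy], by rw [jtJ_jtK, jtT_jtTr]⟩
      exact Submodule.smul_mem _ (h y) hmem
  -- the convolution is close to `h`
  have hρn1 : ∫ y, ‖ρ y‖ ∂μ = 1 := by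
    have e : ∫ y, ρ y ∂μ = ((∫ y, ‖ρ y‖ ∂μ : ℝ) : ℂ) := by
      have e1 : ∫ y, ((‖ρ y‖ : ℝ) : ℂ) ∂μ = ((∫ y, ‖ρ y‖ ∂μ : ℝ) : ℂ) := integral_ofReal
      rw [← e1]
      exact integral_congr_ae (Filter.Eventually.of_forall fun y => hρn y)
    rw [hρi] at e
    exact_mod_cast e.symm
  have h2 : ‖jtT s h 0 - jtT s (jtConv μ h ρ) 0‖ ≤ ε / (C + 1) := by
    rw [jt_jet_conv μ s ρ.continuous ρ.hasCompactSupport h (jtConv μ h ρ) (jtConv_comm μ h ρ)]
    have e0 : jtT s h 0 = ∫ y, ρ y • jtT s h 0 ∂μ := by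
      rw [integral_smul_const, hρi, one_smul]
    have hi0 : Integrable (fun y => ρ y • jtT s h 0) μ :=
      (ρ.continuous.smul continuous_const).integrable_of_hasCompactSupport
        ρ.hasCompactSupport.smul_right
    rw [e0, ← integral_sub hi0 (jtT_integrable μ s ρ.continuous ρ.hasCompactSupport h)]
    have hin : Integrable (fun y => ‖ρ y‖ * (ε / (C + 1))) μ :=
      ((ρ.continuous.integrable_of_hasCompactSupport ρ.hasCompactSupport).norm).mul_const _
    refine (norm_integral_le_of_norm_le hin (Filter.Eventually.of_forall fun y => ?_)).trans ?_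
    · rw [← smul_sub, norm_smul]
      by_cases hy : ρ y = 0
      · simp [hy]
      · refine mul_le_mul_of_nonneg_left ?_ (norm_nonneg _)
        have := hcont y (by rw [dist_zero_right]; exact (hρs y hy).trans_le (min_le_left _ _))
        rw [dist_comm, dist_eq_norm] at this
        exact this.le
    · rw [integral_mul_const, hρn1, one_mul]
  have h3 : W h = WK (jtK K h hhK - jtK K (jtConv μ h ρ) hcK) := by
    rw [map_sub, hWKa, hWKa, h1, sub_zero]
  rw [h3]
  refine (hb _).trans ?_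
  rw [map_sub, jtJ_jtK, jtJ_jtK]
  calc C * ‖jtT s h 0 - jtT s (jtConv μ h ρ) 0‖ ≤ (C + 1) * (ε / (C + 1)) :=
        mul_le_mul (by linarith) h2 (norm_nonneg _) (by positivity)
    _ = ε := by field_simp

end general

/-- **The local form of `SanityJoint.tensor_total`**: if a distribution in the joint variables vanishes on the factorised kernels
`f_1 ⊗ ⋯ ⊗ f_n` whose factors are concentrated within `r` of the components of a point where `h ≠ 0`, then it vanishes at `h`. -/
theorem tensor_total_local {n : ℕ} (W : JTest n →L[ℂ] ℂ) (h : JTest n) {r₀ : ℝ} (hr₀ : 0 < r₀)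
    (hW : ∀ y : Fin n → M4, h y ≠ 0 → ∀ f : Fin n → Test, (∀ i z, f i z ≠ 0 → ‖z - y i‖ < r₀) →
      W (tensor f) = 0) : W h = 0 := by
  refine jt_total_local (volume : Measure (Fin n → M4)) W h fun r hr => ?_
  have hm : 0 < min r r₀ := lt_min hr hr₀
  refine ⟨tensor fun _ => jtBump (min r r₀) hm, fun x hx => ?_, fun x => ?_, ?_, fun y hy => ?_⟩
  · rw [pi_norm_lt_iff hr]
    intro i
    refine (jtBump_support (min r r₀) hm (x i) fun h0 => hx ?_).trans_le (min_le_left _ _)
    exact Finset.prod_eq_zero (Finset.mem_univ i) h0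
  · choose t ht0 ht using fun i => jtBump_nonneg (min r r₀) hm (x i)
    have e : tensor (fun _ => jtBump (min r r₀) hm) x = ((∏ i, t i : ℝ) : ℂ) := by
      change ∏ i, jtBump (min r r₀) hm (x i) = _
      simp only [ht]
      push_cast
      rfl
    rw [e, Complex.norm_real, Real.norm_of_nonneg (Finset.prod_nonneg fun i _ => ht0 i)]
  · change ∫ x : Fin n → M4, ∏ i, jtBump (min r r₀) hm (x i) = 1
    rw [integral_fintype_prod_volume_eq_prod (fun _ x => jtBump (min r r₀) hm x)]
    simp [jtBump_integral]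
  · have e : jtTr (tensor fun _ => jtBump (min r r₀) hm) y = tensor fun i => jtTr (jtBump (min r r₀) hm) (y i) := by
      ext x
      rfl
    rw [e]
    refine hW y hy _ fun i z hz => ?_
    exact (jtBump_support (min r r₀) hm (z - y i) hz).trans_le (min_le_right _ _)

/-! ### 2. Locality for insertions with joint kernels -/

theorem mink_diag_continuous : Continuous fun p : M4 × M4 => mink (p.2 - p.1) (p.2 - p.1) := by
  unfold mink
  fun_prop

theorem exists_radius {n : ℕ} {K N : Set M4} (hN : IsOpen N) (hKN : causalFuture K ∪ causalPast K ⊆ N) {g : Test}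
    (hg : ∀ x ∈ N, g x = 0) (h : JTest n) (hh : ∀ x ∈ tsupport h, ∀ i, x i ∈ K) :
    ∃ r > 0, ∀ y : Fin n → M4, h y ≠ 0 → ∀ i, ∀ f : Test, (∀ z, f z ≠ 0 → ‖z - y i‖ < r) →
      SpacelikeSep (tsupport g) (tsupport f) := by
  have hGc : IsCompact (tsupport g) := g.hasCompactSupport
  have hHc : IsCompact (tsupport h) := h.hasCompactSupport
  have hGN : tsupport g ⊆ Nᶜ := closure_minimal (fun z hz hzN => hz (hg z hzN)) hN.isClosed_compl
  have hO : IsOpen {z : M4 | ∀ x ∈ tsupport g, mink (x - z) (x - z) < 0} := by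
    rw [isOpen_iff_eventually]
    intro z hz
    refine hGc.eventually_forall_of_forall_eventually fun x hx => ?_
    exact (mink_diag_continuous.continuousAt (x := (z, x))).eventually_lt continuousAt_const (hz x hx)
  have hCc : IsCompact (⋃ i : Fin n, (fun y : Fin n → M4 => y i) '' tsupport h) :=
    isCompact_iUnion fun i => hHc.image (continuous_apply i)
  have hCO : (⋃ i : Fin n, (fun y : Fin n → M4 => y i) '' tsupport h) ⊆
      {z : M4 | ∀ x ∈ tsupport g, mink (x - z) (x - z) < 0} := by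
    intro z hz x hx
    obtain ⟨i, y, hy, rfl⟩ := Set.mem_iUnion.1 hz
    have hyK : y i ∈ K := hh y hy i
    have hxN : x ∉ N := hGN hx
    by_contra hlt
    rw [not_lt] at hlt
    rcases le_total 0 ((x - y i) 0) with h0 | h0
    · exact hxN (hKN (Or.inl ⟨y i, hyK, h0, hlt⟩))
    · refine hxN (hKN (Or.inr ⟨y i, hyK, ?_, ?_⟩))
      · simp only [Pi.sub_apply] at h0 ⊢; linarith
      · have h2 : mink (y i - x) (y i - x) = mink (x - y i) (x - y i) := by
          simp only [mink, Pi.sub_apply]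
          exact Finset.sum_congr rfl fun μ _ => by ring
        rw [h2]; exact hlt
  obtain ⟨r, hr, hrO⟩ := hCc.exists_cthickening_subset_open hO hCO
  refine ⟨r, hr, fun y hy i f hf x hx z hz => ?_⟩
  have hyC : y i ∈ ⋃ i : Fin n, (fun y : Fin n → M4 => y i) '' tsupport h :=
    Set.mem_iUnion.2 ⟨i, y, subset_tsupport _ hy, rfl⟩
  have hfb : tsupport f ⊆ Metric.closedBall (y i) r := by
    refine closure_minimal (fun w hw => ?_) Metric.isClosed_closedBall
    rw [Metric.mem_closedBall, dist_eq_norm]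
    exact (hf w hw).le
  exact hrO (Metric.closedBall_subset_cthickening hyC r (hfb hz)) x hx

open SanityAlgebra SanityCharge SanityIndep

variable {H : Type} [NormedAddCommGroup H] [InnerProductSpace ℂ H] [CompleteSpace H]
variable {B : Background H} (𝔊 : FieldSystem B)

theorem commute_word {L : 𝔊.F} (hL : 𝔊.par L = L) {g : Test} {n : ℕ} (A : Fin n → 𝔊.F) (f : Fin n → Test)
    (hsp : ∀ i, SpacelikeSep (tsupport g) (tsupport (f i))) :
    𝔊.op L g * 𝔊.word A f = 𝔊.word A f * 𝔊.op L g := by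
  unfold FieldSystem.word
  refine Commute.list_prod_right _ _ fun X hX => ?_
  rw [List.mem_ofFn] at hX
  obtain ⟨i, rfl⟩ := hX
  exact (𝔊.op_local L (A i) g (f i) (hsp i)).1 (Or.inl hL)

/-- A Bose field smeared outside an open neighbourhood of the causal set of `K` commutes with every insertion whose joint kernel is
supported in `K^n`. -/
theorem comm_op_insertion {L : 𝔊.F} (hL : 𝔊.par L = L) {K N : Set M4} (hN : IsOpen N)
    (hKN : causalFuture K ∪ causalPast K ⊆ N) {g : Test} (hg : ∀ x ∈ N, g x = 0) {n : ℕ} {A : Fin n → 𝔊.F}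
    {h : JTest n} (hh : ∀ x ∈ tsupport h, ∀ i, x i ∈ K) {P : Module.End ℂ 𝔊.domain} (hP : 𝔊.IsInsertion A h P) :
    𝔊.op L g * P = P * 𝔊.op L g := by
  obtain ⟨r, hr, hrad⟩ := exists_radius hN hKN hg h hh
  refine end_ext_inner' 𝔊 fun φ ψ => ?_
  have hadj : ∀ a b : 𝔊.domain, ⟪(a : H), (𝔊.op L g b : H)⟫_ℂ =
      ⟪(𝔊.op (𝔊.adj L) (conjT g) a : H), (b : H)⟫_ℂ := 𝔊.op_adj L g
  obtain ⟨W₁, hW₁, e₁⟩ := hP (𝔊.op (𝔊.adj L) (conjT g) φ) ψ
  obtain ⟨W₂, hW₂, e₂⟩ := hP φ (𝔊.op L g ψ)
  have hD : (W₁ - W₂) h = 0 := by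
    refine tensor_total_local (W₁ - W₂) h hr fun y hy f hf => ?_
    rw [_root_.sub_apply, hW₁ f (tensor f) (fun _ => rfl), hW₂ f (tensor f) (fun _ => rfl), ← hadj]
    have hc := congrArg (fun X : Module.End ℂ 𝔊.domain => X ψ)
      (commute_word 𝔊 hL A f fun i => hrad y hy i (f i) (hf i))
    simp only [Module.End.mul_apply] at hc
    rw [hc, sub_self]
  rw [Module.End.mul_apply, Module.End.mul_apply, hadj, e₁, e₂]
  exact sub_eq_zero.1 hD

/-- `SanityCharge.comm_op_of_van` on the polynomial algebra with joint kernels. -/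
theorem comm_op_of_van_joint {L : 𝔊.F} (hL : 𝔊.par L = L) {K N : Set M4} (hN : IsOpen N)
    (hKN : causalFuture K ∪ causalPast K ⊆ N) {g : Test} (hg : ∀ x ∈ N, g x = 0) :
    ∀ P ∈ 𝔊.jointAlg K, 𝔊.comm (𝔊.op L g) P = 0 := by
  intro P hP
  have hle : 𝔊.jointAlg K ≤ Subalgebra.centralizer ℂ {𝔊.op L g} := by
    refine Algebra.adjoin_le ?_
    rintro X ⟨n, A, h, hh, hX⟩
    rw [SetLike.mem_coe, Subalgebra.mem_centralizer_iff]
    intro Q hQ
    rw [Set.mem_singleton_iff] at hQ
    subst hQ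
    exact comm_op_insertion 𝔊 hL hN hKN hg hh hX
  have h := (Subalgebra.mem_centralizer_iff ℂ).1 (hle hP) _ rfl
  unfold FieldSystem.comm
  rw [h, sub_self]

/-! ### 3. The results of `SanityCharge.lean` and `SanityIndep.lean` on `jointAlg` -/

theorem comm_charge_indep_joint {t : Fin 4 → Fin 4 → 𝔊.F} (hp : ∀ μ ν, 𝔊.par (t μ ν) = t μ ν)
    (hs : ∀ μ ν, t μ ν = t ν μ) (hc : ∀ ν, 𝔊.div (fun μ => t μ ν) = 0) (htr : 𝔊.trace t = 0) {X : M4 → M4}
    (hX : IsConformalKilling X) {K : Set M4} {F F' : Fin 4 → RTest} (hF : IsSlabFor K F) (hF' : IsSlabFor K F') :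
    ∀ P ∈ 𝔊.jointAlg K, 𝔊.comm (𝔊.charge t X F) P = 𝔊.comm (𝔊.charge t X F') P := by
  intro P hP
  obtain ⟨h, N, hN, hKN, hg⟩ := exists_potential hF hF'
  have h1 := comm_sum_sum 𝔊 (fun μ => (eta μ : ℂ))
    (fun μ ν => 𝔊.op (t μ ν) (mulT (fun x => X x ν) (toC (F μ) - toC (F' μ) - pd μ h))) P fun μ ν =>
      comm_op_of_van_joint 𝔊 (hp μ ν) hN hKN
        (van_mulT (fun x hx => hg x hx μ) (SanityTest.contDiff_component hX.1 ν)) P hP
  have h2 := comm_add_smul 𝔊 (𝔊.charge t X F')
    (∑ μ, ∑ ν, (eta μ : ℂ) • 𝔊.op (t μ ν) (mulT (fun x => X x ν) (toC (F μ) - toC (F' μ) - pd μ h))) P 1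
  rw [one_smul, one_smul, h1, add_zero] at h2
  rw [charge_split 𝔊 t hX.1 F F' h, exact_part 𝔊 hs hc hX h, htr, map_zero, LinearMap.zero_apply, neg_zero,
    add_zero, h2]

theorem comm_charge_improved_joint {L : 𝔊.F} (hL : 𝔊.par L = L) (T : Fin 4 → Fin 4 → 𝔊.F) (c : M4)
    {M : Matrix (Fin 4) (Fin 4) ℝ} (hM : ∀ μ ν, eta ν * M ν μ + eta μ * M μ ν = 0) (κ : ℝ) {K : Set M4}
    {F : Fin 4 → RTest} (hF : IsSlabFor K F) : ∀ P ∈ 𝔊.jointAlg K,
    𝔊.comm (𝔊.charge (improved 𝔊 T L) (affineField c M κ) F) P =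
      𝔊.comm (𝔊.charge T (affineField c M κ) F - (κ : ℂ) • 𝔊.flux (fun μ => 𝔊.der μ L) F) P := by
  intro P hP
  obtain ⟨ρ, hρ, ⟨N, hN, hKN, hFN⟩, -, -⟩ := hF
  obtain ⟨R, hR, hch⟩ := charge_imp 𝔊 L c hM κ hN hρ hFN
  have h1 : 𝔊.charge (improved 𝔊 T L) (affineField c M κ) F =
      (𝔊.charge T (affineField c M κ) F - (κ : ℂ) • 𝔊.flux (fun μ => 𝔊.der μ L) F) + (1 / 3 : ℂ) • 𝔊.op L R := by
    rw [improved_eq, charge_improvedWith, hch]
    module
  rw [h1, comm_add_smul, comm_op_of_van_joint 𝔊 hL hN hKN hR P hP, smul_zero, add_zero]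

/-- **The clause `ConformalWard.affine` itself**: `t = T + (1/3)(∂∂ - η□)L` satisfies the affine Ward identities on `jointAlg` without virial
term iff `T` satisfies them there with the virial field `∂_μ L`. -/
theorem affineWard_improved_iff_joint {L : 𝔊.F} (hL : 𝔊.par L = L) (T : Fin 4 → Fin 4 → 𝔊.F) :
    𝔊.AffineWardOn 𝔊.jointAlg (improved 𝔊 T L) 0 ↔ 𝔊.AffineWardOn 𝔊.jointAlg T fun μ => 𝔊.der μ L := by
  have key : ∀ (γ : ℝ → Sim) (c : M4) (M : Matrix (Fin 4) (Fin 4) ℝ) (κ : ℝ), IsTangent γ c M κ →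
      ∀ (K : Set M4) (F : Fin 4 → RTest), IsSlabFor K F → ∀ P ∈ 𝔊.jointAlg K,
      𝔊.comm (𝔊.charge (improved 𝔊 T L) (affineField c M κ) F - (κ : ℂ) • 𝔊.flux 0 F) P =
        𝔊.comm (𝔊.charge T (affineField c M κ) F - (κ : ℂ) • 𝔊.flux (fun μ => 𝔊.der μ L) F) P := by
    intro γ c M κ hγ K F hF P hP
    rw [flux_zero, smul_zero, sub_zero]
    exact comm_charge_improved_joint 𝔊 hL T c (SanityTangent.isTangent_antisymm hγ) κ hF P hP
  constructor
  · intro h γ c M κ hγ K F hF P hP φ ψ
    have := h γ c M κ hγ K F hF P hP φ ψ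
    rwa [key γ c M κ hγ K F hF P hP] at this
  · intro h γ c M κ hγ K F hF P hP φ ψ
    have := h γ c M κ hγ K F hF P hP φ ψ
    rwa [← key γ c M κ hγ K F hF P hP] at this

/-! ### 4. In the words of `Conclusion` -/

section clauses

variable {𝔉 : FieldSystem B} (S : StressData 𝔉) {𝔏 : FieldSystem B} (e : Extension 𝔉 𝔏)

/-- **The clause `ConformalWard.indep` of `Conclusion`, VERBATIM, holds in every theory** as soon as `L` is a Bose field of an admitted
extension with `∂^μ V⁽³⁾_μ = □ L`. -/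
theorem indep_improved_joint {L : 𝔏.F} (hL : e.ι (𝔉.div S.V3) = 𝔏.box L) (hp : 𝔏.par L = L) :
    ∀ X, IsConformalKilling X → ∀ K F F', IsSlabFor K F → IsSlabFor K F' → ∀ P ∈ 𝔏.jointAlg K,
      𝔏.comm (𝔏.charge (improved 𝔏 (fun μ ν => e.ι (S.T4 μ ν)) L) X F) P =
        𝔏.comm (𝔏.charge (improved 𝔏 (fun μ ν => e.ι (S.T4 μ ν)) L) X F') P := by
  intro X hX K F F' hF hF'
  obtain ⟨h1, h2, h3⟩ := improved_clauses S e L hL
  refine comm_charge_indep_joint 𝔏 (fun μ ν => ?_) h1 h2 h3 hX hF hF'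
  rw [improved_eq]
  exact SanityLorentz.par_improvedWith 𝔏 _ (fun μ ν => by rw [← e.ι_par, par_T4]) hp μ ν

/-- "Word for word", checked by the kernel: with `indep_improved_joint` in the first field, the four other fields give `ConformalWard`. -/
theorem conformalWard_of_rest {L : 𝔏.F} (hL : e.ι (𝔉.div S.V3) = 𝔏.box L) (hp : 𝔏.par L = L) {t : Fin 4 → Fin 4 → 𝔏.F}
    (ht : t = improved 𝔏 (fun μ ν => e.ι (S.T4 μ ν)) L)
    (preserve : ∀ X, IsConformalKilling X → ∀ K F, IsOpen K → IsSlabFor K F →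
      ∀ P ∈ 𝔏.jointAlg K, 𝔏.comm (𝔏.charge t X F) P ∈ 𝔏.jointAlg K)
    (affine : 𝔏.AffineWardOn 𝔏.jointAlg t 0)
    (vacuum : ∀ X, IsConformalKilling X → ∀ K F, IsSlabFor K F → ∀ P ∈ 𝔏.jointAlg K,
      ⟪B.Ω, (𝔏.comm (𝔏.charge t X F) P 𝔏.vac : H)⟫_ℂ = 0)
    (lie : ∀ X Y, IsConformalKilling X → IsConformalKilling Y →
      ∀ K F K' F', IsSlabFor K F → K ⊆ K' → (∀ μ, tsupport (F μ) ⊆ K') → IsSlabFor K' F' →
      ∀ P ∈ 𝔏.jointAlg K,
        𝔏.comm (𝔏.charge t X F') (𝔏.comm (𝔏.charge t Y F) P)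
          - 𝔏.comm (𝔏.charge t Y F') (𝔏.comm (𝔏.charge t X F) P)
        = Complex.I • 𝔏.comm (𝔏.charge t (VectorField.lieBracket ℝ X Y) F) P) : 𝔏.ConformalWard t := by
  subst ht
  exact ⟨indep_improved_joint S e hL hp, preserve, affine, vacuum, lie⟩

/-- The clause `ConformalWard.affine` of `Conclusion` says: on the enlarged family, on `jointAlg`, `T⁽⁴⁾` has the virial field `∂_μ L`. -/
theorem affine_clause_iff {L : 𝔏.F} (hp : 𝔏.par L = L) :
    𝔏.AffineWardOn 𝔏.jointAlg (improved 𝔏 (fun μ ν => e.ι (S.T4 μ ν)) L) 0 ↔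
      𝔏.AffineWardOn 𝔏.jointAlg (fun μ ν => e.ι (S.T4 μ ν)) fun μ => 𝔏.der μ L :=
  affineWard_improved_iff_joint 𝔏 hp _

end clauses

end SanityJointLocal
end Claimed.Open.R282
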