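import Claimed.Open.R282.SanityTest

/-!
# Result 282: the conformal Killing fields form a real vector space, and the Ward data are linear on it

`ConformalWard` and `PrimaryLaws` quantify over ALL conformal Killing fields `X`.

* `isConformalKilling_zero`, `isConformalKilling_add`, `isConformalKilling_smul`, `ckSpace`: they form a real vector space.
* `sigmaOf_add`, `sigmaOf_smul`: `σ_X` is linear in `X`.
* `mulT_add_left`, `mulT_smul_left`, `charge_add`, `charge_smul`, `comm_charge_add`, `comm_charge_smul`: for EVERY field system the local charge `Q_X(F)`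
  and the Ward commutator `[Q_X(F), P]` are `ℝ`-linear in `X`.
* `transportT_add`, `transportT_smul`: so is the right-hand side of the primary laws.
-/

open scoped Distributions ContDiff InnerProductSpace ComplexConjugate Topology SchwartzMap
open scoped LinearPMap
open TopologicalSpace

noncomputable section

namespace Claimed.Open.R282
namespace SanityLinear

theorem differentiableAt_of_smooth {X : M4 → M4} (hX : ContDiff ℝ ∞ X) (x : M4) : DifferentiableAt ℝ X x :=
  (hX.differentiable (by simp)).differentiableAt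

theorem isConformalKilling_zero : IsConformalKilling (0 : M4 → M4) := by
  refine ⟨contDiff_const, 0, fun x μ ν => ?_⟩
  have h : fderiv ℝ (0 : M4 → M4) x = 0 := fderiv_const_apply (0 : M4)
  simp [h]

theorem isConformalKilling_add {X Y : M4 → M4} (hX : IsConformalKilling X) (hY : IsConformalKilling Y) :
    IsConformalKilling (X + Y) := by
  obtain ⟨hXs, σ, hσ⟩ := hX
  obtain ⟨hYs, τ, hτ⟩ := hY
  refine ⟨hXs.add hYs, σ + τ, fun x μ ν => ?_⟩
  rw [fderiv_add (differentiableAt_of_smooth hXs x) (differentiableAt_of_smooth hYs x)]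
  have h1 := hσ x μ ν
  have h2 := hτ x μ ν
  simp only [add_apply, Pi.add_apply]
  linear_combination h1 + h2

theorem isConformalKilling_smul (c : ℝ) {X : M4 → M4} (hX : IsConformalKilling X) :
    IsConformalKilling (c • X) := by
  obtain ⟨hXs, σ, hσ⟩ := hX
  refine ⟨hXs.const_smul c, c • σ, fun x μ ν => ?_⟩
  rw [fderiv_const_smul (differentiableAt_of_smooth hXs x)]
  have h1 := hσ x μ ν
  simp only [smul_apply, Pi.smul_apply, smul_eq_mul]
  linear_combination c * h1

/-- The real vector space of conformal Killing fields. -/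
def ckSpace : Submodule ℝ (M4 → M4) where
  carrier := {X | IsConformalKilling X}
  zero_mem' := isConformalKilling_zero
  add_mem' := isConformalKilling_add
  smul_mem' := fun c _ hX => isConformalKilling_smul c hX

theorem mem_ckSpace {X : M4 → M4} : X ∈ ckSpace ↔ IsConformalKilling X := Iff.rfl

theorem sigmaOf_add {X Y : M4 → M4} (hX : ContDiff ℝ ∞ X) (hY : ContDiff ℝ ∞ Y) :
    sigmaOf (X + Y) = sigmaOf X + sigmaOf Y := by
  funext x
  simp only [sigmaOf, Pi.add_apply,
    fderiv_add (differentiableAt_of_smooth hX x) (differentiableAt_of_smooth hY x),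
    add_apply, Finset.sum_add_distrib, add_div]

theorem sigmaOf_smul (c : ℝ) {X : M4 → M4} (hX : ContDiff ℝ ∞ X) : sigmaOf (c • X) = c • sigmaOf X := by
  funext x
  simp only [sigmaOf, Pi.smul_apply, fderiv_const_smul (differentiableAt_of_smooth hX x),
    smul_apply, smul_eq_mul, ← Finset.mul_sum, mul_div_assoc]

theorem mulT_add_left {p q : M4 → ℝ} (hp : ContDiff ℝ ∞ p) (hq : ContDiff ℝ ∞ q) (f : Test) :
    mulT (fun x => p x + q x) f = mulT p f + mulT q f := by
  ext x
  have h : (mulT p f + mulT q f) x = mulT p f x + mulT q f x := rfl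
  rw [h, SanityTest.mulT_apply (hp.add hq), SanityTest.mulT_apply hp, SanityTest.mulT_apply hq]
  push_cast
  ring

theorem mulT_smul_left (c : ℝ) {p : M4 → ℝ} (hp : ContDiff ℝ ∞ p) (f : Test) :
    mulT (fun x => c * p x) f = (c : ℂ) • mulT p f := by
  ext x
  have h : ((c : ℂ) • mulT p f) x = (c : ℂ) * mulT p f x := rfl
  rw [h, SanityTest.mulT_apply (contDiff_const.mul hp), SanityTest.mulT_apply hp]
  push_cast
  ring

section field

variable {H : Type} [NormedAddCommGroup H] [InnerProductSpace ℂ H] [CompleteSpace H]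
variable {B : Background H} (𝔉 : FieldSystem B)

/-- `Q_{X+Y}(F) = Q_X(F) + Q_Y(F)`. -/
theorem charge_add (t : Fin 4 → Fin 4 → 𝔉.F) {X Y : M4 → M4} (hX : ContDiff ℝ ∞ X) (hY : ContDiff ℝ ∞ Y)
    (F : Fin 4 → RTest) : 𝔉.charge t (X + Y) F = 𝔉.charge t X F + 𝔉.charge t Y F := by
  unfold FieldSystem.charge
  simp only [← Finset.sum_add_distrib]
  refine Finset.sum_congr rfl fun μ _ => Finset.sum_congr rfl fun ν _ => ?_
  have h : mulT (fun x => (X + Y) x ν) (toC (F μ))
      = mulT (fun x => X x ν) (toC (F μ)) + mulT (fun x => Y x ν) (toC (F μ)) :=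
    mulT_add_left (SanityTest.contDiff_component hX ν) (SanityTest.contDiff_component hY ν) _
  rw [h, map_add, smul_add]

/-- `Q_{cX}(F) = c Q_X(F)`. -/
theorem charge_smul (t : Fin 4 → Fin 4 → 𝔉.F) (c : ℝ) {X : M4 → M4} (hX : ContDiff ℝ ∞ X)
    (F : Fin 4 → RTest) : 𝔉.charge t (c • X) F = (c : ℂ) • 𝔉.charge t X F := by
  unfold FieldSystem.charge
  simp only [Finset.smul_sum]
  refine Finset.sum_congr rfl fun μ _ => Finset.sum_congr rfl fun ν _ => ?_
  have h : mulT (fun x => (c • X) x ν) (toC (F μ)) = (c : ℂ) • mulT (fun x => X x ν) (toC (F μ)) :=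
    mulT_smul_left c (SanityTest.contDiff_component hX ν) _
  rw [h, map_smul, smul_comm]

/-- The Ward commutator is additive in the vector field. -/
theorem comm_charge_add (t : Fin 4 → Fin 4 → 𝔉.F) {X Y : M4 → M4} (hX : ContDiff ℝ ∞ X)
    (hY : ContDiff ℝ ∞ Y) (F : Fin 4 → RTest) (P : Module.End ℂ 𝔉.domain) :
    𝔉.comm (𝔉.charge t (X + Y) F) P = 𝔉.comm (𝔉.charge t X F) P + 𝔉.comm (𝔉.charge t Y F) P := by
  rw [charge_add 𝔉 t hX hY]
  unfold FieldSystem.comm
  rw [add_mul, mul_add]
  abel

/-- The Ward commutator is homogeneous in the vector field. -/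
theorem comm_charge_smul (t : Fin 4 → Fin 4 → 𝔉.F) (c : ℝ) {X : M4 → M4} (hX : ContDiff ℝ ∞ X)
    (F : Fin 4 → RTest) (P : Module.End ℂ 𝔉.domain) :
    𝔉.comm (𝔉.charge t (c • X) F) P = (c : ℂ) • 𝔉.comm (𝔉.charge t X F) P := by
  rw [charge_smul 𝔉 t c hX]
  unfold FieldSystem.comm
  rw [smul_mul_assoc, mul_smul_comm, smul_sub]

end field

theorem transportT_add {X Y : M4 → M4} (hX : ContDiff ℝ ∞ X) (hY : ContDiff ℝ ∞ Y) (f : Test) :
    transportT (X + Y) f = transportT X f + transportT Y f := by
  ext x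
  have h : (transportT X f + transportT Y f) x = transportT X f x + transportT Y f x := rfl
  have hXY : ContDiff ℝ ∞ (X + Y) := hX.add hY
  rw [h, SanityTest.transportT_apply hXY, SanityTest.transportT_apply hX,
    SanityTest.transportT_apply hY, sigmaOf_add hX hY]
  simp only [Pi.add_apply, Complex.ofReal_add, add_mul, Finset.sum_add_distrib]
  ring

theorem transportT_smul (c : ℝ) {X : M4 → M4} (hX : ContDiff ℝ ∞ X) (f : Test) :
    transportT (c • X) f = (c : ℂ) • transportT X f := by
  ext x
  have h : ((c : ℂ) • transportT X f) x = (c : ℂ) * transportT X f x := rfl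
  have hcX : ContDiff ℝ ∞ (c • X) := hX.const_smul c
  rw [h, SanityTest.transportT_apply hcX, SanityTest.transportT_apply hX, sigmaOf_smul c hX]
  simp only [Pi.smul_apply, smul_eq_mul, Complex.ofReal_mul, mul_assoc, ← Finset.mul_sum]
  ring

end SanityLinear
end Claimed.Open.R282
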