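import Claimed.Open.R282.SanityTwo

/-!
# Result 282: the net of the second model is `L^∞[0,1]`

`SanityTwo.datumL2` is the model `H = L²[0,1]`, `Ω = 1`, `X = M_x`, with the constant net `𝓜(O) = {M_x}''`
(`Datum.vn`).  `CLAIM.md` describes this net as `L^∞[0,1]`.  This file proves the identification:

* `MulOp φ` : the multiplication operator `g ↦ φ g` on `L²[0,1]` of `φ ∈ L^∞[0,1]` (`MulOp_coe`); `M_x` is one of them
  (`Mx_eq_MulOp`), they commute with each other (`MulOp_comm`) and `φ ↦ MulOp φ` is injective (`MulOp_injective`);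
* `apply_ae_of_comm` : a bounded operator `C` which commutes with `M_x` satisfies `C h = h · C 1` almost everywhere, for every
  `h ∈ L²` (both sides are continuous maps `L² → L¹` which agree on the polynomials, `Mx_cyclic`);
* `norm_le_of_comm` : then `|C 1| ≤ ‖C‖` almost everywhere (test on indicator functions);
* `exists_eq_MulOp_of_comm` : **the commutant of `M_x` consists of multiplication operators**;
* `mem_commVN_datumL2_iff`, `mem_vn_datumL2_iff`, `vn_datumL2_eq_commVN` : `{M_x}' = {M_x}'' = {M_φ : φ ∈ L^∞[0,1]}`: the net of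
  the model is the maximal abelian von Neumann algebra `L^∞[0,1]`;
* `norm_MulOp` : `‖M_φ‖ = ‖φ‖_∞`, so that `φ ↦ M_φ` is an isometric bijection of `L^∞[0,1]` onto the net.
-/

open scoped InnerProductSpace ComplexConjugate Topology ENNReal
open TopologicalSpace MeasureTheory unitInterval

noncomputable section

namespace Claimed.Open.R282
namespace SanityTwo

/-- The multiplication operator `g ↦ φ g` on `L²[0,1]`, for `φ ∈ L^∞[0,1]`. -/
def MulOp (φ : Lp ℂ ∞ (volume : Measure I)) : L2I →L[ℂ] L2I :=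
  (ContinuousLinearMap.mul ℂ ℂ).holderL volume ∞ 2 2 φ

lemma MulOp_coe (φ : Lp ℂ ∞ (volume : Measure I)) (g : L2I) :
    MulOp φ g =ᵐ[volume] fun t => φ t * g t := by
  have h1 := (ContinuousLinearMap.mul ℂ ℂ).coeFn_holder (r := 2) φ g
  filter_upwards [h1] with t h1
  change ((ContinuousLinearMap.mul ℂ ℂ).holder 2 φ g) t = _
  rw [h1]
  rfl

lemma Mx_eq_MulOp : Mx = MulOp (ContinuousMap.toLp ∞ volume ℂ xC) := rfl

lemma MulOp_comm (φ ψ : Lp ℂ ∞ (volume : Measure I)) : MulOp φ * MulOp ψ = MulOp ψ * MulOp φ := by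
  apply ContinuousLinearMap.ext
  intro g
  apply Lp.ext
  filter_upwards [MulOp_coe φ (MulOp ψ g), MulOp_coe ψ g, MulOp_coe ψ (MulOp φ g), MulOp_coe φ g]
    with t h1 h2 h3 h4
  change (MulOp φ (MulOp ψ g)) t = (MulOp ψ (MulOp φ g)) t
  rw [h1, h2, h3, h4]
  ring

lemma MulOp_injective : Function.Injective MulOp := by
  intro φ ψ h
  apply Lp.ext
  have h0 : MulOp φ (emb 1) = MulOp ψ (emb 1) := by rw [h]
  filter_upwards [MulOp_coe φ (emb 1), MulOp_coe ψ (emb 1), emb_coe 1] with t h1 h2 h3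
  rw [h0, h2, h3] at h1
  simpa using h1.symm

/-- The product `L² × L² → L¹`. -/
def prodL1 : L2I →L[ℂ] L2I →L[ℂ] Lp ℂ 1 (volume : Measure I) :=
  (ContinuousLinearMap.mul ℂ ℂ).holderL volume 2 2 1

lemma prodL1_coe (f g : L2I) : prodL1 f g =ᵐ[volume] fun t => f t * g t := by
  have h1 := (ContinuousLinearMap.mul ℂ ℂ).coeFn_holder (r := 1) f g
  filter_upwards [h1] with t h1
  change ((ContinuousLinearMap.mul ℂ ℂ).holder 1 f g) t = _
  rw [h1]
  rfl

lemma Mx_pow_coe (n : ℕ) (g : L2I) :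
    (Mx ^ n) g =ᵐ[volume] fun t => ((t : ℝ) : ℂ) ^ n * g t := by
  induction n with
  | zero => simp
  | succ n ih =>
    filter_upwards [ih, Mx_coe ((Mx ^ n) g)] with t h1 h2
    rw [pow_succ', mul_apply_eq_comp, h2, h1]
    ring

lemma comm_pow (C : L2I →L[ℂ] L2I) (hC : Mx * C = C * Mx) (n : ℕ) (v : L2I) :
    C ((Mx ^ n) v) = (Mx ^ n) (C v) := by
  induction n generalizing v with
  | zero => simp
  | succ n ih =>
    have h1 : C (Mx v) = Mx (C v) := (congrArg (fun Z : L2I →L[ℂ] L2I => Z v) hC).symm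
    rw [pow_succ, mul_apply_eq_comp, mul_apply_eq_comp, ih, h1]

/-- A bounded operator which commutes with `M_x` is, almost everywhere, the multiplication by the function `C 1`. -/
theorem apply_ae_of_comm (C : L2I →L[ℂ] L2I) (hC : Mx * C = C * Mx) (h : L2I) :
    C h =ᵐ[volume] fun t => h t * (C (emb 1)) t := by
  have key : (prodL1.flip (emb 1)).comp C = prodL1.flip (C (emb 1)) := by
    apply ContinuousLinearMap.ext_on Mx_cyclic
    rintro _ ⟨n, rfl⟩
    change prodL1 (C ((Mx ^ n) (emb 1))) (emb 1) = prodL1 ((Mx ^ n) (emb 1)) (C (emb 1))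
    apply Lp.ext
    filter_upwards [prodL1_coe (C ((Mx ^ n) (emb 1))) (emb 1), prodL1_coe ((Mx ^ n) (emb 1)) (C (emb 1)),
      emb_coe 1, Mx_pow_coe n (emb 1), Mx_pow_coe n (C (emb 1))] with t h1 h2 h3 h4 h5
    rw [h1, h2, comm_pow C hC, h4, h5, h3]
    simp
  have h0 : prodL1 (C h) (emb 1) = prodL1 h (C (emb 1)) :=
    congrArg (fun Z : L2I →L[ℂ] Lp ℂ 1 (volume : Measure I) => Z h) key
  filter_upwards [prodL1_coe (C h) (emb 1), prodL1_coe h (C (emb 1)), emb_coe 1] with t h1 h2 h3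
  rw [h0, h2, h3] at h1
  simpa using h1.symm

lemma norm_sq_eq_integral (u : L2I) : ‖u‖ ^ 2 = ∫ t, ‖u t‖ ^ 2 ∂(volume : Measure I) := by
  have h : ⟪u, u⟫_ℂ = ((∫ t, ‖u t‖ ^ 2 ∂(volume : Measure I) : ℝ) : ℂ) := by
    rw [L2.inner_def, ← integral_complex_ofReal]
    apply integral_congr_ae
    filter_upwards with t
    rw [inner_self_eq_norm_sq_to_K]
    simp
  apply Complex.ofReal_injective
  rw [← h, inner_self_eq_norm_sq_to_K]
  simp

/-- If `C` commutes with `M_x` then `|C 1| ≤ ‖C‖` almost everywhere. -/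
theorem norm_le_of_comm (C : L2I →L[ℂ] L2I) (hC : Mx * C = C * Mx) :
    ∀ᵐ t ∂(volume : Measure I), ‖(C (emb 1)) t‖ ≤ ‖C‖ := by
  have hint : Integrable (fun t => ‖(C (emb 1)) t‖ ^ 2) (volume : Measure I) :=
    (Lp.memLp (C (emb 1))).integrable_norm_pow (by norm_num)
  have hle : (fun t => ‖(C (emb 1)) t‖ ^ 2) ≤ᵐ[(volume : Measure I)] fun _ => ‖C‖ ^ 2 := by
    apply ae_le_of_forall_setIntegral_le hint (integrable_const _)
    intro s hs _
    set χ : L2I := indicatorConstLp 2 hs (measure_ne_top _ _) (1 : ℂ) with hχ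
    have hχc : χ =ᵐ[volume] s.indicator fun _ => (1 : ℂ) := indicatorConstLp_coeFn
    have h1 : ‖C χ‖ ^ 2 = ∫ t in s, ‖(C (emb 1)) t‖ ^ 2 ∂(volume : Measure I) := by
      rw [norm_sq_eq_integral, ← integral_indicator hs]
      apply integral_congr_ae
      filter_upwards [apply_ae_of_comm C hC χ, hχc] with t h1 h2
      rw [h1, h2]
      by_cases ht : t ∈ s <;> simp [ht]
    have h2 : ‖χ‖ ^ 2 = ∫ t in s, (1 : ℝ) ∂(volume : Measure I) := by
      rw [norm_sq_eq_integral, ← integral_indicator hs]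
      apply integral_congr_ae
      filter_upwards [hχc] with t h2
      rw [h2]
      by_cases ht : t ∈ s <;> simp [ht]
    have h3 : ‖C χ‖ ^ 2 ≤ ‖C‖ ^ 2 * ‖χ‖ ^ 2 := by
      rw [← mul_pow]
      exact pow_le_pow_left₀ (norm_nonneg _) (C.le_opNorm χ) 2
    rw [← h1]
    refine h3.trans (le_of_eq ?_)
    rw [h2, ← integral_const_mul]
    simp
  filter_upwards [hle] with t ht
  exact (pow_le_pow_iff_left₀ (norm_nonneg _) (norm_nonneg _) two_ne_zero).1 ht

/-- **The commutant of `M_x` on `L²[0,1]` consists of the multiplication operators by `L^∞` functions.** -/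
theorem exists_eq_MulOp_of_comm (C : L2I →L[ℂ] L2I) (hC : Mx * C = C * Mx) :
    ∃ φ : Lp ℂ ∞ (volume : Measure I), C = MulOp φ := by
  have hmem : MemLp (fun t => (C (emb 1)) t) ∞ (volume : Measure I) :=
    memLp_top_of_bound (Lp.aestronglyMeasurable _) ‖C‖ (norm_le_of_comm C hC)
  refine ⟨hmem.toLp _, ?_⟩
  apply ContinuousLinearMap.ext
  intro h
  apply Lp.ext
  filter_upwards [apply_ae_of_comm C hC h, MulOp_coe (hmem.toLp _) h, hmem.coeFn_toLp] with t h1 h2 h3
  rw [h1, h2, h3]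
  ring

/-- The identification is isometric: the operator norm of `M_φ` is the essential supremum of `|φ|`. -/
theorem norm_MulOp (φ : Lp ℂ ∞ (volume : Measure I)) : ‖MulOp φ‖ = ‖φ‖ := by
  apply le_antisymm
  · have h1 : ‖MulOp φ‖ ≤ ‖(ContinuousLinearMap.mul ℂ ℂ).holderL (volume : Measure I) ∞ 2 2‖ * ‖φ‖ :=
      ContinuousLinearMap.le_opNorm _ φ
    have h2 : ‖(ContinuousLinearMap.mul ℂ ℂ).holderL (volume : Measure I) ∞ 2 2‖ ≤ 1 :=
      (ContinuousLinearMap.norm_holderL_le _).trans (ContinuousLinearMap.opNorm_mul_le ℂ ℂ)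
    calc ‖MulOp φ‖ ≤ ‖(ContinuousLinearMap.mul ℂ ℂ).holderL (volume : Measure I) ∞ 2 2‖ * ‖φ‖ := h1
      _ ≤ 1 * ‖φ‖ := mul_le_mul_of_nonneg_right h2 (norm_nonneg _)
      _ = ‖φ‖ := one_mul _
  · have hb : ∀ᵐ t ∂(volume : Measure I), ‖φ t‖ ≤ ‖MulOp φ‖ := by
      filter_upwards [norm_le_of_comm (MulOp φ) (MulOp_comm _ _), MulOp_coe φ (emb 1), emb_coe 1]
        with t h1 h2 h3
      rw [h2, h3] at h1
      simpa using h1
    simpa using Lp.norm_le_of_ae_bound (norm_nonneg (MulOp φ)) hb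

/-- `{M_x}' = L^∞[0,1]`. -/
theorem mem_commVN_datumL2_iff (C : L2I →L[ℂ] L2I) :
    C ∈ datumL2.commVN ↔ ∃ φ : Lp ℂ ∞ (volume : Measure I), C = MulOp φ := by
  rw [Datum.mem_commVN]
  constructor
  · exact exists_eq_MulOp_of_comm C
  · rintro ⟨φ, rfl⟩
    exact MulOp_comm _ _

/-- **The net of the model `datumL2` is `L^∞[0,1]`**: `{M_x}'' = {M_φ : φ ∈ L^∞[0,1]}`. -/
theorem mem_vn_datumL2_iff (x : L2I →L[ℂ] L2I) :
    x ∈ datumL2.vn ↔ ∃ φ : Lp ℂ ∞ (volume : Measure I), x = MulOp φ := by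
  rw [Datum.mem_vn]
  constructor
  · intro h
    exact exists_eq_MulOp_of_comm x (h Mx rfl)
  · rintro ⟨φ, rfl⟩ C hC
    obtain ⟨ψ, rfl⟩ := exists_eq_MulOp_of_comm C hC
    exact MulOp_comm _ _

/-- `L^∞[0,1]` is maximal abelian: `{M_x}'' = {M_x}'`. -/
theorem vn_datumL2_eq_commVN (x : L2I →L[ℂ] L2I) : x ∈ datumL2.vn ↔ x ∈ datumL2.commVN := by
  rw [mem_vn_datumL2_iff, mem_commVN_datumL2_iff]

end SanityTwo
end Claimed.Open.R282
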