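import Claimed.Open.R282.SanityAlgebra

/-!
# Lorentz covariance of the derivative, and the kinematics of the improved tensor, in EVERY theory

Like `SanityAlgebra.lean` this file has no model: everything is proved for an ARBITRARY `FieldSystem` over an arbitrary
`Background`.

1. `rho_der`: `ρ(Λ) ∂_μ A = Λ^β{}_μ ∂_β ρ(Λ) A`.  This is the last of the compatibilities of `CLAIM.md`, deviation 3: it is not a
   field of `FieldSystem`; it follows from `op_cov`, `op_der`, faithfulness and the chain rule for transported test functions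
   (`pd_of_act`, `push_pd`).  It also tests the index placement of `IsVector`, `IsTensor` against `op_cov`: the matrix that
   `op_cov` forces on the gradient of a scalar is the matrix `Λ^β{}_μ` written in `IsVector` (`der_vector`).
2. `lorentz_gram'`, `sum_eta_upper`, `sum_eta_lower`: `Λ η Λ^T = η = Λ^T η Λ` in components.
3. `der_vector`, `der_tensor`, `trace_scalar`, `div_scalar`, `box_scalar`, `eta_tensor`: gradients of scalars (vectors) are vectors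
   (tensors); traces, divergences and `□` of scalars are scalars; `η_{μν} X` is a tensor.
4. `div_V3_props`, `box_props`: the two sides of the clause `∂^μ V⁽³⁾_μ = □ L` of `Conclusion` are objects of the same kind
   (Hermitian even Lorentz scalars of dimension four), the right one by the four clauses of `Conclusion` on `L`.
5. `improved_props`: by the same four clauses the improved tensor `t` of `Conclusion` is a Lorentz tensor of dimension four,
   Hermitian and even; with `SanityAlgebra.improved_clauses` it has every kinematical property of a stress tensor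
   (`StressData.T_tensor`, `T_symm`, `T_cons`) and trace `0`.
-/

open scoped Distributions ContDiff InnerProductSpace ComplexConjugate Topology
open TopologicalSpace

noncomputable section

namespace Claimed.Open.R282
namespace SanityLorentz

open SanityAlgebra

/-! ### 0. The chain rule for transported test functions -/

theorem mulVec_ev (M : Matrix (Fin 4) (Fin 4) ℝ) (μ : Fin 4) : M.mulVec (ev μ) = ∑ β, M β μ • ev β := by
  ext i
  simp [ev, Finset.sum_apply, Pi.single_apply, Matrix.mulVec, dotProduct]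

theorem pd_of_act (g : Sim) (f f' : Test) (h : ∀ x, f' (g.act x) = f x) (μ : Fin 4) (x : M4) :
    pd μ f x = (Real.exp g.s : ℂ) * ∑ β, (lorentz g.A β μ : ℂ) * pd β f' (g.act x) := by
  have hact : HasFDerivAt g.act
      (Real.exp g.s • LinearMap.toContinuousLinearMap (Matrix.mulVecLin (lorentz g.A))) x := by
    unfold Sim.act
    exact (((LinearMap.toContinuousLinearMap (Matrix.mulVecLin (lorentz g.A))).hasFDerivAt (x := x)).const_smul
      (Real.exp g.s)).add_const g.a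
  have hf' : HasFDerivAt (f' : M4 → ℂ) (fderiv ℝ (f' : M4 → ℂ) (g.act x)) (g.act x) :=
    ((f'.contDiff.differentiable (by simp)) _).hasFDerivAt
  have hc := hf'.comp x hact
  have hfe : (f : M4 → ℂ) = (f' : M4 → ℂ) ∘ g.act := by funext y; exact (h y).symm
  rw [SanityTest.pd_apply, hfe, hc.fderiv]
  simp only [ContinuousLinearMap.comp_apply, _root_.smul_apply, LinearMap.coe_toContinuousLinearMap',
    Matrix.mulVecLin_apply, mulVec_ev, map_smul, map_sum, SanityTest.pd_apply, Complex.real_smul]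

theorem sum_test_apply (F : Fin 4 → Test) (x : M4) : (∑ β, F β) x = ∑ β, F β x := by
  simp [Fin.sum_univ_four]

/-- `(∂_μ f) ∘ g⁻¹ = e^s Λ^β{}_μ ∂_β (f ∘ g⁻¹)`. -/
theorem push_pd (g : Sim) (μ : Fin 4) (f : Test) :
    SanityTest.push g (pd μ f) =
      (Real.exp g.s : ℂ) • ∑ β, (lorentz g.A β μ : ℂ) • pd β (SanityTest.push g f) := by
  ext y
  have h1 : SanityTest.push g (pd μ f) y = pd μ f (SanityTest.invAct g y) := rfl
  rw [h1, pd_of_act g f _ (SanityTest.push_act g f) μ, SanityTest.act_invAct]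
  simp only [_root_.smul_apply, sum_test_apply, smul_eq_mul]

/-- The pulled back test function `f' ∘ g`. -/
def pull (g : Sim) (f' : Test) : Test :=
  ⟨fun x => f' (g.act x), f'.contDiff.comp (SanityTest.act_contDiff g),
    f'.hasCompactSupport.comp_homeomorph (SanityTest.actHomeo g), fun _ _ => trivial⟩

theorem pull_apply (g : Sim) (f' : Test) (x : M4) : pull g f' x = f' (g.act x) := rfl

/-- The Lorentz transformation `Λ` as a similarity. -/
def lor (Λ : SL2C) : Sim := ⟨0, Λ, 0⟩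

theorem lor_mul_inv (Λ : SL2C) : (lor Λ).mul (lor Λ⁻¹) = Sim.one := by
  simp [lor, Sim.mul, Sim.one, Sim.act]

variable {H : Type} [NormedAddCommGroup H] [InnerProductSpace ℂ H] [CompleteSpace H]
variable {B : Background H} (𝔉 : FieldSystem B)

/-! ### 1. Deviation 3, last item: the derivative is Lorentz covariant -/

/-- `U(Λ)` maps the invariant domain ONTO itself. -/
theorem exists_Uact_lor (Λ : SL2C) (ψ : 𝔉.domain) : ∃ φ : 𝔉.domain, 𝔉.Uact (lor Λ) φ = ψ := by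
  refine ⟨𝔉.Uact (lor Λ⁻¹) ψ, Subtype.ext ?_⟩
  change B.U (lor Λ) (B.U (lor Λ⁻¹) (ψ : H)) = ψ
  have h := B.U_mul (lor Λ) (lor Λ⁻¹)
  rw [lor_mul_inv, B.U_one] at h
  have h2 := congrArg (fun X : H →L[ℂ] H => X (ψ : H)) h
  exact h2.symm

theorem rho_der_of_mem (Λ : SL2C) (μ : Fin 4) {Δ : ℝ} {A : 𝔉.F} (hA : A ∈ 𝔉.grade Δ) :
    𝔉.rho Λ (𝔉.der μ A) = ∑ β, (lorentz Λ β μ : ℂ) • 𝔉.der β (𝔉.rho Λ A) := by
  refine label_ext 𝔉 fun f' => LinearMap.ext fun ψ' => Subtype.ext ?_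
  obtain ⟨ψ, rfl⟩ := exists_Uact_lor 𝔉 Λ ψ'
  have h1 := 𝔉.op_cov (lor Λ) (Δ + 1) (𝔉.der μ A) (𝔉.der_grade μ Δ A hA) (pull (lor Λ) f') f'
    (fun x => rfl) ψ
  have hF : ∀ x, (∑ β, (lorentz Λ β μ : ℂ) • pd β f') ((lor Λ).act x) = pd μ (pull (lor Λ) f') x := by
    intro x
    rw [pd_of_act (lor Λ) (pull (lor Λ) f') f' (fun x => rfl) μ x]
    simp only [_root_.smul_apply, sum_test_apply, smul_eq_mul]
    simp [lor]
  have h2 := 𝔉.op_cov (lor Λ) Δ A hA (pd μ (pull (lor Λ) f')) _ hF ψ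
  have e1 : (Real.exp ((lor Λ).s * (Δ + 1 - 4)) : ℂ) = 1 := by simp [lor]
  have e2 : (Real.exp ((lor Λ).s * (Δ - 4)) : ℂ) = 1 := by simp [lor]
  rw [e1, one_smul] at h1
  rw [e2, one_smul] at h2
  change ((𝔉.op (𝔉.rho Λ (𝔉.der μ A)) f') (𝔉.Uact (lor Λ) ψ) : H) = _
  have h1' : ((𝔉.op (𝔉.rho Λ (𝔉.der μ A)) f') (𝔉.Uact (lor Λ) ψ) : H) =
      B.U (lor Λ) (𝔉.op (𝔉.der μ A) (pull (lor Λ) f') ψ : H) := h1.symm
  have h2' : ((𝔉.op (𝔉.rho Λ A) (∑ β, (lorentz Λ β μ : ℂ) • pd β f')) (𝔉.Uact (lor Λ) ψ) : H) =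
      B.U (lor Λ) (𝔉.op A (pd μ (pull (lor Λ) f')) ψ : H) := h2.symm
  rw [h1', 𝔉.op_der]
  simp only [LinearMap.neg_apply, Submodule.coe_neg, map_neg]
  rw [← h2']
  simp only [map_sum, map_smul, LinearMap.sum_apply, LinearMap.smul_apply, 𝔉.op_der, LinearMap.neg_apply,
    smul_neg, Finset.sum_neg_distrib, Submodule.coe_neg]

/-- **`ρ(Λ) ∂_μ A = Λ^β{}_μ ∂_β ρ(Λ) A`**: follows from `op_cov`, `op_der` and faithfulness; it is not a field of `FieldSystem`. -/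
theorem rho_der (Λ : SL2C) (μ : Fin 4) (A : 𝔉.F) :
    𝔉.rho Λ (𝔉.der μ A) = ∑ β, (lorentz Λ β μ : ℂ) • 𝔉.der β (𝔉.rho Λ A) := by
  refine label_induction 𝔉
    (p := fun A => 𝔉.rho Λ (𝔉.der μ A) = ∑ β, (lorentz Λ β μ : ℂ) • 𝔉.der β (𝔉.rho Λ A)) ?_ ?_ ?_ A
  · intro Δ A hA; exact rho_der_of_mem 𝔉 Λ μ hA
  · simp
  · intro A A' h h'
    simp only [map_add, h, h', smul_add, Finset.sum_add_distrib]

/-! ### 2. The metric is invariant -/

theorem diag_eta_sq : Matrix.diagonal eta * Matrix.diagonal eta = (1 : Matrix (Fin 4) (Fin 4) ℝ) := by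
  rw [Matrix.diagonal_mul_diagonal, ← Matrix.diagonal_one]
  congr 1
  funext i
  unfold eta
  by_cases h : i = 0 <;> simp [h]

/-- `Λ η Λ^T = η` (the transposed form of `Sanity.lorentz_gram`). -/
theorem lorentz_gram' (Λ : SL2C) :
    lorentz Λ * Matrix.diagonal eta * (lorentz Λ).transpose = Matrix.diagonal eta := by
  have h1 : (Matrix.diagonal eta * (lorentz Λ).transpose * Matrix.diagonal eta) * lorentz Λ = 1 := by
    rw [Matrix.mul_assoc, Matrix.mul_assoc, ← Matrix.mul_assoc (lorentz Λ).transpose, Sanity.lorentz_gram, diag_eta_sq]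
  have h2 := _root_.mul_eq_one_comm.1 h1
  calc lorentz Λ * Matrix.diagonal eta * (lorentz Λ).transpose
      = lorentz Λ * (Matrix.diagonal eta * (lorentz Λ).transpose * Matrix.diagonal eta) * Matrix.diagonal eta := by
        simp only [Matrix.mul_assoc, diag_eta_sq, Matrix.mul_one]
    _ = Matrix.diagonal eta := by rw [h2, Matrix.one_mul]

/-- `η^{μμ} Λ^α{}_μ Λ^β{}_μ = η^{αβ}`. -/
theorem sum_eta_upper (Λ : SL2C) (α β : Fin 4) :
    ∑ μ, eta μ * (lorentz Λ α μ * lorentz Λ β μ) = etaM α β := by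
  have h := congrFun (congrFun (lorentz_gram' Λ) α) β
  rw [Matrix.mul_apply] at h
  simp only [Matrix.mul_diagonal, Matrix.transpose_apply, Matrix.diagonal_apply] at h
  unfold etaM
  rw [← h]
  exact Finset.sum_congr rfl fun μ _ => by ring

/-- `η_{αα} Λ^α{}_μ Λ^α{}_ν = η_{μν}`. -/
theorem sum_eta_lower (Λ : SL2C) (μ ν : Fin 4) :
    ∑ α, eta α * (lorentz Λ α μ * lorentz Λ α ν) = etaM μ ν := by
  have h := congrFun (congrFun (Sanity.lorentz_gram Λ) μ) ν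
  rw [Matrix.mul_apply] at h
  simp only [Matrix.mul_diagonal, Matrix.transpose_apply, Matrix.diagonal_apply] at h
  unfold etaM
  rw [← h]
  exact Finset.sum_congr rfl fun α _ => by ring

/-! ### 3. Vectors, tensors and scalars -/

/-- The gradient of a Lorentz scalar is a Lorentz vector. -/
theorem der_vector {L : 𝔉.F} (hL : ∀ Λ, 𝔉.rho Λ L = L) : 𝔉.IsVector fun μ => 𝔉.der μ L := by
  intro Λ μ
  rw [rho_der, hL]

/-- The gradient of a Lorentz vector is a Lorentz tensor. -/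
theorem der_tensor {V : Fin 4 → 𝔉.F} (hV : 𝔉.IsVector V) : 𝔉.IsTensor fun μ ν => 𝔉.der μ (V ν) := by
  intro Λ μ ν
  rw [rho_der, hV]
  refine Finset.sum_congr rfl fun α _ => ?_
  rw [map_sum, Finset.smul_sum]
  refine Finset.sum_congr rfl fun β _ => ?_
  rw [map_smul, smul_smul, Complex.ofReal_mul]

/-- The trace of a Lorentz tensor is a Lorentz scalar. -/
theorem trace_scalar {T : Fin 4 → Fin 4 → 𝔉.F} (hT : 𝔉.IsTensor T) (Λ : SL2C) :
    𝔉.rho Λ (𝔉.trace T) = 𝔉.trace T := by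
  unfold FieldSystem.trace
  rw [map_sum]
  have h1 : ∀ μ, 𝔉.rho Λ ((eta μ : ℂ) • T μ μ) =
      ∑ α, ∑ β, ((eta μ * (lorentz Λ α μ * lorentz Λ β μ) : ℝ) : ℂ) • T α β := by
    intro μ
    rw [map_smul, hT, Finset.smul_sum]
    refine Finset.sum_congr rfl fun α _ => ?_
    rw [Finset.smul_sum]
    refine Finset.sum_congr rfl fun β _ => ?_
    rw [smul_smul, ← Complex.ofReal_mul]
  rw [Finset.sum_congr rfl fun μ _ => h1 μ, Finset.sum_comm]
  refine Finset.sum_congr rfl fun α _ => ?_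
  rw [Finset.sum_comm]
  have h2 : ∀ β, ∑ μ, ((eta μ * (lorentz Λ α μ * lorentz Λ β μ) : ℝ) : ℂ) • T α β = (etaM α β : ℂ) • T α β := by
    intro β
    rw [← Finset.sum_smul, ← Complex.ofReal_sum, sum_eta_upper]
  rw [Finset.sum_congr rfl fun β _ => h2 β, Finset.sum_eq_single α]
  · simp [etaM]
  · intro β _ hβ
    simp [etaM, Ne.symm hβ]
  · intro h; exact absurd (Finset.mem_univ α) h

/-- The divergence of a Lorentz vector is a Lorentz scalar. -/
theorem div_scalar {V : Fin 4 → 𝔉.F} (hV : 𝔉.IsVector V) (Λ : SL2C) : 𝔉.rho Λ (𝔉.div V) = 𝔉.div V :=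
  trace_scalar 𝔉 (der_tensor 𝔉 hV) Λ

/-- `□` of a Lorentz scalar is a Lorentz scalar. -/
theorem box_scalar {L : 𝔉.F} (hL : ∀ Λ, 𝔉.rho Λ L = L) (Λ : SL2C) : 𝔉.rho Λ (𝔉.box L) = 𝔉.box L :=
  div_scalar 𝔉 (der_vector 𝔉 hL) Λ

/-- `η_{μν} X` is a Lorentz tensor if `X` is a Lorentz scalar. -/
theorem eta_tensor {X : 𝔉.F} (hX : ∀ Λ, 𝔉.rho Λ X = X) : 𝔉.IsTensor fun μ ν => (etaM μ ν : ℂ) • X := by
  intro Λ μ ν
  rw [map_smul, hX, ← sum_eta_lower Λ μ ν, Complex.ofReal_sum, Finset.sum_smul]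
  refine Finset.sum_congr rfl fun α _ => ?_
  rw [Finset.sum_eq_single α]
  · rw [smul_smul, ← Complex.ofReal_mul]
    congr 2
    simp only [etaM, if_true]
    ring
  · intro β _ hβ
    simp [etaM, Ne.symm hβ]
  · intro h; exact absurd (Finset.mem_univ α) h

theorem IsTensor.add' {T T' : Fin 4 → Fin 4 → 𝔉.F} (hT : 𝔉.IsTensor T) (hT' : 𝔉.IsTensor T') :
    𝔉.IsTensor fun μ ν => T μ ν + T' μ ν := by
  intro Λ μ ν
  rw [map_add, hT, hT']
  simp only [smul_add, Finset.sum_add_distrib]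

theorem IsTensor.smul' (c : ℂ) {T : Fin 4 → Fin 4 → 𝔉.F} (hT : 𝔉.IsTensor T) :
    𝔉.IsTensor fun μ ν => c • T μ ν := by
  intro Λ μ ν
  rw [map_smul, hT]
  simp only [Finset.smul_sum, smul_comm c]

/-! ### 4. The improved tensor is a Hermitian even Lorentz tensor of dimension four -/

section improvement

variable (𝔊 : FieldSystem B)

theorem improvedWith_tensor (c : ℂ) {T : Fin 4 → Fin 4 → 𝔊.F} (hT : 𝔊.IsTensor T) {L : 𝔊.F}
    (hL : ∀ Λ, 𝔊.rho Λ L = L) : 𝔊.IsTensor (improvedWith 𝔊 c T L) := by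
  have h1 : 𝔊.IsTensor fun μ ν => 𝔊.der μ (𝔊.der ν L) := der_tensor 𝔊 (der_vector 𝔊 hL)
  have h2 : 𝔊.IsTensor fun μ ν => (-1 : ℂ) • ((etaM μ ν : ℂ) • 𝔊.box L) :=
    IsTensor.smul' 𝔊 (-1) (eta_tensor 𝔊 (box_scalar 𝔊 hL))
  have h3 := IsTensor.add' 𝔊 hT (IsTensor.smul' 𝔊 c (IsTensor.add' 𝔊 h1 h2))
  have h4 : improvedWith 𝔊 c T L =
      fun μ ν => T μ ν + c • (𝔊.der μ (𝔊.der ν L) + (-1 : ℂ) • ((etaM μ ν : ℂ) • 𝔊.box L)) := by
    funext μ ν
    unfold improvedWith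
    rw [neg_one_smul, sub_eq_add_neg]
  rw [h4]
  exact h3

theorem box_mem {Δ : ℝ} {L : 𝔊.F} (hL : L ∈ 𝔊.grade Δ) : 𝔊.box L ∈ 𝔊.grade (Δ + 1 + 1) :=
  Submodule.sum_mem _ fun μ _ => Submodule.smul_mem _ _ (𝔊.der_grade μ _ _ (𝔊.der_grade μ _ _ hL))

theorem div_mem {Δ : ℝ} {V : Fin 4 → 𝔊.F} (hV : ∀ μ, V μ ∈ 𝔊.grade Δ) : 𝔊.div V ∈ 𝔊.grade (Δ + 1) :=
  Submodule.sum_mem _ fun μ _ => Submodule.smul_mem _ _ (𝔊.der_grade μ _ _ (hV μ))

theorem adj_div (V : Fin 4 → 𝔊.F) : 𝔊.adj (𝔊.div V) = 𝔊.div fun μ => 𝔊.adj (V μ) := by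
  unfold FieldSystem.div
  rw [map_sum]
  exact Finset.sum_congr rfl fun μ _ => by rw [LinearMap.map_smulₛₗ, adj_der]; simp

theorem par_div (V : Fin 4 → 𝔊.F) : 𝔊.par (𝔊.div V) = 𝔊.div fun μ => 𝔊.par (V μ) := by
  unfold FieldSystem.div
  rw [map_sum]
  exact Finset.sum_congr rfl fun μ _ => by rw [map_smul, par_der]

theorem adj_box (L : 𝔊.F) : 𝔊.adj (𝔊.box L) = 𝔊.box (𝔊.adj L) := by
  have h := adj_div 𝔊 fun μ => 𝔊.der μ L
  simp only [adj_der] at h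
  exact h

theorem par_box (L : 𝔊.F) : 𝔊.par (𝔊.box L) = 𝔊.box (𝔊.par L) := by
  have h := par_div 𝔊 fun μ => 𝔊.der μ L
  simp only [par_der] at h
  exact h

theorem improvedWith_mem (c : ℂ) {T : Fin 4 → Fin 4 → 𝔊.F} (hT : ∀ μ ν, T μ ν ∈ 𝔊.grade 4) {L : 𝔊.F}
    (hL : L ∈ 𝔊.grade 2) (μ ν : Fin 4) : improvedWith 𝔊 c T L μ ν ∈ 𝔊.grade 4 := by
  have e : (2 : ℝ) + 1 + 1 = 4 := by norm_num
  have h1 : 𝔊.der μ (𝔊.der ν L) ∈ 𝔊.grade 4 := by
    rw [← e]; exact 𝔊.der_grade μ _ _ (𝔊.der_grade ν _ _ hL)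
  have h2 : 𝔊.box L ∈ 𝔊.grade 4 := by rw [← e]; exact box_mem 𝔊 hL
  exact Submodule.add_mem _ (hT μ ν)
    (Submodule.smul_mem _ _ (Submodule.sub_mem _ h1 (Submodule.smul_mem _ _ h2)))

theorem adj_improvedWith {c : ℂ} (hc : conj c = c) {T : Fin 4 → Fin 4 → 𝔊.F}
    (hT : ∀ μ ν, 𝔊.adj (T μ ν) = T μ ν) {L : 𝔊.F} (hL : 𝔊.adj L = L) (μ ν : Fin 4) :
    𝔊.adj (improvedWith 𝔊 c T L μ ν) = improvedWith 𝔊 c T L μ ν := by
  unfold improvedWith
  rw [map_add, LinearMap.map_smulₛₗ, map_sub, LinearMap.map_smulₛₗ, adj_der, adj_der, adj_box, hT, hL]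
  simp [hc]

theorem par_improvedWith (c : ℂ) {T : Fin 4 → Fin 4 → 𝔊.F}
    (hT : ∀ μ ν, 𝔊.par (T μ ν) = T μ ν) {L : 𝔊.F} (hL : 𝔊.par L = L) (μ ν : Fin 4) :
    𝔊.par (improvedWith 𝔊 c T L μ ν) = improvedWith 𝔊 c T L μ ν := by
  unfold improvedWith
  rw [map_add, map_smul, map_sub, map_smul, par_der, par_der, par_box, hT, hL]

end improvement

/-! ### 5. In the words of `Conclusion` -/

section clauses

variable {𝔉}
variable (S : StressData 𝔉) {𝔏 : FieldSystem B} (e : Extension 𝔉 𝔏)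

theorem ι_tensor {T : Fin 4 → Fin 4 → 𝔉.F} (hT : 𝔉.IsTensor T) : 𝔏.IsTensor fun μ ν => e.ι (T μ ν) := by
  intro Λ μ ν
  rw [← e.ι_rho, hT, map_sum]
  refine Finset.sum_congr rfl fun α _ => ?_
  rw [map_sum]
  exact Finset.sum_congr rfl fun β _ => by rw [map_smul]

/-- The left side `∂^μ V⁽³⁾_μ` of the clause `∂^μ V⁽³⁾_μ = □ L` is a Hermitian even Lorentz scalar of dimension four. -/
theorem div_V3_props : 𝔉.div S.V3 ∈ 𝔉.grade 4 ∧ 𝔉.adj (𝔉.div S.V3) = 𝔉.div S.V3 ∧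
    𝔉.par (𝔉.div S.V3) = 𝔉.div S.V3 ∧ ∀ Λ, 𝔉.rho Λ (𝔉.div S.V3) = 𝔉.div S.V3 := by
  refine ⟨?_, ?_, ?_, div_scalar 𝔉 (V3_vector S)⟩
  · have e : (3 : ℝ) + 1 = 4 := by norm_num
    rw [← e]; exact div_mem 𝔉 (V3_mem S)
  · rw [adj_div]; simp only [adj_V3]
  · rw [par_div]; simp only [par_V3]

/-- So is the right side, by the four clauses of `Conclusion` on `L`: the clause equates two objects of the same kind. -/
theorem box_props {L : 𝔏.F} (h2 : L ∈ 𝔏.grade 2) (ha : 𝔏.adj L = L) (hp : 𝔏.par L = L)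
    (hr : ∀ Λ, 𝔏.rho Λ L = L) : 𝔏.box L ∈ 𝔏.grade 4 ∧ 𝔏.adj (𝔏.box L) = 𝔏.box L ∧
    𝔏.par (𝔏.box L) = 𝔏.box L ∧ ∀ Λ, 𝔏.rho Λ (𝔏.box L) = 𝔏.box L := by
  refine ⟨?_, ?_, ?_, box_scalar 𝔏 hr⟩
  · have e : (2 : ℝ) + 1 + 1 = 4 := by norm_num
    rw [← e]; exact box_mem 𝔏 h2
  · rw [adj_box, ha]
  · rw [par_box, hp]

/-- **The improved tensor of `Conclusion` is again a stress tensor kinematically**: by the four clauses of `Conclusion` on `L`
(dimension two, Hermitian, Bose, scalar) `t = T⁽⁴⁾ + (1/3)(∂∂ - η□)L` is a Lorentz tensor, of dimension four, Hermitian and even. -/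
theorem improved_props {L : 𝔏.F} (h2 : L ∈ 𝔏.grade 2) (ha : 𝔏.adj L = L) (hp : 𝔏.par L = L)
    (hr : ∀ Λ, 𝔏.rho Λ L = L) :
    𝔏.IsTensor (improved 𝔏 (fun μ ν => e.ι (S.T4 μ ν)) L) ∧
    (∀ μ ν, improved 𝔏 (fun μ ν => e.ι (S.T4 μ ν)) L μ ν ∈ 𝔏.grade 4) ∧
    (∀ μ ν, 𝔏.adj (improved 𝔏 (fun μ ν => e.ι (S.T4 μ ν)) L μ ν) = improved 𝔏 (fun μ ν => e.ι (S.T4 μ ν)) L μ ν) ∧
    (∀ μ ν, 𝔏.par (improved 𝔏 (fun μ ν => e.ι (S.T4 μ ν)) L μ ν) = improved 𝔏 (fun μ ν => e.ι (S.T4 μ ν)) L μ ν) := by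
  have hc : conj (1 / 3 : ℂ) = 1 / 3 := by
    have h : (1 / 3 : ℂ) = ((1 / 3 : ℝ) : ℂ) := by push_cast; rfl
    rw [h, Complex.conj_ofReal]
  rw [improved_eq]
  refine ⟨improvedWith_tensor 𝔏 _ (ι_tensor e (T4_tensor S)) hr,
    improvedWith_mem 𝔏 _ (fun μ ν => e.ι_grade 4 _ (T4_mem S μ ν)) h2,
    adj_improvedWith 𝔏 hc (fun μ ν => by rw [← e.ι_adj, adj_T4]) ha,
    par_improvedWith 𝔏 _ (fun μ ν => by rw [← e.ι_par, par_T4]) hp⟩

end clauses

end SanityLorentz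
end Claimed.Open.R282
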