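import Claimed.Open.R282.Sanity

/-!
# Result 282: the operator-level definitions of `Statement.lean` have examples and non-examples

`Sanity.lean` gives the vacuum theory on a one-dimensional Hilbert space.  There every operator is a
scalar, so that it cannot tell whether `AffiliatedWith`, `SpectrumCondition` and `FieldSystem.Cyclic` exclude
anything.  This file checks that they do.

* Section A, `AffiliatedWith`: for a bounded operator it is the bicommutant condition `T ∈ 𝓜''`
  (`affiliatedWith_bdd_iff`); example `affiliatedWith_bdd_of_mem`; non-example `not_affiliatedWith_scalars`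
  (the projection `diag(1,0)` of `ℂ²` is not affiliated with `ℂ·1`).
* Section B, `SpectrumCondition`: the translations `a ↦ e^{i p·a}` on `ℂ` (one state of momentum `p`) satisfy it
  if and only if `p` lies in the closed forward cone (`spectrumCondition_charU_iff`).  The non-example uses
  Fourier inversion on Schwartz space: a Schwartz function whose transform is a bump at `p` supported off the cone.
* Section C: a family of models of `Background` and `FieldSystem` on an arbitrary Hilbert space `H`: trivial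
  representation, one Hermitian `x`-independent field `A(f) = (∫ f) m` of dimension `0` with `m = m^*` bounded,
  constant abelian net `{m}''`, `T = V = 0` (`constB`, `constSys`, `constStress`).  This is the second model
  described in `CLAIM.md`.  Its `𝓓_fact` is the cyclic subspace of `m` generated by `Ω` (`constSys_Dfact`).
* Section D, `H = ℂ²`, `m = diag(1,0)`: with `Ω = (3/5, 4/5)` ALL hypotheses of `Statement` hold, in a Hilbert space of
  dimension two and with a non-unique invariant vector (`hypotheses_can_be_met_C2`; "uniqueness of the invariant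
  vector is not assumed", Assumption 2.1); with `Ω = (1, 0)` everything holds except cyclicity
  (`twoSys_not_cyclic`), so `Cyclic` is a genuine hypothesis.
-/

open scoped Distributions ContDiff InnerProductSpace ComplexConjugate Topology SchwartzMap FourierTransform
open scoped LinearPMap
open TopologicalSpace MeasureTheory

noncomputable section

namespace Claimed.Open.R282
namespace SanityOps

open Sanity

/-! ## A. Affiliation -/

section affiliation

variable {H : Type} [NormedAddCommGroup H] [InnerProductSpace ℂ H]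

/-- A bounded operator as an everywhere defined `LinearPMap`. -/
def bdd (T : H →L[ℂ] H) : H →ₗ.[ℂ] H := ⟨⊤, (T : H →ₗ[ℂ] H) ∘ₗ (⊤ : Submodule ℂ H).subtype⟩

lemma bdd_apply (T : H →L[ℂ] H) (ψ : (bdd T).domain) : bdd T ψ = T ψ := rfl

/-- For bounded operators affiliation is the bicommutant condition `T ∈ 𝓜''`. -/
theorem affiliatedWith_bdd_iff (T : H →L[ℂ] H) (𝓜 : Set (H →L[ℂ] H)) :
    AffiliatedWith (bdd T) 𝓜 ↔ T ∈ Set.centralizer (Set.centralizer 𝓜) := by
  constructor
  · intro h C hC
    ext ψ
    obtain ⟨_, h2⟩ := h C hC ⟨ψ, trivial⟩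
    exact h2.symm
  · intro h C hC ψ
    refine ⟨trivial, ?_⟩
    have := congrArg (fun X : H →L[ℂ] H => X ψ) (h C hC)
    exact this.symm

theorem affiliatedWith_bdd_of_mem {T : H →L[ℂ] H} {𝓜 : Set (H →L[ℂ] H)} (h : T ∈ 𝓜) :
    AffiliatedWith (bdd T) 𝓜 :=
  (affiliatedWith_bdd_iff T 𝓜).mpr (Set.subset_centralizer_centralizer h)

lemma bdd_isClosed (T : H →L[ℂ] H) : (bdd T).IsClosed := by
  have : ((bdd T).graph : Set (H × H)) = {p | p.2 = T p.1} := by
    ext p
    simp only [SetLike.mem_coe, LinearPMap.mem_graph_iff, Set.mem_ofPred_eq]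
    constructor
    · rintro ⟨y, hy, h2⟩
      rw [← h2, ← hy]; rfl
    · intro h
      exact ⟨⟨p.1, trivial⟩, rfl, h.symm⟩
  unfold LinearPMap.IsClosed
  rw [this]
  exact isClosed_eq continuous_snd (T.continuous.comp continuous_fst)

end affiliation

/-! ## B. The spectrum condition -/

/-- The translations represented on `ℂ` by the character `a ↦ e^{i p·a}` ("one state of momentum `p`"). -/
def charU (p : M4) (a : M4) : ℂ →L[ℂ] ℂ :=
  Complex.exp (Complex.I * (mink p a : ℂ)) • (1 : ℂ →L[ℂ] ℂ)

/-- Example: momenta in the closed forward cone satisfy `SpectrumCondition`. -/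
theorem spectrumCondition_charU {p : M4} (hp : p ∈ closedCone) : SpectrumCondition (charU p) := by
  intro f hf φ ψ
  have h := hf p hp
  have h2 : ∀ a, f a * ⟪φ, charU p a ψ⟫_ℂ
      = (f a * Complex.exp (Complex.I * (mink p a : ℂ))) * ⟪φ, ψ⟫_ℂ := by
    intro a
    simp only [charU, smul_apply, one_apply_eq_self, inner_smul_right]
    ring
  simp_rw [h2]
  rw [integral_mul_const, h, zero_mul]

/-- Euclidean `ℝ⁴`, on which Mathlib's Fourier transform lives. -/
abbrev E4 : Type := EuclideanSpace ℝ (Fin 4)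

/-- The frequency `w` of the momentum `q`: `q·a = - 2π ⟨a, w⟩`. -/
def freq (q : M4) : E4 := WithLp.toLp 2 fun μ => -(eta μ * q μ) / (2 * Real.pi)

/-- The momentum of a frequency. -/
def mom (w : E4) : M4 := fun μ => -(2 * Real.pi) * (eta μ * w μ)

lemma eta_mul_eta (μ : Fin 4) : eta μ * eta μ = 1 := by
  unfold eta; split_ifs <;> norm_num

lemma mom_freq (q : M4) : mom (freq q) = q := by
  funext μ
  have hpi : (2 * Real.pi) ≠ 0 := by positivity
  simp only [mom, freq]
  field_simp
  linear_combination (q μ) * eta_mul_eta μ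

lemma continuous_mom : Continuous mom := by
  unfold mom
  fun_prop

lemma isClosed_closedCone : IsClosed closedCone := by
  have h1 : IsClosed {p : M4 | 0 ≤ p 0} := isClosed_le continuous_const (continuous_apply 0)
  have h2 : IsClosed {p : M4 | 0 ≤ mink p p} := by
    refine isClosed_le continuous_const ?_
    unfold mink
    fun_prop
  exact h1.inter h2

lemma mink_ofLp (q : M4) (v : E4) :
    mink q (WithLp.ofLp v) = -(2 * Real.pi) * ⟪v, freq q⟫_ℝ := by
  have hpi : (2 * Real.pi) ≠ 0 := by positivity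
  simp only [mink, freq, PiLp.inner_apply, Fin.sum_univ_four]
  simp
  field_simp
  ring

/-- Transport of a Schwartz function from Euclidean `ℝ⁴` to `M4 = Fin 4 → ℝ`. -/
def pull (g : 𝓢(E4, ℂ)) : 𝓢(M4, ℂ) :=
  SchwartzMap.compCLMOfContinuousLinearEquiv ℂ (EuclideanSpace.equiv (Fin 4) ℝ).symm g

lemma pull_apply (g : 𝓢(E4, ℂ)) (a : M4) : pull g a = g (WithLp.toLp 2 a) := rfl

/-- The transform `∫ f(a) e^{i q·a} da` of `SpectrumCondition` is Mathlib's Fourier transform at the
frequency of `q`. -/
lemma integral_pull (g : 𝓢(E4, ℂ)) (q : M4) :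
    ∫ a, pull g a * Complex.exp (Complex.I * (mink q a : ℂ)) = (𝓕 g) (freq q) := by
  rw [SchwartzMap.fourier_coe, Real.fourier_eq]
  have hmp := PiLp.volume_preserving_toLp (Fin 4)
  have hme : MeasurableEmbedding (WithLp.toLp 2 : M4 → E4) :=
    (MeasurableEquiv.toLp 2 (Fin 4 → ℝ)).measurableEmbedding
  rw [← hmp.integral_comp hme]
  refine integral_congr_ae (Filter.Eventually.of_forall fun a => ?_)
  simp only [pull_apply]
  have h := mink_ofLp q (WithLp.toLp 2 a)
  rw [h, Circle.smul_def, Real.fourierChar_apply, smul_eq_mul, mul_comm]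
  congr 2
  push_cast
  ring

/-- Non-example: a momentum outside the closed forward cone violates `SpectrumCondition`. -/
theorem not_spectrumCondition_charU {p : M4} (hp : p ∉ closedCone) : ¬ SpectrumCondition (charU p) := by
  intro hS
  -- a ball around the frequency of `p` that misses the frequencies of the cone
  have hopen : IsOpen (mom ⁻¹' closedCone)ᶜ := (isClosed_closedCone.preimage continuous_mom).isOpen_compl
  have hmem : freq p ∈ (mom ⁻¹' closedCone)ᶜ := by
    simpa [mom_freq] using hp
  obtain ⟨r, hr, hball⟩ := Metric.isOpen_iff.mp hopen _ hmem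
  let b : ContDiffBump (freq p) := ⟨r / 2, r, by positivity, by linarith⟩
  have hbc : HasCompactSupport fun w : E4 => (b w : ℂ) :=
    b.hasCompactSupport.comp_left (g := fun t : ℝ => (t : ℂ)) (by simp)
  have hbs : ContDiff ℝ ∞ fun w : E4 => (b w : ℂ) := Complex.ofRealCLM.contDiff.comp b.contDiff
  let β : 𝓢(E4, ℂ) := hbc.toSchwartzMap hbs
  have hβ : ∀ w, β w = (b w : ℂ) := fun _ => rfl
  have hF : 𝓕 (𝓕⁻ β) = β := FourierInvPair.fourier_fourierInv_eq β
  have key : ∀ q, ∫ a, pull (𝓕⁻ β) a * Complex.exp (Complex.I * (mink q a : ℂ)) = (b (freq q) : ℂ) := by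
    intro q
    rw [integral_pull, hF, hβ]
  have hzero : ∀ q ∈ closedCone,
      ∫ a, pull (𝓕⁻ β) a * Complex.exp (Complex.I * (mink q a : ℂ)) = 0 := by
    intro q hq
    rw [key]
    have : freq q ∉ Metric.ball (freq p) r := fun h => hball h (by simpa [mom_freq] using hq)
    have h0 : b (freq q) = 0 := by
      have := b.support_eq
      by_contra hne
      exact ‹freq q ∉ Metric.ball (freq p) r› (this ▸ (Function.mem_support.mpr hne))
    simp [h0]
  have h1 := hS (pull (𝓕⁻ β)) hzero 1 1
  have h2 : ∀ a, pull (𝓕⁻ β) a * ⟪(1 : ℂ), charU p a 1⟫_ℂ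
      = pull (𝓕⁻ β) a * Complex.exp (Complex.I * (mink p a : ℂ)) := by
    intro a
    simp [charU]
  simp_rw [h2] at h1
  rw [key] at h1
  have : b (freq p) = 1 := b.one_of_mem_closedBall (by simp [b]; positivity)
  simp [this] at h1

/-- `SpectrumCondition` for one state of momentum `p` says exactly that `p` is in the closed forward cone. -/
theorem spectrumCondition_charU_iff (p : M4) : SpectrumCondition (charU p) ↔ p ∈ closedCone :=
  ⟨fun h => by_contra fun hp => not_spectrumCondition_charU hp h, spectrumCondition_charU⟩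

/-! ## C. Constant commuting fields -/

section const

set_option linter.unusedSectionVars false

variable {H : Type} [NormedAddCommGroup H] [InnerProductSpace ℂ H] [CompleteSpace H]

/-- The commutant of a set of operators and of their adjoints, as a von Neumann algebra. -/
def commVN (S : Set (H →L[ℂ] H)) : VonNeumannAlgebra H where
  toStarSubalgebra := StarSubalgebra.centralizer ℂ S
  centralizer_centralizer' := Set.centralizer_centralizer_centralizer _

/-- The von Neumann algebra `{m, m^*}''` generated by `m`. -/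
def genVN (m : H →L[ℂ] H) : VonNeumannAlgebra H := (commVN {m}).commutant

lemma mem_commVN {S : Set (H →L[ℂ] H)} {x : H →L[ℂ] H} :
    x ∈ commVN S ↔ ∀ b ∈ S, b * x = x * b ∧ star b * x = x * star b :=
  StarSubalgebra.mem_centralizer_iff ℂ

lemma mem_genVN {m x : H →L[ℂ] H} : x ∈ genVN m ↔ ∀ y ∈ commVN {m}, y * x = x * y :=
  VonNeumannAlgebra.mem_commutant_iff

lemma self_mem_genVN (m : H →L[ℂ] H) : m ∈ genVN m := by
  rw [mem_genVN]
  intro y hy
  exact ((mem_commVN.mp hy) m rfl).1.symm

lemma genVN_le_commVN {m : H →L[ℂ] H} (hm : star m = m) {x : H →L[ℂ] H} (hx : x ∈ genVN m) :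
    x ∈ commVN {m} := by
  rw [mem_commVN]
  rintro b rfl
  have hb : b ∈ commVN {b} := by
    rw [mem_commVN]; rintro c rfl; simp [hm]
  have := (mem_genVN.mp hx) b hb
  simp [hm, this]

lemma genVN_comm {m : H →L[ℂ] H} (hm : star m = m) {x y : H →L[ℂ] H} (hx : x ∈ genVN m)
    (hy : y ∈ genVN m) : x * y = y * x :=
  (mem_genVN.mp hy) x (genVN_le_commVN hm hx)

/-- The background of the constant-field model: trivial representation, constant abelian net `{m}''`. -/
def constB (Ω : H) (hΩ : ‖Ω‖ = 1) (m : H →L[ℂ] H) (hm : star m = m) : Background H where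
  Ω := Ω
  norm_Ω := hΩ
  U := fun _ => 1
  U_unitary := fun _ => one_mem _
  U_one := rfl
  U_mul := fun _ _ => by simp
  U_cont := fun ψ => continuous_const
  U_Ω := fun _ => by simp
  spectrum := by
    intro f hf φ ψ
    have h0 : (0 : M4) ∈ closedCone := by simp [closedCone, mink]
    have := hf 0 h0
    simp only [mink, Pi.zero_apply, mul_zero, zero_mul, Finset.sum_const_zero, Complex.ofReal_zero,
      Complex.exp_zero, mul_one] at this
    simp only [one_apply_eq_self]
    rw [MeasureTheory.integral_mul_const, this, zero_mul]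
  Γ := 1
  Γ_sq := by simp
  Γ_sa := by simp
  Γ_Ω := by simp
  Γ_U := fun _ => by simp
  net := fun _ => genVN m
  net_mono := fun _ _ _ _ _ x h => h
  net_cov := fun _ _ _ x => by simp
  net_Γ := fun _ _ x h => by simpa using h
  net_local := fun _ _ _ _ _ x hx y hy => by
    have hZ : (((1 + Complex.I)⁻¹ : ℂ) • ((1 : H →L[ℂ] H) + Complex.I • (1 : H →L[ℂ] H)))
        = 1 := by
      have h1 : (1 + Complex.I) ≠ 0 := by
        intro h
        have := congrArg Complex.re h
        simp at this
      have h2 : (1 : H →L[ℂ] H) + Complex.I • (1 : H →L[ℂ] H) = (1 + Complex.I) • (1 : H →L[ℂ] H) := by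
        rw [add_smul, one_smul]
      rw [h2, smul_smul, inv_mul_cancel₀ h1, one_smul]
    simp only [hZ, star_one, one_mul, mul_one]
    exact genVN_comm hm hx hy

/-- `m` as an endomorphism of the domain `⊤`. -/
def mEnd (m : H →L[ℂ] H) : Module.End ℂ (⊤ : Submodule ℂ H) :=
  LinearMap.codRestrict ⊤ ((m : H →ₗ[ℂ] H) ∘ₗ (⊤ : Submodule ℂ H).subtype) (fun _ => trivial)

lemma mEnd_apply (m : H →L[ℂ] H) (ψ : (⊤ : Submodule ℂ H)) :
    ((mEnd m ψ : (⊤ : Submodule ℂ H)) : H) = m ψ := rfl

lemma mEnd_pow_apply (m : H →L[ℂ] H) (n : ℕ) (ψ : (⊤ : Submodule ℂ H)) :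
    (((mEnd m ^ n) ψ : (⊤ : Submodule ℂ H)) : H) = (m ^ n) ψ := by
  induction n generalizing ψ with
  | zero => simp
  | succ n ih =>
    rw [pow_succ, pow_succ, Module.End.mul_apply, ih]
    rfl

lemma mEnd_ne_zero {m : H →L[ℂ] H} (hm0 : m ≠ 0) : mEnd m ≠ 0 := by
  intro h
  apply hm0
  ext ψ
  have := congrArg (fun X : Module.End ℂ (⊤ : Submodule ℂ H) => ((X ⟨ψ, trivial⟩ : (⊤ : Submodule ℂ H)) : H)) h
  simpa [mEnd_apply] using this

/-- `c · A(f) = c (∫ f) m`. -/
def constOp (m : H →L[ℂ] H) : ℂ →ₗ[ℂ] Test →ₗ[ℂ] Module.End ℂ (⊤ : Submodule ℂ H) :=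
  LinearMap.mk₂ ℂ (fun c f => (c * intL f) • mEnd m)
    (by intros; simp [add_mul, add_smul]) (by intros; simp [mul_assoc, mul_smul])
    (by intros; simp [mul_add, add_smul]) (by intros; simp [mul_smul, mul_left_comm])

lemma constOp_apply (m : H →L[ℂ] H) (c : ℂ) (f : Test) :
    constOp m c f = (c * intL f) • mEnd m := rfl

lemma prod_ofFn_smul {R : Type*} [Ring R] [Algebra ℂ R] (x : R) {n : ℕ} (a : Fin n → ℂ) :
    (List.ofFn fun i => a i • x).prod = (∏ i, a i) • x ^ n := by
  induction n with
  | zero => simp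
  | succ n ih =>
    rw [List.ofFn_succ, List.prod_cons, ih, Fin.prod_univ_succ, smul_mul_smul_comm, pow_succ']

lemma inner_selfAdjoint {m : H →L[ℂ] H} (hm : star m = m) (φ ψ : H) : ⟪m φ, ψ⟫_ℂ = ⟪φ, m ψ⟫_ℂ := by
  rw [← ContinuousLinearMap.adjoint_inner_right, ← ContinuousLinearMap.star_eq_adjoint, hm]

/-- One Hermitian `x`-independent field `A(f) = (∫ f) m` of dimension `0`, `m = m^*` bounded. -/
def constSys (Ω : H) (hΩ : ‖Ω‖ = 1) (m : H →L[ℂ] H) (hm : star m = m) (hm0 : m ≠ 0) :
    FieldSystem (constB Ω hΩ m hm) where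
  F := ℂ
  grade := idGrade
  grade_internal := idGrade_internal
  grade_finite := fun Δ => inferInstance
  spec_bddBelow := ⟨0, by
    intro Δ hΔ
    by_contra h
    have : Δ ≠ 0 := fun h0 => h (by simp [h0])
    exact hΔ (by simp [idGrade, this])⟩
  spec_locFinite := fun a b => by
    refine (Set.finite_singleton (0 : ℝ)).subset ?_
    intro Δ hΔ
    by_contra h
    exact hΔ.1 (by simp [idGrade, show Δ ≠ 0 from h])
  adj := { toFun := starRingEnd ℂ, map_add' := map_add _, map_smul' := fun c x => by simp }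
  adj_adj := fun A => by simp
  adj_grade := fun Δ A hA => by
    by_cases h : Δ = 0
    · simp [idGrade, h]
    · simp only [idGrade, h, if_false, Submodule.mem_bot] at hA ⊢
      simp [hA]
  der := fun _ => 0
  der_grade := fun _ _ _ _ => by simp
  rho := 1
  rho_grade := fun _ _ A hA => by simpa using hA
  rho_adj := fun _ _ => rfl
  par := LinearMap.id
  par_par := fun _ => rfl
  par_grade := fun _ _ h => h
  par_rho := fun _ _ => rfl
  domain := ⊤
  domain_dense := by simp
  Ω_mem := trivial
  U_mem := fun _ _ _ => trivial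
  Γ_mem := fun _ _ => trivial
  op := constOp m
  faithful := fun A hA => by
    obtain ⟨f, hf⟩ := exists_intL_ne_zero
    have h := hA f
    rw [constOp_apply, smul_eq_zero] at h
    rcases h with h | h
    · exact (mul_eq_zero.mp h).resolve_right hf
    · exact absurd h (mEnd_ne_zero hm0)
  op_adj := fun A f φ ψ => by
    simp only [constOp_apply, LinearMap.smul_apply, Submodule.coe_smul, mEnd_apply, inner_smul_left,
      inner_smul_right, inner_selfAdjoint hm, LinearMap.coe_mk, AddHom.coe_mk, intL_conj, map_mul,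
      Complex.conj_conj]
  op_der := fun μ A f => by simp [constOp_apply, intL_pd]
  op_cov := fun g Δ A hA f f' hff' ψ => by
    by_cases h : Δ = 0
    · subst h
      have h1 : intL f = (Real.exp (-(4 * g.s)) : ℂ) * intL f' := by
        rw [intL_apply, intL_apply, ← integral_comp_act g f' f'.continuous]
        simp only [hff']
      simp only [constOp_apply, h1]
      simp only [constB, one_apply_eq_self, LinearMap.smul_apply, Submodule.coe_smul, mEnd_apply,
        MonoidHom.one_apply, Module.End.one_apply, smul_smul]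
      congr 1
      ring_nf
    · simp only [idGrade, h, if_false, Submodule.mem_bot] at hA
      subst hA
      simp
  op_Γ := fun A f ψ => rfl
  joint := fun n A φ ψ => by
    refine ⟨((∏ i, A i) * ⟪(φ : H), (m ^ n) (ψ : H)⟫_ℂ) • intJ n, fun f h hh => ?_⟩
    have h1 : ∫ x, h x = ∏ i, intL (f i) := by
      simp only [hh, intL_apply]
      exact integral_fintype_prod_eq_prod (fun i x => f i x)
    simp only [constOp_apply]
    rw [prod_ofFn_smul (mEnd m) (fun i => A i * intL (f i))]
    simp only [smul_apply, intJ_apply, h1, LinearMap.smul_apply, Submodule.coe_smul, mEnd_pow_apply,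
      inner_smul_right, Finset.prod_mul_distrib, smul_eq_mul]
    ring
  op_local := fun A A' f f' _ => by
    constructor
    · intro _
      simp only [constOp_apply, smul_mul_smul_comm]
      rw [mul_comm]
    · intro hA _
      have : A = 0 := by
        have : A = -A := hA
        have h2 : (2 : ℂ) * A = 0 := by linear_combination this
        simpa using h2
      subst this; simp
  affiliated := fun A f O _ _ => by
    refine ⟨bdd ((A * intL f) • m), bdd_isClosed _, ⟨le_refl _, fun x y hxy => ?_⟩, ?_, ?_⟩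
    · have : x = y := Subtype.ext hxy
      subst this
      rfl
    · apply LinearPMap.IsFormalAdjoint.le_adjoint (by simp [bdd])
      intro x y
      change ⟪((A * intL f) • m) (x : H), (y : H)⟫_ℂ
        = ⟪(x : H), ((constOp m ((starRingEnd ℂ) A) (conjT f) y : (⊤ : Submodule ℂ H)) : H)⟫_ℂ
      simp only [constOp_apply, LinearMap.smul_apply, Submodule.coe_smul, mEnd_apply, inner_smul_left,
        inner_smul_right, inner_selfAdjoint hm, intL_conj, map_mul, smul_apply]
    · exact affiliatedWith_bdd_of_mem ((genVN m).smul_mem (self_mem_genVN m) _)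

section props

variable (Ω : H) (hΩ : ‖Ω‖ = 1) (m : H →L[ℂ] H) (hm : star m = m) (hm0 : m ≠ 0)

lemma constSys_word {n : ℕ} (A : Fin n → ℂ) (f : Fin n → Test) :
    (((constSys Ω hΩ m hm hm0).word A f (constSys Ω hΩ m hm hm0).vac :
      (constSys Ω hΩ m hm hm0).domain) : H) = (∏ i, A i * intL (f i)) • (m ^ n) Ω := by
  change ((((List.ofFn fun i => constOp m (A i) (f i)).prod
    (⟨Ω, trivial⟩ : (⊤ : Submodule ℂ H)) : (⊤ : Submodule ℂ H))) : H) = _
  simp only [constOp_apply]
  rw [prod_ofFn_smul (mEnd m) (fun i => A i * intL (f i))]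
  simp only [LinearMap.smul_apply, Submodule.coe_smul, mEnd_pow_apply]

/-- `𝓓_fact` of the model is the cyclic subspace of `m` generated by `Ω`. -/
theorem constSys_Dfact :
    (constSys Ω hΩ m hm hm0).Dfact = Submodule.span ℂ (Set.range fun n : ℕ => (m ^ n) Ω) := by
  apply le_antisymm
  · refine Submodule.span_le.mpr ?_
    rintro v ⟨n, A, f, rfl⟩
    have h := constSys_word Ω hΩ m hm hm0 A f
    rw [SetLike.mem_coe, h]
    exact Submodule.smul_mem _ _ (Submodule.subset_span ⟨n, rfl⟩)
  · refine Submodule.span_le.mpr ?_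
    rintro _ ⟨n, rfl⟩
    obtain ⟨f, hf⟩ := exists_intL_ne_zero
    have h1 : (∏ _i : Fin n, (1 : ℂ) * intL f) • (m ^ n) Ω ∈ (constSys Ω hΩ m hm hm0).Dfact :=
      Submodule.subset_span ⟨n, fun _ => (1 : ℂ), fun _ => f,
        (constSys_word Ω hΩ m hm hm0 (fun _ => (1 : ℂ)) (fun _ => f)).symm⟩
    have h2 : (∏ _i : Fin n, (1 : ℂ) * intL f) ≠ 0 := by simp [hf]
    have h3 := Submodule.smul_mem _ (∏ _i : Fin n, (1 : ℂ) * intL f)⁻¹ h1
    rwa [smul_smul, inv_mul_cancel₀ h2, one_smul] at h3

/-- The (vanishing) stress tensor and virial field of the model: nothing moves, so the affine Ward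
identities hold with `T = V = 0`. -/
def constStress : StressData (constSys Ω hΩ m hm hm0) where
  T := fun _ _ => 0
  V := fun _ => 0
  T_tensor := fun _ _ _ => by simp
  V_vector := fun _ _ => by simp
  T_symm := fun _ _ => rfl
  T_cons := fun _ => by simp [FieldSystem.div]
  trace_eq := by simp [FieldSystem.trace, FieldSystem.div]
  ward := by
    intro γ c M κ _ K F _ P _ φ ψ
    have hU : ∀ (g : Sim) (χ : (constSys Ω hΩ m hm hm0).domain),
        (constSys Ω hΩ m hm hm0).Uact g χ = χ := fun _ _ => Subtype.ext rfl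
    simp only [hU, FieldSystem.charge, FieldSystem.flux, FieldSystem.comm, map_zero,
      LinearMap.zero_apply, smul_zero, Finset.sum_const_zero, sub_zero, zero_mul, mul_zero,
      ZeroMemClass.coe_zero, inner_zero_right]
    exact hasDerivAt_const _ _

/-- Non-example for `Cyclic`: a non-zero vector orthogonal to all `mⁿ Ω`. -/
theorem constSys_not_cyclic {v : H} (hv : v ≠ 0) (h : ∀ n : ℕ, ⟪v, (m ^ n) Ω⟫_ℂ = 0) :
    ¬ (constSys Ω hΩ m hm hm0).Cyclic := by
  intro hc
  rw [FieldSystem.Cyclic, constSys_Dfact] at hc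
  refine hv (hc.eq_zero_of_inner_left ℂ fun w hw => ?_)
  rw [SetLike.mem_coe] at hw
  induction hw using Submodule.span_induction with
  | mem x hx => obtain ⟨n, rfl⟩ := hx; exact h n
  | zero => simp
  | add x y _ _ hx hy => simp [inner_add_right, hx, hy]
  | smul a x _ hx => simp [inner_smul_right, hx]

end props

end const

/-! ## D. The model on `ℂ²` -/

abbrev C2 : Type := EuclideanSpace ℂ (Fin 2)

/-- The projection `diag(1,0)` on `ℂ²`. -/
def proj0 : C2 →L[ℂ] C2 := Matrix.toEuclideanCLM (𝕜 := ℂ) !![1, 0; 0, 0]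

lemma proj0_toLp (x : Fin 2 → ℂ) : proj0 (WithLp.toLp 2 x) = WithLp.toLp 2 ![x 0, 0] := by
  rw [proj0, Matrix.toEuclideanCLM_toLp]
  congr 1
  funext i
  fin_cases i <;> simp [Matrix.mulVec, dotProduct, Fin.sum_univ_two]

lemma star_proj0 : star proj0 = proj0 := by
  rw [proj0, ← map_star]
  congr 1
  ext i j
  fin_cases i <;> fin_cases j <;> simp

lemma proj0_ne_zero : proj0 ≠ 0 := by
  intro h
  have h2 := congrArg (fun X : C2 →L[ℂ] C2 => WithLp.ofLp (X (WithLp.toLp 2 ![1, 0])) 0) h
  simp [proj0_toLp] at h2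

lemma proj0_pow_toLp (n : ℕ) (x : Fin 2 → ℂ) :
    (proj0 ^ (n + 1)) (WithLp.toLp 2 x) = WithLp.toLp 2 ![x 0, 0] := by
  induction n with
  | zero => simp [proj0_toLp]
  | succ n ih =>
    rw [pow_succ', mul_apply_eq_comp, ih, proj0_toLp]
    simp

/-- A unit vector that is cyclic for `diag(1,0)`. -/
def Ωc : C2 := WithLp.toLp 2 ![3 / 5, 4 / 5]

lemma norm_Ωc : ‖Ωc‖ = 1 := by
  rw [EuclideanSpace.norm_eq, Real.sqrt_eq_one]
  simp [Ωc, Fin.sum_univ_two]
  norm_num

/-- A unit vector that is not cyclic for `diag(1,0)`. -/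
def Ωn : C2 := WithLp.toLp 2 ![1, 0]

lemma norm_Ωn : ‖Ωn‖ = 1 := by
  rw [EuclideanSpace.norm_eq, Real.sqrt_eq_one]
  simp [Ωn, Fin.sum_univ_two]

/-- The flip on `ℂ²`. -/
def flip2 : C2 →L[ℂ] C2 := Matrix.toEuclideanCLM (𝕜 := ℂ) !![0, 1; 1, 0]

lemma proj0_flip2_ne : flip2 * proj0 ≠ proj0 * flip2 := by
  intro h
  have h2 := congrArg (fun X : C2 →L[ℂ] C2 => WithLp.ofLp (X (WithLp.toLp 2 ![1, 0])) 1) h
  simp [proj0, flip2, Matrix.toEuclideanCLM_toLp, dotProduct, Fin.sum_univ_two] at h2

/-- Non-example for `AffiliatedWith`: the projection `diag(1,0)` is not affiliated with the scalars `ℂ·1`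
(whose commutant contains the flip). -/
theorem not_affiliatedWith_scalars :
    ¬ AffiliatedWith (bdd proj0) (Set.range fun c : ℂ => c • (1 : C2 →L[ℂ] C2)) := by
  intro h
  rw [affiliatedWith_bdd_iff] at h
  refine proj0_flip2_ne (h flip2 ?_)
  rintro _ ⟨c, rfl⟩
  simp

/-- ... while it is affiliated with the von Neumann algebra `{diag(1,0)}''` of the model below. -/
theorem affiliatedWith_genVN : AffiliatedWith (bdd proj0) (genVN proj0 : Set (C2 →L[ℂ] C2)) :=
  affiliatedWith_bdd_of_mem (self_mem_genVN proj0)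

/-- The model on `ℂ²` with the cyclic vacuum `(3/5, 4/5)`. -/
def twoSys : FieldSystem (constB Ωc norm_Ωc proj0 star_proj0) :=
  constSys Ωc norm_Ωc proj0 star_proj0 proj0_ne_zero

theorem twoSys_cyclic : twoSys.Cyclic := by
  have h : twoSys.Dfact = ⊤ := by
    rw [twoSys, constSys_Dfact, eq_top_iff]
    intro v _
    have h0 : Ωc ∈ Submodule.span ℂ (Set.range fun n : ℕ => (proj0 ^ n) Ωc) :=
      Submodule.subset_span ⟨0, by simp⟩
    have h1 : (WithLp.toLp 2 ![3 / 5, 0] : C2) ∈
        Submodule.span ℂ (Set.range fun n : ℕ => (proj0 ^ n) Ωc) :=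
      Submodule.subset_span ⟨1, by simpa [Ωc] using proj0_pow_toLp 0 ![3 / 5, 4 / 5]⟩
    have hv : v = (5 / 4 * v 1) • Ωc + (5 / 3 * (v 0 - 3 / 4 * v 1)) • (WithLp.toLp 2 ![3 / 5, 0] : C2) := by
      ext i
      fin_cases i
      · simp [Ωc]; ring
      · simp [Ωc]; ring
    rw [hv]
    exact Submodule.add_mem _ (Submodule.smul_mem _ _ h0) (Submodule.smul_mem _ _ h1)
  rw [FieldSystem.Cyclic, h]
  simp

/-- **All hypotheses of `Statement` are met** by a second model: Hilbert space of dimension two, non-scalar field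
`A(f) = (∫ f) diag(1,0)`, abelian net, and an invariant vector that is not a multiple of the vacuum. -/
theorem hypotheses_can_be_met_C2 :
    ∃ (B : Background C2) (𝔉 : FieldSystem B), 𝔉.Cyclic ∧ Nonempty (StressData 𝔉) ∧
      (∃ (A : 𝔉.F) (f : Test), ∀ c : ℂ, 𝔉.op A f ≠ c • 1) ∧
      ∃ v : C2, (∀ g, B.U g v = v) ∧ ∀ c : ℂ, v ≠ c • B.Ω := by
  refine ⟨_, twoSys, twoSys_cyclic, ⟨constStress _ _ _ _ _⟩, ?_, Ωn, fun _ => rfl, fun c h => ?_⟩
  · obtain ⟨f, hf⟩ := exists_intL_ne_zero
    refine ⟨(1 : ℂ), f, fun c h => ?_⟩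
    have h' : ((1 : ℂ) * intL f) • mEnd proj0 = c • (1 : Module.End ℂ (⊤ : Submodule ℂ C2)) := h
    have e0 := congrArg (fun X : Module.End ℂ (⊤ : Submodule ℂ C2) =>
      WithLp.ofLp ((X ⟨WithLp.toLp 2 ![1, 0], trivial⟩ : (⊤ : Submodule ℂ C2)) : C2) 0) h'
    have e1 := congrArg (fun X : Module.End ℂ (⊤ : Submodule ℂ C2) =>
      WithLp.ofLp ((X ⟨WithLp.toLp 2 ![0, 1], trivial⟩ : (⊤ : Submodule ℂ C2)) : C2) 1) h'
    simp [mEnd_apply, proj0_toLp] at e0 e1
    exact hf (by rw [e0, ← e1])
  · have h0 := congrArg (fun w : C2 => w 0) h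
    have h1 := congrArg (fun w : C2 => w 1) h
    simp [Ωn, Ωc, constB] at h0 h1
    rw [h1] at h0
    simp at h0

/-- Non-example for `Cyclic`: the same background data and the same field with the vacuum `(1, 0)`. -/
theorem twoSys_not_cyclic : ¬ (constSys Ωn norm_Ωn proj0 star_proj0 proj0_ne_zero).Cyclic := by
  refine constSys_not_cyclic Ωn norm_Ωn proj0 star_proj0 proj0_ne_zero
    (v := WithLp.toLp 2 ![0, 1]) (fun h => ?_) (fun n => ?_)
  · have := congrArg (fun w : C2 => w 1) h
    simp at this
  · cases n with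
    | zero => simp [Ωn, PiLp.inner_apply, Fin.sum_univ_two]
    | succ n =>
      rw [Ωn, proj0_pow_toLp]
      simp [PiLp.inner_apply, Fin.sum_univ_two]

end SanityOps
end Claimed.Open.R282
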