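import Claimed.Open.R282.Sanity

/-!
# Sanity checks for the test-function clauses of `Statement.lean`

1. Pointwise formulas for `conjT`, `pd`, `toC`, `mulT`, `transportT` (no junk value is ever used).
2. The relational clauses are not vacuous and determine their object:
   * `existsUnique_push`: for every similarity `g` and test function `f` there is exactly one test
     function `f'` with `f' ∘ g = f` (clause `op_cov`);
   * `existsUnique_tensor`: for every family `f : Fin n → Test` there is exactly one compact joint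
     kernel `h` with `h x = ∏ i, f i (x i)` (clause `joint`);
   * `existsUnique_tensorSchwartz`: the same in the Schwartz space (definition of `factGraph`).
3. "Classical field" checks of signs and normalisations: for a smooth function `u` in place of the
   operator valued distribution, with `u(f) = ∫ u f`,
   * `classical_der`: `(∂_μ u)(f) = - u(∂_μ f)` (clause `op_der`);
   * `classical_cov`: `∫ f(x) e^{sΔ} u(g x) d⁴x = e^{s(Δ-4)} u(f')` for `f' ∘ g = f` (clause `op_cov`,
     i.e. the paper's `U_D(s) O(x) U_D(-s) = e^{sd} O(e^s x)`);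
   * `classical_transport`: `(X^λ ∂_λ u + 2 σ_X u)(f) = u(transportT X f)` (equations (8.32), (8.33)).
-/

open scoped Distributions ContDiff InnerProductSpace ComplexConjugate Topology SchwartzMap
open TopologicalSpace MeasureTheory

noncomputable section

namespace Claimed.Open.R282
namespace SanityTest

/-! ### 1. Pointwise formulas -/

theorem conjT_apply (f : Test) (x : M4) : conjT f x = conj (f x) := rfl

theorem toC_apply (f : RTest) (x : M4) : toC f x = (f x : ℂ) := rfl

theorem pd_apply (μ : Fin 4) (f : Test) (x : M4) : pd μ f x = fderiv ℝ f x (ev μ) :=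
  Sanity.pd_apply μ f x

theorem mulT_apply {g : M4 → ℝ} (hg : ContDiff ℝ ∞ g) (f : Test) (x : M4) :
    mulT g f x = (g x : ℂ) * f x := by
  unfold mulT
  rw [dif_pos hg]
  rfl

theorem conjT_conjT (f : Test) : conjT (conjT f) = f := by
  ext x; simp [conjT_apply]

theorem contDiff_component {X : M4 → M4} (hX : ContDiff ℝ ∞ X) (ν : Fin 4) :
    ContDiff ℝ ∞ fun x => X x ν :=
  (contDiff_apply ℝ ℝ ν).comp hX

theorem contDiff_fderiv_component {X : M4 → M4} (hX : ContDiff ℝ ∞ X) (μ l : Fin 4) :
    ContDiff ℝ ∞ fun x => fderiv ℝ X x (ev μ) l :=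
  (contDiff_apply ℝ ℝ l).comp
    ((hX.fderiv_right (m := ∞) (by simp)).clm_apply contDiff_const)

theorem contDiff_sigmaOf {X : M4 → M4} (hX : ContDiff ℝ ∞ X) : ContDiff ℝ ∞ (sigmaOf X) := by
  unfold sigmaOf
  exact (ContDiff.sum fun μ _ => contDiff_fderiv_component hX μ μ).div_const 4

/-- The test functions `X^ν F_μ` entering `charge` are the genuine products. -/
theorem charge_test_apply {X : M4 → M4} (hX : ContDiff ℝ ∞ X) (F : RTest) (ν : Fin 4) (x : M4) :
    mulT (fun x => X x ν) (toC F) x = ((X x ν * F x : ℝ) : ℂ) := by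
  rw [mulT_apply (contDiff_component hX ν), toC_apply]; push_cast; ring

theorem transportT_apply {X : M4 → M4} (hX : ContDiff ℝ ∞ X) (f : Test) (x : M4) :
    transportT X f x
      = - (∑ l, (X x l : ℂ) * fderiv ℝ f x (ev l)) - 2 * ((sigmaOf X x : ℂ) * f x) := by
  unfold transportT
  have h1 : ∀ l, mulT (fun x => X x l) (pd l f) x = (X x l : ℂ) * fderiv ℝ f x (ev l) := fun l => by
    rw [mulT_apply (contDiff_component hX l), pd_apply]
  have h2 : mulT (sigmaOf X) f x = (sigmaOf X x : ℂ) * f x := mulT_apply (contDiff_sigmaOf hX) f x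
  have h3 : (∑ l, mulT (fun x => X x l) (pd l f)) x = ∑ l, mulT (fun x => X x l) (pd l f) x := by
    simp [Fin.sum_univ_four]
  simp only [sub_apply, neg_apply, smul_apply, h3, h1, h2, smul_eq_mul]

/-! ### 2. The relational clauses -/

/-- The inverse similarity `x ↦ e^{-s} Λ(A⁻¹) (x - a)`. -/
def invAct (g : Sim) (x : M4) : M4 := Real.exp (-g.s) • (lorentz g.A⁻¹).mulVec (x - g.a)

theorem invAct_act (g : Sim) (x : M4) : invAct g (g.act x) = x := by
  simp only [invAct, Sim.act, add_sub_cancel_right, Matrix.mulVec_smul,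
    ← Sanity.lorentz_mulVec_mul, inv_mul_cancel, Sanity.lorentz_one_mulVec, smul_smul,
    ← Real.exp_add]
  simp

theorem act_invAct (g : Sim) (x : M4) : g.act (invAct g x) = x := by
  simp only [invAct, Sim.act, Matrix.mulVec_smul,
    ← Sanity.lorentz_mulVec_mul, mul_inv_cancel, Sanity.lorentz_one_mulVec, smul_smul,
    ← Real.exp_add]
  simp

theorem mulVec_contDiff (M : Matrix (Fin 4) (Fin 4) ℝ) : ContDiff ℝ ∞ fun x : M4 => M.mulVec x :=
  (LinearMap.toContinuousLinearMap (Matrix.mulVecLin M)).contDiff

theorem act_contDiff (g : Sim) : ContDiff ℝ ∞ g.act := by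
  unfold Sim.act
  exact ((mulVec_contDiff _).const_smul _).add contDiff_const

theorem invAct_contDiff (g : Sim) : ContDiff ℝ ∞ (invAct g) := by
  unfold invAct
  exact ((mulVec_contDiff _).comp (contDiff_id.sub contDiff_const)).const_smul _

/-- A similarity is a homeomorphism (indeed a diffeomorphism) of space-time. -/
def actHomeo (g : Sim) : M4 ≃ₜ M4 where
  toFun := g.act
  invFun := invAct g
  left_inv := invAct_act g
  right_inv := act_invAct g
  continuous_toFun := (act_contDiff g).continuous
  continuous_invFun := (invAct_contDiff g).continuous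

/-- The transported test function `f ∘ g⁻¹`. -/
def push (g : Sim) (f : Test) : Test :=
  ⟨fun x => f (invAct g x), f.contDiff.comp (invAct_contDiff g),
    f.hasCompactSupport.comp_homeomorph (actHomeo g).symm, fun _ _ => trivial⟩

theorem push_act (g : Sim) (f : Test) (x : M4) : push g f (g.act x) = f x := by
  change f (invAct g (g.act x)) = f x
  rw [invAct_act]

/-- Clause `op_cov` is not vacuous and `f'` is determined by `g` and `f`. -/
theorem existsUnique_push (g : Sim) (f : Test) : ∃! f' : Test, ∀ x, f' (g.act x) = f x := by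
  refine ⟨push g f, push_act g f, fun f' hf' => ?_⟩
  ext x
  rw [← act_invAct g x, hf', push_act]

/-- The support is transported by `g`. -/
theorem tsupport_push (g : Sim) (f : Test) : tsupport (push g f) = g.act '' tsupport f := by
  have h : (push g f : M4 → ℂ) = f ∘ (actHomeo g).symm := rfl
  rw [h, tsupport_comp_eq_preimage]
  ext x
  simp only [Set.mem_preimage, Set.mem_image]
  constructor
  · intro hx; exact ⟨_, hx, act_invAct g x⟩
  · rintro ⟨y, hy, rfl⟩
    change invAct g (g.act y) ∈ _
    rwa [invAct_act]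

theorem tensor_contDiff {n : ℕ} (f : Fin n → Test) :
    ContDiff ℝ ∞ fun x : Fin n → M4 => ∏ i, f i (x i) :=
  contDiff_prod fun i _ => (f i).contDiff.comp (contDiff_apply ℝ M4 i)

theorem tensor_hasCompactSupport {n : ℕ} (f : Fin n → Test) :
    HasCompactSupport fun x : Fin n → M4 => ∏ i, f i (x i) := by
  refine HasCompactSupport.intro (K := Set.univ.pi fun i => tsupport (f i))
    (isCompact_univ_pi fun i => (f i).hasCompactSupport) ?_
  intro x hx
  simp only [Set.mem_pi, Set.mem_univ, true_implies, not_forall] at hx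
  obtain ⟨i, hi⟩ := hx
  exact Finset.prod_eq_zero (Finset.mem_univ i) (image_eq_zero_of_notMem_tsupport hi)

/-- The factorised kernel `f_1 ⊗ ⋯ ⊗ f_n` as a compact joint kernel. -/
def tensor {n : ℕ} (f : Fin n → Test) : JTest n :=
  ⟨fun x => ∏ i, f i (x i), tensor_contDiff f, tensor_hasCompactSupport f, fun _ _ => trivial⟩

/-- Clause `joint` is not vacuous and `h` is determined by the family `f`. -/
theorem existsUnique_tensor {n : ℕ} (f : Fin n → Test) :
    ∃! h : JTest n, ∀ x, h x = ∏ i, f i (x i) :=
  ⟨tensor f, fun _ => rfl, fun h hh => by ext x; rw [hh]; rfl⟩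

/-- The factorised kernel as a Schwartz kernel. -/
def tensorS {n : ℕ} (f : Fin n → Test) : 𝓢(Fin n → M4, ℂ) :=
  (tensor_hasCompactSupport f).toSchwartzMap (tensor_contDiff f)

theorem tensorS_apply {n : ℕ} (f : Fin n → Test) (x : Fin n → M4) :
    tensorS f x = ∏ i, f i (x i) := rfl

theorem existsUnique_tensorSchwartz {n : ℕ} (f : Fin n → Test) :
    ∃! u : 𝓢(Fin n → M4, ℂ), ∀ x, u x = ∏ i, f i (x i) :=
  ⟨tensorS f, fun _ => rfl, fun u hu => by ext x; rw [hu]; rfl⟩

section
variable {H : Type} [NormedAddCommGroup H] [InnerProductSpace ℂ H] [CompleteSpace H]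
  {B : Background H} (𝔉 : FieldSystem B)

/-- Every finite list of factor tests contributes a point to `factGraph`. -/
theorem mem_factGraph {n : ℕ} (A : Fin n → 𝔉.F) (l : List (Fin n → Test)) :
    ((l.map tensorS).sum, (l.map fun f => (𝔉.word A f 𝔉.vac : H)).sum) ∈ 𝔉.factGraph A := by
  refine ⟨l, fun x => ?_, rfl⟩
  induction l with
  | nil => simp
  | cons f l ih => simp only [List.map_cons, List.sum_cons, add_apply, ih, tensorS_apply]

end

/-! ### 3. Classical-field checks of signs and normalisations -/

theorem integrable_mul_test {u : M4 → ℂ} (hu : Continuous u) (f : Test) :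
    Integrable fun x => u x * f x :=
  (hu.mul f.continuous).integrable_of_hasCompactSupport f.hasCompactSupport.mul_left

/-- `(∂_μ u)(f) = - u(∂_μ f)`: the sign in clause `op_der`. -/
theorem classical_der {u : M4 → ℂ} (hu : ContDiff ℝ ∞ u) (μ : Fin 4) (f : Test) :
    ∫ x, fderiv ℝ u x (ev μ) * f x = - ∫ x, u x * pd μ f x := by
  have hu' : Continuous fun x => fderiv ℝ u x (ev μ) :=
    (hu.continuous_fderiv (by simp)).clm_apply continuous_const
  have h := integral_mul_fderiv_eq_neg_fderiv_mul_of_integrable (μ := (volume : Measure M4))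
    (𝕜 := ℂ) (f := u) (g := f) (v := ev μ) (integrable_mul_test hu' f)
    (by simpa only [← pd_apply] using integrable_mul_test hu.continuous (pd μ f))
    (integrable_mul_test hu.continuous f)
    (fun x _ => hu.differentiable (by simp) x) (fun x _ => f.contDiff.differentiable (by simp) x)
  simp only [pd_apply]
  rw [h, neg_neg]

/-- The covariance law `O(x) ↦ e^{sΔ} O(g x)` after smearing: the factor `e^{s(Δ-4)}` and the
direction `f' ∘ g = f` of clause `op_cov`. -/
theorem classical_cov {u : M4 → ℂ} (hu : Continuous u) (g : Sim) (Δ : ℝ) (f f' : Test)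
    (hf : ∀ x, f' (g.act x) = f x) :
    ∫ x, f x * ((Real.exp (g.s * Δ) : ℂ) * u (g.act x))
      = (Real.exp (g.s * (Δ - 4)) : ℂ) * ∫ y, f' y * u y := by
  have h := Sanity.integral_comp_act g (fun y => f' y * u y) (f'.continuous.mul hu)
  simp only [hf] at h
  have e : ∀ x, f x * ((Real.exp (g.s * Δ) : ℂ) * u (g.act x))
      = (Real.exp (g.s * Δ) : ℂ) * (f x * u (g.act x)) := fun x => by ring
  simp only [e]
  rw [integral_const_mul, h, ← mul_assoc, ← Complex.ofReal_mul, ← Real.exp_add]
  congr 3
  ring

theorem fderiv_component {X : M4 → M4} (hX : ContDiff ℝ ∞ X) (l : Fin 4) (x v : M4) :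
    fderiv ℝ (fun y => X y l) x v = fderiv ℝ X x v l := by
  have h : HasFDerivAt (fun y => X y l)
      ((ContinuousLinearMap.proj l : M4 →L[ℝ] ℝ).comp (fderiv ℝ X x)) x :=
    (ContinuousLinearMap.proj l : M4 →L[ℝ] ℝ).hasFDerivAt.comp x
      (hX.differentiable (by simp) x).hasFDerivAt
  rw [h.fderiv]; rfl

theorem pd_mulT {p : M4 → ℝ} (hp : ContDiff ℝ ∞ p) (μ : Fin 4) (f : Test) (x : M4) :
    pd μ (mulT p f) x = (fderiv ℝ p x (ev μ) : ℂ) * f x + (p x : ℂ) * fderiv ℝ f x (ev μ) := by
  rw [pd_apply]
  have e : (mulT p f : M4 → ℂ) = fun y => (p y : ℂ) * f y := funext (mulT_apply hp f)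
  rw [e]
  have h1 : HasFDerivAt (fun y => (p y : ℂ)) (Complex.ofRealCLM.comp (fderiv ℝ p x)) x :=
    Complex.ofRealCLM.hasFDerivAt.comp x (hp.differentiable (by simp) x).hasFDerivAt
  have h2 : HasFDerivAt f (fderiv ℝ f x) x := (f.contDiff.differentiable (by simp) x).hasFDerivAt
  have h3 : HasFDerivAt (fun y => (p y : ℂ) * f y) _ x := h1.mul h2
  rw [h3.fderiv]
  simp
  ring

/-- `transportT X` is dual to `X^λ ∂_λ + 2 σ_X`: the smeared form of the right-hand sides of the
primary laws (8.32), (8.33). -/
theorem classical_transport {u : M4 → ℂ} (hu : ContDiff ℝ ∞ u) {X : M4 → M4}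
    (hX : ContDiff ℝ ∞ X) (f : Test) :
    ∫ x, ((∑ l, (X x l : ℂ) * fderiv ℝ u x (ev l)) + 2 * (sigmaOf X x : ℂ) * u x) * f x
      = ∫ x, u x * transportT X f x := by
  have hXl := fun l => contDiff_component hX l
  -- integrate by parts in each direction
  have key : ∀ l : Fin 4, ∫ x, (X x l : ℂ) * fderiv ℝ u x (ev l) * f x
      = - ∫ x, u x * ((fderiv ℝ X x (ev l) l : ℂ) * f x + (X x l : ℂ) * fderiv ℝ f x (ev l)) := by
    intro l
    have h := classical_der hu l (mulT (fun x => X x l) f)
    simp only [pd_mulT (hXl l), mulT_apply (hXl l), fderiv_component hX] at h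
    rw [← h]
    refine integral_congr_ae (Filter.Eventually.of_forall fun x => ?_)
    simp only; ring
  have hu' : ∀ l, Continuous fun x => fderiv ℝ u x (ev l) := fun l =>
    (hu.continuous_fderiv (by simp)).clm_apply continuous_const
  have hcX : ∀ l, Continuous fun x => (X x l : ℂ) := fun l =>
    Complex.continuous_ofReal.comp (hXl l).continuous
  have hcσ : Continuous fun x => (sigmaOf X x : ℂ) :=
    Complex.continuous_ofReal.comp (contDiff_sigmaOf hX).continuous
  have hcd : ∀ l, Continuous fun x => (fderiv ℝ X x (ev l) l : ℂ) := fun l =>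
    Complex.continuous_ofReal.comp (contDiff_fderiv_component hX l l).continuous
  have i1 : ∀ l, Integrable fun x => (X x l : ℂ) * fderiv ℝ u x (ev l) * f x := fun l =>
    integrable_mul_test ((hcX l).mul (hu' l)) f
  have i2 : Integrable fun x => 2 * (sigmaOf X x : ℂ) * u x * f x :=
    integrable_mul_test ((continuous_const.mul hcσ).mul hu.continuous) f
  have i3 : ∀ l, Integrable fun x =>
      u x * ((fderiv ℝ X x (ev l) l : ℂ) * f x + (X x l : ℂ) * fderiv ℝ f x (ev l)) := fun l => by
    have a := integrable_mul_test (hu.continuous.mul (hcd l)) f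
    have b := integrable_mul_test (hu.continuous.mul (hcX l)) (pd l f)
    simp only [pd_apply] at b
    refine (a.add b).congr (Filter.Eventually.of_forall fun x => ?_)
    simp only [Pi.add_apply, Pi.mul_apply]; ring
  have lhs : ∫ x, ((∑ l, (X x l : ℂ) * fderiv ℝ u x (ev l)) + 2 * (sigmaOf X x : ℂ) * u x) * f x
      = (∑ l, ∫ x, (X x l : ℂ) * fderiv ℝ u x (ev l) * f x)
        + ∫ x, 2 * (sigmaOf X x : ℂ) * u x * f x := by
    rw [← integral_finsetSum _ fun l _ => i1 l,
      ← integral_add (integrable_finsetSum _ fun l _ => i1 l) i2]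
    refine integral_congr_ae (Filter.Eventually.of_forall fun x => ?_)
    simp only [add_mul, Finset.sum_mul]
  rw [lhs]
  simp only [key]
  have i4 : Integrable fun x => - ∑ l,
      u x * ((fderiv ℝ X x (ev l) l : ℂ) * f x + (X x l : ℂ) * fderiv ℝ f x (ev l)) :=
    (integrable_finsetSum _ fun l _ => i3 l).neg
  rw [Finset.sum_neg_distrib, ← integral_finsetSum _ fun l _ => i3 l, ← integral_neg,
    ← integral_add i4 i2]
  refine integral_congr_ae (Filter.Eventually.of_forall fun x => ?_)
  simp only [transportT_apply hX]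
  have hσ : (sigmaOf X x : ℂ) = (∑ l, (fderiv ℝ X x (ev l) l : ℂ)) / 4 := by
    unfold sigmaOf; push_cast; ring
  rw [hσ]
  simp only [Fin.sum_univ_four]
  ring

end SanityTest
end Claimed.Open.R282
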