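import Claimed.Open.R282.SanityOps
import Claimed.Open.R282.SanitySlab
import Claimed.Open.R282.SanityKilling
import Claimed.Open.R282.SanityTest

/-!
# Result 282: the primary law (8.32) excludes fields of the wrong dimension

In the constant-field models `SanityOps.constSys` (one Hermitian `x`-independent field `A(f) = (∫ f) m` of
dimension `0`) all field operators commute, so every Ward commutator `δ_X A = i [Q_X, A]` vanishes.

* `primaryLaws_zero`, `conformalWard_zero`: with `t = 0`, `L = 0` the structures `PrimaryLaws` and `ConformalWard`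
  hold (examples on a Hilbert space of arbitrary dimension, with non-scalar operators);
* `eq_zero_of_primaryLaws`, `not_primaryLaws_one`: **non-example**.  `PrimaryLaws t L` fails for every `t` and every
  `L ≠ 0`: for the dilation field `X = d` the law (8.32) reads `0 = δ_d L = (x·∂ + 2) L`, and smeared with `f` the right
  side is `2 (∫ f) L ≠ 0`.  So the weight `2 σ_X` in `transportT` is really tested: a field of dimension `0` is not
  accepted as the improvement scalar.
-/

open scoped Distributions ContDiff InnerProductSpace ComplexConjugate Topology SchwartzMap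
open scoped LinearPMap
open TopologicalSpace MeasureTheory

noncomputable section

namespace Claimed.Open.R282
namespace SanityPrimary

open Sanity SanityOps SanitySlab SanityKilling SanityTest

variable {H : Type} [NormedAddCommGroup H] [InnerProductSpace ℂ H] [CompleteSpace H]
variable (Ω : H) (hΩ : ‖Ω‖ = 1) (m : H →L[ℂ] H) (hm : star m = m) (hm0 : m ≠ 0)

local notation "𝔖" => constSys Ω hΩ m hm hm0

/-- `m` as an endomorphism of the domain of the model. -/
def mOp : Module.End ℂ (𝔖).domain := mEnd m

/-- The coefficient of a label (the label space of the model is `ℂ`). -/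
def co (A : (𝔖).F) : ℂ := A

lemma op_eq (A : (𝔖).F) (f : Test) :
    (𝔖).op A f = (co Ω hΩ m hm hm0 A * intL f) • mOp Ω hΩ m hm hm0 := rfl

lemma mOp_ne_zero : mOp Ω hΩ m hm hm0 ≠ 0 := mEnd_ne_zero hm0

lemma co_zero : co Ω hΩ m hm hm0 0 = 0 := rfl

/-- Every local charge of the model is a multiple of `m`. -/
lemma charge_eq (t : Fin 4 → Fin 4 → (𝔖).F) (X : M4 → M4) (F : Fin 4 → RTest) :
    (𝔖).charge t X F
      = (∑ μ, ∑ ν, (eta μ : ℂ) * (co Ω hΩ m hm hm0 (t μ ν) *
          intL (mulT (fun x => X x ν) (toC (F μ))))) • mOp Ω hΩ m hm hm0 := by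
  simp only [FieldSystem.charge, Finset.sum_smul]
  refine Finset.sum_congr rfl fun μ _ => Finset.sum_congr rfl fun ν _ => ?_
  rw [op_eq, smul_smul]

/-- All Ward commutators with field operators vanish. -/
lemma comm_charge_op (t : Fin 4 → Fin 4 → (𝔖).F) (X : M4 → M4) (F : Fin 4 → RTest) (A : (𝔖).F)
    (f : Test) : (𝔖).comm ((𝔖).charge t X F) ((𝔖).op A f) = 0 := by
  rw [charge_eq, op_eq]
  unfold FieldSystem.comm
  rw [smul_mul_smul_comm, smul_mul_smul_comm, mul_comm, sub_self]

/-- `∫ (- x·∂f - 2 f) = 2 ∫ f`. -/
lemma intL_transportT_dField (f : Test) : intL (transportT dField f) = 2 * intL f := by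
  have h := classical_transport (u := fun _ => (1 : ℂ)) contDiff_const
    (X := dField) contDiff_id f
  simp only [fderiv_fun_const, Pi.zero_apply, zero_apply, mul_zero, Finset.sum_const_zero,
    zero_add, sigmaOf_dField, Complex.ofReal_one, mul_one, one_mul] at h
  rw [intL_apply, ← h, intL_apply, integral_const_mul]

/-- **Non-example**: in the constant-field model the primary law (8.32) forces `L = 0`. -/
theorem eq_zero_of_primaryLaws (t : Fin 4 → Fin 4 → (𝔖).F) (L : (𝔖).F)
    (h : (𝔖).PrimaryLaws t L) : L = 0 := by
  obtain ⟨f, hf⟩ := exists_intL_ne_zero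
  obtain ⟨F, hF⟩ := exists_slab_of_isBounded (K := tsupport f) f.hasCompactSupport.isCompact.isBounded
  have h1 := h.scalar dField isConformalKilling_dField f F hF
  rw [comm_charge_op, smul_zero, op_eq, intL_transportT_dField] at h1
  rcases smul_eq_zero.mp h1.symm with h2 | h2
  · rcases mul_eq_zero.mp h2 with h3 | h3
    · exact h3
    · exact absurd h3 (mul_ne_zero two_ne_zero hf)
  · exact absurd h2 (mOp_ne_zero Ω hΩ m hm hm0)

/-- The field `A` itself (label `1`, dimension `0`) does not obey the primary law of a dimension-two scalar. -/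
theorem not_primaryLaws_one (t : Fin 4 → Fin 4 → (𝔖).F) :
    ¬ (𝔖).PrimaryLaws t ((1 : ℂ) : (𝔖).F) :=
  fun h => one_ne_zero (α := ℂ) (eq_zero_of_primaryLaws Ω hΩ m hm hm0 t _ h)

/-- Example: `t = 0`, `L = 0`. -/
theorem primaryLaws_zero : (𝔖).PrimaryLaws (fun _ _ => 0) 0 where
  scalar := by
    intro X _ f F _
    rw [comm_charge_op, smul_zero, map_zero, LinearMap.zero_apply]
  tensor := by
    intro X _ f F _ μ ν
    rw [comm_charge_op, smul_zero]
    simp

lemma charge_zero (X : M4 → M4) (F : Fin 4 → RTest) :
    (𝔖).charge (fun _ _ => 0) X F = 0 := by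
  simp [FieldSystem.charge]

/-- Example: the conformal Ward identities of `t = 0` (nothing moves). -/
theorem conformalWard_zero : (𝔖).ConformalWard (fun _ _ => 0) where
  indep := by intros; simp [charge_zero]
  preserve := by intros; simp [charge_zero, FieldSystem.comm]
  affine := by
    intro γ c M κ _ K F _ P _ φ ψ
    have hU : ∀ (g : Sim) (χ : (𝔖).domain), (𝔖).Uact g χ = χ := fun _ _ => Subtype.ext rfl
    have hfl : (𝔖).flux 0 F = 0 := by simp [FieldSystem.flux]
    simp only [hU, charge_zero, hfl, FieldSystem.comm, smul_zero, sub_zero, zero_mul, mul_zero,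
      LinearMap.zero_apply, ZeroMemClass.coe_zero, inner_zero_right]
    exact hasDerivAt_const _ _
  vacuum := by intros; simp [charge_zero, FieldSystem.comm]
  lie := by intros; simp [charge_zero, FieldSystem.comm]

end SanityPrimary
end Claimed.Open.R282
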