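import Claimed.Open.R282.SanityStaticInf

/-!
# Result 282: every cyclic field system restricts to its vacuum-generated domain

`CLAIM.md`, deviation 14, says about the clauses `U_mem`, `Γ_mem` of `FieldSystem` (invariance of the domain): "for the original
fields this is no restriction: `𝓓_fact` is invariant under the fields, `U` and `Γ` (covariance, invariance of `Ω`) and dense
(`Cyclic`), and all clauses of `FieldSystem` restrict to it".  `SanityStaticInf.restr` checks this over static backgrounds, where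
`U = 1` makes the invariance under `U` empty.  Here it is proved for EVERY `Background` and every cyclic `FieldSystem` (no model):

* `U_word_mem`, `U_mem_Dfact`: `U(g) 𝓓_fact ⊆ 𝓓_fact` for every Poincare transformation and dilation `g`
  (`op_cov` on homogeneous labels, `grade_internal`, the transported test function `SanityTest.push`, `U(g)Ω = Ω`);
* `U_image_Dfact`: in fact `U(g) 𝓓_fact = 𝓓_fact`;
* `restrict`: the field system with the same labels and the domain `𝓓_fact`: all clauses of `FieldSystem` hold;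
* `Dfact_restrict`, `cyclic_restrict`: it has the same vacuum words, so the same `𝓓_fact`, and it is cyclic;
* `eq_of_eq_on_Dfact`: two labels whose smeared fields agree on `𝓓_fact` are equal (deviation 3: "`faithful` is stated on the whole
  domain; … this is the same as equality on `𝓓_fact`");
* `restrictStress`, `hypotheses_restrict`: the same labels `T`, `V` are `StressData` of the restricted system (every element of its
  polynomial algebra `localAlg K` is the restriction of one of `𝔉.localAlg K`: `exists_isRes_of_mem_localAlg`), so all hypotheses of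
  `Statement` survive the restriction;
* `factGraph_restrict`, `isVacuumWord_restrict`, `Dold_restrict`, `extToRestrict`, `extOfRestrict`: `𝓓_old` and the admitted families
  (`Extension`) of `𝔉` and of its restriction are the same;
* `conclusion_restrict`, `conclusion_of_restrict`: all clauses of `Conclusion` but the first one (the affine Ward identities of
  `T⁽⁴⁾`, `V⁽³⁾` on `jointAlg`, which speaks of operators on the domain of `𝔉`) hold for `𝔉` iff they hold for its restriction.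

Not shown: that the first clause of `Conclusion` passes from `𝔉` to its restriction or back (an insertion with a joint kernel on
`𝓓_fact` need not extend to the domain of `𝔉`, and one on the domain of `𝔉` need not preserve `𝓓_fact`).
-/

open scoped Distributions ContDiff InnerProductSpace ComplexConjugate Topology SchwartzMap
open scoped LinearPMap
open TopologicalSpace MeasureTheory

noncomputable section

namespace Claimed.Open.R282
namespace SanityRestrict

open Sanity SanityTest SanityStatic SanityStaticInf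

variable {H : Type} [NormedAddCommGroup H] [InnerProductSpace ℂ H] [CompleteSpace H]

variable {B : Background H} (𝔉 : FieldSystem B)

/-- One step: if `U(g)ψ` lies in `𝓓_fact`, so does `U(g) A(f) ψ`, for every label `A` (homogeneous or not). -/
lemma U_op_mem (g : Sim) (ψ : 𝔉.domain) (hψ : B.U g (ψ : H) ∈ 𝔉.Dfact) (A : 𝔉.F) (f : Test) :
    B.U g (𝔉.op A f ψ : H) ∈ 𝔉.Dfact := by
  have hA : A ∈ ⨆ Δ, 𝔉.grade Δ := by
    rw [𝔉.grade_internal.submodule_iSup_eq_top]; trivial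
  induction hA using Submodule.iSup_induction' with
  | mem Δ A hA =>
    rw [𝔉.op_cov g Δ A hA f (push g f) (push_act g f) ψ]
    refine 𝔉.Dfact.smul_mem _ ?_
    exact (mem_Dw_iff 𝔉 _).1 (op_mem_Dw 𝔉 _ _ _ ((mem_Dw_iff 𝔉 _).2 hψ))
  | zero => simp
  | add A A' _ _ h h' =>
    have e : (𝔉.op (A + A') f ψ : H) = (𝔉.op A f ψ : H) + (𝔉.op A' f ψ : H) := by
      simp
    rw [e, map_add]
    exact 𝔉.Dfact.add_mem h h'

/-- `U(g)` maps vacuum words into `𝓓_fact`. -/
lemma U_word_mem (g : Sim) {n : ℕ} (A : Fin n → 𝔉.F) (f : Fin n → Test) :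
    B.U g (𝔉.word A f 𝔉.vac : H) ∈ 𝔉.Dfact := by
  induction n with
  | zero =>
    have : (𝔉.word A f 𝔉.vac : H) = B.Ω := by simp [FieldSystem.word, FieldSystem.vac]
    rw [this, B.U_Ω]
    exact Ω_mem_Dfact 𝔉
  | succ n ih =>
    have e1 : 𝔉.word A f = 𝔉.op (A 0) (f 0) * 𝔉.word (fun i => A i.succ) (fun i => f i.succ) := by
      simp [FieldSystem.word, List.ofFn_succ]
    rw [e1, Module.End.mul_apply]
    exact U_op_mem 𝔉 g _ (ih _ _) _ _

/-- **`𝓓_fact` is invariant under the representation**, in every theory. -/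
theorem U_mem_Dfact (g : Sim) : ∀ ψ ∈ 𝔉.Dfact, B.U g ψ ∈ 𝔉.Dfact := by
  have : 𝔉.Dfact ≤ 𝔉.Dfact.comap (B.U g : H →ₗ[ℂ] H) := by
    refine Submodule.span_le.2 ?_
    rintro _ ⟨n, A, f, rfl⟩
    exact U_word_mem 𝔉 g A f
  exact this

/-- **Every cyclic field system restricts to its vacuum-generated domain `𝓓_fact`**: all clauses of `FieldSystem` hold there
(`CLAIM.md`, deviation 14), over every background. -/
def restrict (hcyc : 𝔉.Cyclic) : FieldSystem B where
  F := 𝔉.F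
  grade := 𝔉.grade
  grade_internal := 𝔉.grade_internal
  grade_finite := 𝔉.grade_finite
  spec_bddBelow := 𝔉.spec_bddBelow
  spec_locFinite := 𝔉.spec_locFinite
  adj := 𝔉.adj
  adj_adj := 𝔉.adj_adj
  adj_grade := 𝔉.adj_grade
  der := 𝔉.der
  der_grade := 𝔉.der_grade
  rho := 𝔉.rho
  rho_grade := 𝔉.rho_grade
  rho_adj := 𝔉.rho_adj
  par := 𝔉.par
  par_par := 𝔉.par_par
  par_grade := 𝔉.par_grade
  par_rho := 𝔉.par_rho
  domain := 𝔉.Dfact
  domain_dense := hcyc
  Ω_mem := Ω_mem_Dfact 𝔉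
  U_mem := U_mem_Dfact 𝔉
  Γ_mem := Γ_mem_Dfact 𝔉
  op := opR 𝔉
  faithful := faithfulR 𝔉 hcyc
  op_adj := fun A f φ ψ => 𝔉.op_adj A f (inc 𝔉 φ) (inc 𝔉 ψ)
  op_der := fun μ A f => by
    ext ψ
    have h := congrArg (fun X : Module.End ℂ 𝔉.domain => ((X (inc 𝔉 ψ) : 𝔉.domain) : H)) (𝔉.op_der μ A f)
    exact h
  op_cov := fun g Δ A hA f f' h ψ => 𝔉.op_cov g Δ A hA f f' h (inc 𝔉 ψ)
  op_Γ := fun A f ψ => 𝔉.op_Γ A f (inc 𝔉 ψ)
  joint := fun n A φ ψ => by
    obtain ⟨W, hW⟩ := 𝔉.joint n A (inc 𝔉 φ) (inc 𝔉 ψ)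
    refine ⟨W, fun f h hh => ?_⟩
    rw [hW f h hh, ← inc_prod]
    rfl
  op_local := fun A A' f f' hsep => by
    obtain ⟨h1, h2⟩ := 𝔉.op_local A A' f f' hsep
    constructor
    · intro hp
      ext ψ
      exact congrArg (fun X : Module.End ℂ 𝔉.domain => ((X (inc 𝔉 ψ) : 𝔉.domain) : H)) (h1 hp)
    · intro hp hp'
      ext ψ
      exact congrArg (fun X : Module.End ℂ 𝔉.domain => ((X (inc 𝔉 ψ) : 𝔉.domain) : H)) (h2 hp hp')
  affiliated := fun A f O hO hsub => by
    obtain ⟨T, hcl, h1, h2, h3⟩ := 𝔉.affiliated A f O hO hsub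
    refine ⟨T, hcl, le_trans ?_ h1, le_trans ?_ h2, h3⟩
    · exact ⟨Dfact_le_domain 𝔉, fun x y h => by
        have : inc 𝔉 x = y := Subtype.ext h
        rw [← this]; rfl⟩
    · exact ⟨Dfact_le_domain 𝔉, fun x y h => by
        have : inc 𝔉 x = y := Subtype.ext h
        rw [← this]; rfl⟩

variable (hcyc : 𝔉.Cyclic)

@[simp] lemma domain_restrict : (restrict 𝔉 hcyc).domain = 𝔉.Dfact := rfl

/-- The restricted fields are the old ones. -/
lemma op_restrict (A : 𝔉.F) (f : Test) (ψ : 𝔉.Dfact) :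
    (((restrict 𝔉 hcyc).op A f ψ : (restrict 𝔉 hcyc).domain) : H) = (𝔉.op A f (inc 𝔉 ψ) : H) := rfl

/-- The vacuum words are the old ones. -/
lemma word_restrict {n : ℕ} (A : Fin n → 𝔉.F) (f : Fin n → Test) :
    (((restrict 𝔉 hcyc).word A f (restrict 𝔉 hcyc).vac : (restrict 𝔉 hcyc).domain) : H)
      = (𝔉.word A f 𝔉.vac : H) :=
  congrArg (fun x : 𝔉.domain => (x : H)) (inc_prod 𝔉 A f (restrict 𝔉 hcyc).vac)

/-- The restriction has the same vacuum-generated domain: restricting twice changes nothing. -/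
theorem Dfact_restrict : (restrict 𝔉 hcyc).Dfact = 𝔉.Dfact := by
  unfold FieldSystem.Dfact
  congr 1
  ext v
  constructor
  · rintro ⟨n, A, f, rfl⟩
    exact ⟨n, A, f, word_restrict 𝔉 hcyc A f⟩
  · rintro ⟨n, A, f, rfl⟩
    exact ⟨n, A, f, (word_restrict 𝔉 hcyc A f).symm⟩

/-- The restriction is cyclic, and its domain is exactly its `𝓓_fact`. -/
theorem cyclic_restrict : (restrict 𝔉 hcyc).Cyclic ∧ (restrict 𝔉 hcyc).domain = (restrict 𝔉 hcyc).Dfact := by
  refine ⟨?_, (Dfact_restrict 𝔉 hcyc).symm⟩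
  unfold FieldSystem.Cyclic
  rw [Dfact_restrict]
  exact hcyc

include hcyc in
/-- **Faithfulness may be tested on `𝓓_fact`** (`CLAIM.md`, deviation 3): two labels of a cyclic field system whose smeared fields
agree on the vacuum-generated domain are equal. -/
theorem eq_of_eq_on_Dfact (A A' : 𝔉.F)
    (h : ∀ (f : Test) (ψ : 𝔉.domain), (ψ : H) ∈ 𝔉.Dfact → 𝔉.op A f ψ = 𝔉.op A' f ψ) : A = A' := by
  have h0 : A - A' = 0 := faithfulR 𝔉 hcyc _ fun f => by
    ext ψ
    have h1 := h f (inc 𝔉 ψ) ψ.2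
    have h2 : ((opR 𝔉 (A - A') f ψ : 𝔉.Dfact) : H) = (𝔉.op (A - A') f (inc 𝔉 ψ) : H) := rfl
    rw [h2, map_sub, LinearMap.sub_apply, LinearMap.sub_apply, h1, sub_self]
    rfl
  exact sub_eq_zero.1 h0

/-- The inverse similarity as an element of the group. -/
def simInv (g : Sim) : Sim := ⟨invAct g 0, g.A⁻¹, -g.s⟩

lemma mul_simInv (g : Sim) : g.mul (simInv g) = Sim.one := by
  simp [Sim.mul, simInv, Sim.one, act_invAct]

/-- `U(g)` maps `𝓓_fact` ONTO `𝓓_fact`. -/
theorem U_image_Dfact (g : Sim) : (fun ψ => B.U g ψ) '' (𝔉.Dfact : Set H) = 𝔉.Dfact := by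
  apply Set.Subset.antisymm
  · rintro _ ⟨ψ, hψ, rfl⟩
    exact U_mem_Dfact 𝔉 g ψ hψ
  · intro ψ hψ
    refine ⟨B.U (simInv g) ψ, U_mem_Dfact 𝔉 _ ψ hψ, ?_⟩
    have h : B.U g * B.U (simInv g) = 1 := by rw [← B.U_mul, mul_simInv, B.U_one]
    exact congrArg (fun X : H →L[ℂ] H => X ψ) h

/-! ### The currents restrict too -/

/-- `X`, an operator on `𝓓_fact`, is the restriction of the operator `X'` on the domain of `𝔉`. -/
def IsRes (X : Module.End ℂ 𝔉.Dfact) (X' : Module.End ℂ 𝔉.domain) : Prop :=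
  ∀ ψ : 𝔉.Dfact, inc 𝔉 (X ψ) = X' (inc 𝔉 ψ)

variable {𝔉}

lemma IsRes.op (A : 𝔉.F) (f : Test) : IsRes 𝔉 (opR 𝔉 A f) (𝔉.op A f) := fun _ => rfl

lemma IsRes.zero : IsRes 𝔉 0 0 := fun _ => rfl

lemma IsRes.add {X Y : Module.End ℂ 𝔉.Dfact} {X' Y' : Module.End ℂ 𝔉.domain} (h : IsRes 𝔉 X X')
    (h' : IsRes 𝔉 Y Y') : IsRes 𝔉 (X + Y) (X' + Y') := fun ψ => by
  have e : inc 𝔉 ((X + Y) ψ) = inc 𝔉 (X ψ) + inc 𝔉 (Y ψ) := rfl
  rw [e, h ψ, h' ψ]; rfl

lemma IsRes.sub {X Y : Module.End ℂ 𝔉.Dfact} {X' Y' : Module.End ℂ 𝔉.domain} (h : IsRes 𝔉 X X')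
    (h' : IsRes 𝔉 Y Y') : IsRes 𝔉 (X - Y) (X' - Y') := fun ψ => by
  have e : inc 𝔉 ((X - Y) ψ) = inc 𝔉 (X ψ) - inc 𝔉 (Y ψ) := rfl
  rw [e, h ψ, h' ψ]; rfl

lemma IsRes.smul (c : ℂ) {X : Module.End ℂ 𝔉.Dfact} {X' : Module.End ℂ 𝔉.domain} (h : IsRes 𝔉 X X') :
    IsRes 𝔉 (c • X) (c • X') := fun ψ => by
  have e : inc 𝔉 ((c • X) ψ) = c • inc 𝔉 (X ψ) := rfl
  rw [e, h ψ]; rfl

lemma IsRes.mul {X Y : Module.End ℂ 𝔉.Dfact} {X' Y' : Module.End ℂ 𝔉.domain} (h : IsRes 𝔉 X X')
    (h' : IsRes 𝔉 Y Y') : IsRes 𝔉 (X * Y) (X' * Y') := fun ψ => by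
  rw [Module.End.mul_apply, Module.End.mul_apply, h, h']

lemma IsRes.algebraMap (c : ℂ) :
    IsRes 𝔉 (algebraMap ℂ (Module.End ℂ 𝔉.Dfact) c) (algebraMap ℂ (Module.End ℂ 𝔉.domain) c) := fun ψ => by
  rw [Module.algebraMap_end_apply, Module.algebraMap_end_apply]; rfl

lemma IsRes.sum {ι : Type} (s : Finset ι) (X : ι → Module.End ℂ 𝔉.Dfact) (X' : ι → Module.End ℂ 𝔉.domain)
    (h : ∀ i, IsRes 𝔉 (X i) (X' i)) : IsRes 𝔉 (∑ i ∈ s, X i) (∑ i ∈ s, X' i) := by
  classical
  induction s using Finset.induction_on with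
  | empty => simpa using IsRes.zero
  | insert a s ha ih => rw [Finset.sum_insert ha, Finset.sum_insert ha]; exact (h a).add ih

variable (𝔉)

lemma isRes_flux (V : Fin 4 → 𝔉.F) (F : Fin 4 → RTest) :
    IsRes 𝔉 ((restrict 𝔉 hcyc).flux V F) (𝔉.flux V F) :=
  IsRes.sum _ _ _ fun μ => (IsRes.op (V μ) (toC (F μ))).smul _

lemma isRes_charge (T : Fin 4 → Fin 4 → 𝔉.F) (X : M4 → M4) (F : Fin 4 → RTest) :
    IsRes 𝔉 ((restrict 𝔉 hcyc).charge T X F) (𝔉.charge T X F) :=
  IsRes.sum _ _ _ fun μ => IsRes.sum _ _ _ fun ν => (IsRes.op (T μ ν) _).smul _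

lemma isRes_comm {X Y : Module.End ℂ 𝔉.Dfact} {X' Y' : Module.End ℂ 𝔉.domain} (h : IsRes 𝔉 X X')
    (h' : IsRes 𝔉 Y Y') : IsRes 𝔉 ((restrict 𝔉 hcyc).comm X Y) (𝔉.comm X' Y') :=
  (h.mul h').sub (h'.mul h)

/-- Every element of the polynomial algebra of the restricted system is the restriction of an element of the polynomial
algebra of `𝔉` of the same region. -/
lemma exists_isRes_of_mem_localAlg (K : Set M4) (P : Module.End ℂ 𝔉.Dfact)
    (hP : P ∈ (restrict 𝔉 hcyc).localAlg K) : ∃ P' ∈ 𝔉.localAlg K, IsRes 𝔉 P P' := by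
  induction hP using Algebra.adjoin_induction with
  | mem x hx =>
    obtain ⟨A, f, hf, rfl⟩ := hx
    exact ⟨𝔉.op A f, Algebra.subset_adjoin ⟨A, f, hf, rfl⟩, IsRes.op (𝔉 := 𝔉) A f⟩
  | algebraMap r => exact ⟨_, Subalgebra.algebraMap_mem _ r, IsRes.algebraMap r⟩
  | add x y _ _ hx hy =>
    obtain ⟨x', hx', h1⟩ := hx
    obtain ⟨y', hy', h2⟩ := hy
    exact ⟨_, add_mem hx' hy', h1.add h2⟩
  | mul x y _ _ hx hy =>
    obtain ⟨x', hx', h1⟩ := hx
    obtain ⟨y', hy', h2⟩ := hy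
    exact ⟨_, mul_mem hx' hy', h1.mul h2⟩

/-- **The stress tensor and the virial field restrict as well**: the same labels `T`, `V` are `StressData` of the restricted
system; in particular the affine Ward identities hold on its polynomial algebras. -/
def restrictStress (S : StressData 𝔉) : StressData (restrict 𝔉 hcyc) where
  T := S.T
  V := S.V
  T_tensor := S.T_tensor
  V_vector := S.V_vector
  T_symm := S.T_symm
  T_cons := S.T_cons
  trace_eq := S.trace_eq
  ward := fun γ c M κ hγ K F hF P hP φ ψ => by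
    obtain ⟨P', hP', hres⟩ := exists_isRes_of_mem_localAlg 𝔉 hcyc K P hP
    have h := S.ward γ c M κ hγ K F hF P' hP' (inc 𝔉 φ) (inc 𝔉 ψ)
    have hQ := ((isRes_comm 𝔉 hcyc (((isRes_charge 𝔉 hcyc S.T (affineField c M κ) F)).sub
      ((isRes_flux 𝔉 hcyc S.V F).smul (κ : ℂ))) hres).smul (-Complex.I)) ψ
    have e2 := congrArg (fun x : 𝔉.domain => (x : H)) hQ
    have e1 : ∀ s : ℝ, ((P ((restrict 𝔉 hcyc).Uact (γ s) ψ) : 𝔉.Dfact) : H)
        = (P' (𝔉.Uact (γ s) (inc 𝔉 ψ)) : H) := fun s =>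
      congrArg (fun x : 𝔉.domain => (x : H)) (hres ((restrict 𝔉 hcyc).Uact (γ s) ψ))
    refine (h.congr_deriv ?_).congr_of_eventuallyEq (Filter.Eventually.of_forall fun s => ?_)
    · exact congrArg (fun v : H => ⟪(φ : H), v⟫_ℂ) e2.symm
    · exact congrArg (fun v : H => ⟪(B.U (γ s) (φ : H)), v⟫_ℂ) (e1 s)

include hcyc in
/-- **All hypotheses of `Statement` survive the restriction to `𝓓_fact`**: a cyclic field system with currents on any invariant
domain gives one whose domain is exactly the vacuum-generated domain, with the same labels, the same vacuum words and the same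
currents.  So asking for an invariant domain in `FieldSystem` does not restrict the class of theories (`CLAIM.md`, deviation 14). -/
theorem hypotheses_restrict (S : StressData 𝔉) :
    ∃ (𝔉' : FieldSystem B) (_ : StressData 𝔉'), 𝔉'.Cyclic ∧ 𝔉'.domain = 𝔉.Dfact ∧ 𝔉'.Dfact = 𝔉.Dfact :=
  ⟨restrict 𝔉 hcyc, restrictStress 𝔉 hcyc S, (cyclic_restrict 𝔉 hcyc).1, rfl, Dfact_restrict 𝔉 hcyc⟩

/-! ### Admitted families and the conclusion see only the restriction -/

theorem factGraph_restrict {n : ℕ} (A : Fin n → 𝔉.F) :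
    (restrict 𝔉 hcyc).factGraph A = 𝔉.factGraph A := by
  have hw : ∀ l : List (Fin n → Test),
      (l.map fun f => (((restrict 𝔉 hcyc).word A f (restrict 𝔉 hcyc).vac : (restrict 𝔉 hcyc).domain) : H))
        = l.map fun f => (𝔉.word A f 𝔉.vac : H) := fun l =>
    List.map_congr_left fun f _ => word_restrict 𝔉 hcyc A f
  ext p
  constructor
  · rintro ⟨l, h1, h2⟩
    exact ⟨l, h1, h2.trans (congrArg List.sum (hw l))⟩
  · rintro ⟨l, h1, h2⟩
    exact ⟨l, h1, h2.trans (congrArg List.sum (hw l)).symm⟩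

theorem isVacuumWord_restrict {n : ℕ} (A : Fin n → 𝔉.F) (h : 𝓢(Fin n → M4, ℂ)) (ψ : H) :
    (restrict 𝔉 hcyc).IsVacuumWord A h ψ ↔ 𝔉.IsVacuumWord A h ψ := by
  unfold FieldSystem.IsVacuumWord
  rw [factGraph_restrict]

/-- The vacuum words with joint Schwartz kernels, hence `𝓓_old`, are the same. -/
theorem Dold_restrict : (restrict 𝔉 hcyc).Dold = 𝔉.Dold := by
  unfold FieldSystem.Dold
  congr 2
  ext ψ
  constructor
  · rintro ⟨n, A, h, hψ⟩
    exact ⟨n, A, h, (isVacuumWord_restrict 𝔉 hcyc A h ψ).1 hψ⟩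
  · rintro ⟨n, A, h, hψ⟩
    exact ⟨n, A, h, (isVacuumWord_restrict 𝔉 hcyc A h ψ).2 hψ⟩

variable {𝔉} {𝔊 : FieldSystem B}

/-- A family admitted together with `𝔉` is admitted together with its restriction … -/
def extToRestrict (e : Extension 𝔉 𝔊) : Extension (restrict 𝔉 hcyc) 𝔊 where
  ι := e.ι
  ι_inj := e.ι_inj
  ι_grade := e.ι_grade
  ι_adj := e.ι_adj
  ι_der := e.ι_der
  ι_rho := e.ι_rho
  ι_par := e.ι_par
  Dold_le := (Dold_restrict 𝔉 hcyc).le.trans e.Dold_le
  agree := fun n A f => (e.agree n A f).trans (word_restrict 𝔉 hcyc A f).symm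
  fin_gen := e.fin_gen

/-- … and conversely: `Extension` does not see the domain of the original fields. -/
def extOfRestrict (e : Extension (restrict 𝔉 hcyc) 𝔊) : Extension 𝔉 𝔊 where
  ι := e.ι
  ι_inj := e.ι_inj
  ι_grade := e.ι_grade
  ι_adj := e.ι_adj
  ι_der := e.ι_der
  ι_rho := e.ι_rho
  ι_par := e.ι_par
  Dold_le := (Dold_restrict 𝔉 hcyc).ge.trans e.Dold_le
  agree := fun n A f => (e.agree n A f).trans (word_restrict 𝔉 hcyc A f)
  fin_gen := e.fin_gen

variable (𝔉)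

/-- **Only the first clause of `Conclusion` sees the domain of the original fields.**  All the other clauses (the field `L`, the
improved tensor, its Ward identities, the clause over all admitted families) hold for `𝔉` if and only if they hold for the
restriction of `𝔉` to `𝓓_fact`. -/
theorem conclusion_restrict (S : StressData 𝔉) (h : Conclusion 𝔉 S)
    (h1 : (restrict 𝔉 hcyc).AffineWardOn (restrict 𝔉 hcyc).jointAlg
      (restrictStress 𝔉 hcyc S).T4 (restrictStress 𝔉 hcyc S).V3) :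
    Conclusion (restrict 𝔉 hcyc) (restrictStress 𝔉 hcyc S) := by
  obtain ⟨_, 𝔏, e, L, h2, h3, h4, h5, h6, h7, h8, h9, h10, h11, h12, h13, h14, h15, hG⟩ := h
  exact ⟨h1, 𝔏, extToRestrict hcyc e, L, h2, h3, h4, h5, h6, h7, h8, h9, h10, h11, h12, h13, h14, h15,
    fun 𝔊 eG => hG 𝔊 (extOfRestrict hcyc eG)⟩

theorem conclusion_of_restrict (S : StressData 𝔉)
    (h : Conclusion (restrict 𝔉 hcyc) (restrictStress 𝔉 hcyc S))
    (h1 : 𝔉.AffineWardOn 𝔉.jointAlg S.T4 S.V3) : Conclusion 𝔉 S := by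
  obtain ⟨_, 𝔏, e, L, h2, h3, h4, h5, h6, h7, h8, h9, h10, h11, h12, h13, h14, h15, hG⟩ := h
  exact ⟨h1, 𝔏, extOfRestrict hcyc e, L, h2, h3, h4, h5, h6, h7, h8, h9, h10, h11, h12, h13, h14, h15,
    fun 𝔊 eG => hG 𝔊 (extToRestrict hcyc eG)⟩

end SanityRestrict
end Claimed.Open.R282
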