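import Claimed.Open.R282.SanityHerm
import Claimed.Open.R282.SanityCharge
import Claimed.Open.R282.SanityCone
import Claimed.Open.R282.SanitySlab
import Claimed.Open.R282.SanityTangent
import Claimed.Open.R282.SanityKilling

/-!
# Section 2.3, second half: the scaling argument.  The first clause of `Conclusion` on `localAlg`, in EVERY theory

No model: everything is proved for an ARBITRARY `FieldSystem` over an arbitrary `Background` (cyclicity is not used).

**`first_clause_local`**: for every `S : StressData 𝔉` the fields `T⁽⁴⁾`, `V⁽³⁾` satisfy `AffineWardOn localAlg`: this is the first clause of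
`Conclusion` with `localAlg` in place of `jointAlg`.  With `SanityAlgebra.lean` they are again a `StressData` (`stressData4`).

The proof is the paper's ("the Ward identities are finite scalar sums of real exponentials"), in one step for all affine fields:
* `cov_dil`, `cj_mem`: conjugation by the dilation `δ_s = U(0,1,s)` multiplies a field of dimension `Δ` by `e^{s(Δ-4)}` and transports its test
  function; it maps `localAlg K` into `localAlg (e^s K)`;
* `isSlabFor_scale`, `push_mulT_affine`, `push_toC` (helper215): `F^{[s]}_μ(y) = e^{-s} F_μ(e^{-s} y)` is a slab of `e^s K`, and the test functions of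
  `charge`, `flux` are transported to those of the field `e^s c + M x + κ x` and the slab `F^{[s]}`;
* `cj_charge`: so the affine charge of a homogeneous pair `(T^{(d)}, V^{(d-1)})` has weight `d - 4`;
* `isTangent_scaleCurve`, `Uact_scale`: the curve `δ_s γ δ_s⁻¹` is tangent to `(e^s c, M, κ)`;
* `ward_component`: the Ward identity for `(γ, F, P, φ, ψ)` and the one for the transported data have the same left side, whence
  `∑_d a_d = ∑_d e^{-s(d-4)} a_d` for all `s`, where `a_d` is the matrix element of the commutator with the charge of `(T^{(d)}, V^{(d-1)})`;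
* `eq_zero_of_exp_sum` (helper215; Vandermonde): `a_d = 0` for `d ≠ 4`;
* `exists_finset_comp`, `ward_comp`: every label is the finite sum of its components.

Consequences: `ward_congr_flux`; **`affineWard_improved_iff_flux`**: for a Bose label `L` of `𝔉` itself, `t = T⁽⁴⁾ + (1/3)(∂∂ - η□)L` satisfies the
affine Ward identities without virial term iff the fluxes of `V⁽³⁾` and of `∂L` act alike on the enclosed fields.

Not shown: the same on `jointAlg` (insertions with joint kernels), which is what `Conclusion` asks.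
-/

open scoped Distributions ContDiff InnerProductSpace ComplexConjugate Topology
open TopologicalSpace

noncomputable section

namespace Claimed.Open.R282
namespace SanityScale

open SanityAlgebra

/-! ### 0. Scaled slabs, transported test functions, independence of exponentials (proofs of this section: helper215) -/

/-- the dilation `x ↦ e^s x` -/
def dil (s : ℝ) : Sim := ⟨0, 1, s⟩

theorem dil_act (s : ℝ) (x : M4) : (dil s).act x = Real.exp s • x := by
  simp [dil, Sim.act, Sanity.lorentz_one_mulVec]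

theorem invAct_dil (s : ℝ) (x : M4) : SanityTest.invAct (dil s) x = Real.exp (-s) • x := by
  simp [dil, SanityTest.invAct, Sanity.lorentz_one_mulVec]

theorem contDiff_scale (r : ℝ) : ContDiff ℝ ∞ fun y : M4 => r • y := contDiff_const_smul r

/-- the homeomorphism `y ↦ e^{-s} y` -/
def scaleHomeo (s : ℝ) : M4 ≃ₜ M4 := Homeomorph.smulOfNeZero (Real.exp (-s)) (Real.exp_ne_zero _)

/-- the scaled slab `y ↦ e^{-s} F_μ(e^{-s} y)` -/
def scaleSlab (s : ℝ) (F : Fin 4 → RTest) (μ : Fin 4) : RTest :=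
  ⟨fun y => Real.exp (-s) * F μ (Real.exp (-s) • y),
    contDiff_const.mul ((F μ).contDiff.comp (contDiff_scale _)),
    ((F μ).hasCompactSupport.comp_homeomorph (scaleHomeo s)).mul_left, fun _ _ => trivial⟩

theorem scaleSlab_apply (s : ℝ) (F : Fin 4 → RTest) (μ : Fin 4) (y : M4) :
    scaleSlab s F μ y = Real.exp (-s) * F μ (Real.exp (-s) • y) := rfl

theorem exp_neg_smul_exp_smul (s : ℝ) (x : M4) : Real.exp (-s) • Real.exp s • x = x := by
  rw [smul_smul, ← Real.exp_add, neg_add_cancel, Real.exp_zero, one_smul]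

theorem exp_smul_exp_neg_smul (s : ℝ) (x : M4) : Real.exp s • Real.exp (-s) • x = x := by
  rw [smul_smul, ← Real.exp_add, add_neg_cancel, Real.exp_zero, one_smul]

theorem isSlabFor_scale (s : ℝ) {K : Set M4} {F : Fin 4 → RTest} (hF : IsSlabFor K F) :
    IsSlabFor ((dil s).act '' K) (scaleSlab s F) := by
  obtain ⟨ρ, hρ, ⟨N, hN, hKN, hd⟩, ⟨Cp, hCp, hp⟩, ⟨Cm, hCm, hm⟩⟩ := hF
  have hcont : Continuous fun y : M4 => Real.exp (-s) • y := (contDiff_scale _).continuous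
  have hcont' : Continuous fun y : M4 => Real.exp s • y := (contDiff_scale _).continuous
  have hfut : ∀ y ∈ causalFuture ((dil s).act '' K), Real.exp (-s) • y ∈ causalFuture K := by
    intro y hy
    rw [SanityCone.causalFuture_image_act] at hy
    obtain ⟨x, hx, rfl⟩ := hy
    rwa [dil_act, exp_neg_smul_exp_smul]
  have hpast : ∀ y ∈ causalPast ((dil s).act '' K), Real.exp (-s) • y ∈ causalPast K := by
    intro y hy
    rw [SanityCone.causalPast_image_act] at hy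
    obtain ⟨x, hx, rfl⟩ := hy
    rwa [dil_act, exp_neg_smul_exp_smul]
  refine ⟨fun y => ρ (Real.exp (-s) • y), hρ.comp (contDiff_scale _),
    ⟨(fun y : M4 => Real.exp (-s) • y) ⁻¹' N, hN.preimage hcont, ?_, ?_⟩,
    ⟨(fun y : M4 => Real.exp s • y) '' Cp, hCp.image hcont', ?_⟩,
    ⟨(fun y : M4 => Real.exp s • y) '' Cm, hCm.image hcont', ?_⟩⟩
  · rintro y (hy | hy)
    · exact hKN (Or.inl (hfut y hy))
    · exact hKN (Or.inr (hpast y hy))
  · intro y hy μ
    have h1 : HasFDerivAt (fun y : M4 => Real.exp (-s) • y)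
        (Real.exp (-s) • ContinuousLinearMap.id ℝ M4) y :=
      (Real.exp (-s) • ContinuousLinearMap.id ℝ M4).hasFDerivAt
    have h2 : HasFDerivAt ρ (fderiv ℝ ρ (Real.exp (-s) • y)) (Real.exp (-s) • y) :=
      ((hρ.differentiable (by simp)) _).hasFDerivAt
    have h3 := h2.comp y h1
    have h4 : fderiv ℝ (fun y => ρ (Real.exp (-s) • y)) y
        = (fderiv ℝ ρ (Real.exp (-s) • y)).comp (Real.exp (-s) • ContinuousLinearMap.id ℝ M4) := h3.fderiv
    rw [h4, scaleSlab_apply, hd _ hy μ]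
    simp
  · intro y hy hyC
    refine hp _ (hfut y hy) fun hc => hyC ⟨_, hc, ?_⟩
    exact exp_smul_exp_neg_smul s y
  · intro y hy hyC
    refine hm _ (hpast y hy) fun hc => hyC ⟨_, hc, ?_⟩
    exact exp_smul_exp_neg_smul s y

theorem contDiff_affineField (c : M4) (M : Matrix (Fin 4) (Fin 4) ℝ) (κ : ℝ) (ν : Fin 4) :
    ContDiff ℝ ∞ fun x : M4 => affineField c M κ x ν := by
  apply SanityTest.contDiff_component
  unfold affineField
  exact (contDiff_const.add (SanityTest.mulVec_contDiff M)).add (contDiff_scale κ)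

theorem push_apply (g : Sim) (f : Test) (x : M4) : SanityTest.push g f x = f (SanityTest.invAct g x) := rfl

theorem push_mulT_affine (s : ℝ) (c : M4) (M : Matrix (Fin 4) (Fin 4) ℝ) (κ : ℝ) (F : Fin 4 → RTest)
    (μ ν : Fin 4) :
    SanityTest.push (dil s) (mulT (fun x => affineField c M κ x ν) (toC (F μ)))
      = mulT (fun x => affineField (Real.exp s • c) M κ x ν) (toC (scaleSlab s F μ)) := by
  ext y
  rw [push_apply, invAct_dil, SanityTest.mulT_apply (contDiff_affineField c M κ ν),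
    SanityTest.mulT_apply (contDiff_affineField _ M κ ν), SanityTest.toC_apply, SanityTest.toC_apply,
    scaleSlab_apply]
  have h1 : affineField c M κ (Real.exp (-s) • y) ν
      = Real.exp (-s) * affineField (Real.exp s • c) M κ y ν := by
    simp only [affineField, Pi.add_apply, Pi.smul_apply, smul_eq_mul, Matrix.mulVec_smul]
    have h2 : Real.exp (-s) * Real.exp s = 1 := by rw [← Real.exp_add, neg_add_cancel, Real.exp_zero]
    linear_combination (-(c ν)) * h2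
  rw [h1]
  push_cast
  ring

theorem push_toC (s : ℝ) (F : Fin 4 → RTest) (μ : Fin 4) :
    SanityTest.push (dil s) (toC (F μ)) = (Real.exp s : ℂ) • toC (scaleSlab s F μ) := by
  ext y
  rw [push_apply, invAct_dil, SanityTest.toC_apply, smul_apply, SanityTest.toC_apply, scaleSlab_apply, smul_eq_mul]
  have h2 : (Real.exp s : ℂ) * (Real.exp (-s) : ℂ) = 1 := by
    rw [← Complex.ofReal_mul, ← Real.exp_add, add_neg_cancel, Real.exp_zero, Complex.ofReal_one]
  rw [Complex.ofReal_mul]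
  linear_combination (-(F μ (Real.exp (-s) • y) : ℂ)) * h2


/-- Finitely many exponentials `s ↦ e^{-s(d-4)}` with distinct `d` are linearly independent: if the sum does not depend on `s`,
only the term `d = 4` survives. -/
theorem eq_zero_of_exp_sum (S : Finset ℝ) (a : ℝ → ℂ) (h4 : (4 : ℝ) ∈ S)
    (h : ∀ s : ℝ, ∑ d ∈ S, (Real.exp (-(s * (d - 4))) : ℂ) * a d = ∑ d ∈ S, a d) :
    ∀ d ∈ S, d ≠ 4 → a d = 0 := by
  classical
  set F : ℝ → ℂ := fun d => (Real.exp (-(d - 4)) : ℂ) with hF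
  set b : ℝ → ℂ := fun d => if d = 4 then a 4 - ∑ d ∈ S, a d else a d with hb
  have hFinj : Function.Injective F := by
    intro x y hxy
    have h1 : Real.exp (-(x - 4)) = Real.exp (-(y - 4)) := Complex.ofReal_injective hxy
    have h2 := Real.exp_injective h1
    linarith
  have hFpow : ∀ (d : ℝ) (k : ℕ), F d ^ k = (Real.exp (-((k : ℝ) * (d - 4))) : ℂ) := by
    intro d k
    simp only [hF]
    rw [← Complex.ofReal_pow, ← Real.exp_nat_mul]
    congr 2
    ring
  have hsum : ∀ k : ℕ, ∑ d ∈ S, b d * F d ^ k = 0 := by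
    intro k
    have h1 : ∀ d ∈ S, b d * F d ^ k
        = (Real.exp (-((k : ℝ) * (d - 4))) : ℂ) * a d - if d = 4 then ∑ d ∈ S, a d else 0 := by
      intro d _
      rw [hFpow]
      simp only [hb]
      split_ifs with hd
      · subst hd
        simp
      · ring
    rw [Finset.sum_congr rfl h1, Finset.sum_sub_distrib, h (k : ℝ), Finset.sum_ite_eq' S 4, if_pos h4, sub_self]
  let e := S.equivFin
  have hv : (fun j : Fin S.card => b (e.symm j : ℝ)) = 0 := by
    refine Matrix.eq_zero_of_forall_pow_sum_mul_pow_eq_zero (f := fun j : Fin S.card => F (e.symm j : ℝ)) ?_ ?_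
    · intro i j hij
      exact e.symm.injective (Subtype.ext (hFinj hij))
    · intro i
      rw [Equiv.sum_comp e.symm (fun x : S => b (x : ℝ) * F (x : ℝ) ^ (i : ℕ)),
        Finset.sum_coe_sort S (fun d => b d * F d ^ (i : ℕ))]
      exact hsum i
  intro d hd hd4
  have h1 := congrFun hv (e ⟨d, hd⟩)
  simp only [Equiv.symm_apply_apply, Pi.zero_apply, hb, if_neg hd4] at h1
  exact h1

variable {H : Type} [NormedAddCommGroup H] [InnerProductSpace ℂ H] [CompleteSpace H]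
variable {B : Background H} (𝔉 : FieldSystem B)

/-! ### 1. The symmetries on the invariant domain -/

/-- `U(g)` on the invariant domain. -/
def Ud (g : Sim) : Module.End ℂ 𝔉.domain where
  toFun ψ := 𝔉.Uact g ψ
  map_add' a b := Subtype.ext (by simp [FieldSystem.Uact])
  map_smul' r a := Subtype.ext (by simp [FieldSystem.Uact])

theorem Ud_mul (g g' : Sim) : Ud 𝔉 g * Ud 𝔉 g' = Ud 𝔉 (g.mul g') :=
  LinearMap.ext fun ψ => Subtype.ext (by
    change B.U g (B.U g' (ψ : H)) = B.U (g.mul g') (ψ : H)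
    rw [B.U_mul]; rfl)

theorem Ud_one : Ud 𝔉 Sim.one = 1 :=
  LinearMap.ext fun ψ => Subtype.ext (by
    change B.U Sim.one (ψ : H) = ψ
    rw [B.U_one]; rfl)

theorem dil_mul_neg (s : ℝ) : (dil s).mul (dil (-s)) = Sim.one := by
  simp [dil, Sim.mul, Sim.one, Sim.act]

theorem dil_neg_mul (s : ℝ) : (dil (-s)).mul (dil s) = Sim.one := by
  simp [dil, Sim.mul, Sim.one, Sim.act]

theorem Ud_dil (s : ℝ) : Ud 𝔉 (dil s) * Ud 𝔉 (dil (-s)) = 1 := by rw [Ud_mul, dil_mul_neg, Ud_one]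

theorem Ud_dil' (s : ℝ) : Ud 𝔉 (dil (-s)) * Ud 𝔉 (dil s) = 1 := by rw [Ud_mul, dil_neg_mul, Ud_one]

theorem Ud_dil'_cancel (s : ℝ) (X : Module.End ℂ 𝔉.domain) : Ud 𝔉 (dil (-s)) * (Ud 𝔉 (dil s) * X) = X := by
  rw [← mul_assoc, Ud_dil', one_mul]

theorem Ud_inner (g : Sim) (φ ψ : 𝔉.domain) : ⟪(Ud 𝔉 g φ : H), (Ud 𝔉 g ψ : H)⟫_ℂ = ⟪(φ : H), (ψ : H)⟫_ℂ := by
  change ⟪B.U g (φ : H), B.U g (ψ : H)⟫_ℂ = _
  rw [← ContinuousLinearMap.adjoint_inner_right]
  have h := (Unitary.mem_iff.1 (B.U_unitary g)).1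
  rw [ContinuousLinearMap.star_eq_adjoint] at h
  have h2 := congrArg (fun X : H →L[ℂ] H => X (ψ : H)) h
  change ContinuousLinearMap.adjoint (B.U g) (B.U g (ψ : H)) = ψ at h2
  rw [h2]

/-- The homogeneous dilation law as a conjugation. -/
theorem cov_dil (s : ℝ) {Δ : ℝ} {A : 𝔉.F} (hA : A ∈ 𝔉.grade Δ) (f : Test) :
    Ud 𝔉 (dil s) * 𝔉.op A f * Ud 𝔉 (dil (-s)) =
      (Real.exp (s * (Δ - 4)) : ℂ) • 𝔉.op A (SanityTest.push (dil s) f) := by
  have h : Ud 𝔉 (dil s) * 𝔉.op A f =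
      (Real.exp (s * (Δ - 4)) : ℂ) • (𝔉.op A (SanityTest.push (dil s) f) * Ud 𝔉 (dil s)) := by
    refine LinearMap.ext fun ψ => Subtype.ext ?_
    have h1 := 𝔉.op_cov (dil s) Δ A hA f (SanityTest.push (dil s) f) (SanityTest.push_act (dil s) f) ψ
    have h2 : 𝔉.rho (dil s).A A = A := by
      change 𝔉.rho 1 A = A
      rw [map_one]; rfl
    rw [h2] at h1
    exact h1
  rw [h, smul_mul_assoc, mul_assoc, Ud_dil, mul_one]

theorem cj_mem (s : ℝ) {K : Set M4} {P : Module.End ℂ 𝔉.domain} (hP : P ∈ 𝔉.localAlg K) :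
    Ud 𝔉 (dil s) * P * Ud 𝔉 (dil (-s)) ∈ 𝔉.localAlg ((dil s).act '' K) := by
  unfold FieldSystem.localAlg at hP ⊢
  induction hP using Algebra.adjoin_induction with
  | mem X hX =>
    obtain ⟨A, f, hf, rfl⟩ := hX
    refine label_induction 𝔉 (p := fun A => Ud 𝔉 (dil s) * 𝔉.op A f * Ud 𝔉 (dil (-s)) ∈
      Algebra.adjoin ℂ {X | ∃ (A : 𝔉.F) (f : Test), tsupport f ⊆ (dil s).act '' K ∧ X = 𝔉.op A f}) ?_ ?_ ?_ A
    · intro Δ A hA
      rw [cov_dil 𝔉 s hA]
      have hm : 𝔉.op A (SanityTest.push (dil s) f) ∈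
          Algebra.adjoin ℂ {X | ∃ (A : 𝔉.F) (f : Test), tsupport f ⊆ (dil s).act '' K ∧ X = 𝔉.op A f} :=
        Algebra.subset_adjoin ⟨A, _, by rw [SanityTest.tsupport_push]; exact Set.image_mono hf, rfl⟩
      exact Subalgebra.smul_mem _ hm _
    · rw [map_zero, LinearMap.zero_apply, mul_zero, zero_mul]
      exact Subalgebra.zero_mem _
    · intro A A' h h'
      rw [map_add, LinearMap.add_apply, mul_add, add_mul]
      exact Subalgebra.add_mem _ h h'
  | algebraMap r =>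
    rw [Algebra.algebraMap_eq_smul_one, mul_smul_comm, mul_one, smul_mul_assoc, Ud_dil,
      ← Algebra.algebraMap_eq_smul_one]
    exact Subalgebra.algebraMap_mem _ r
  | add P Q _ _ hP hQ =>
    rw [mul_add, add_mul]
    exact Subalgebra.add_mem _ hP hQ
  | mul P Q _ _ hP hQ =>
    have h : Ud 𝔉 (dil s) * (P * Q) * Ud 𝔉 (dil (-s)) =
        (Ud 𝔉 (dil s) * P * Ud 𝔉 (dil (-s))) * (Ud 𝔉 (dil s) * Q * Ud 𝔉 (dil (-s))) := by
      simp only [mul_assoc, Ud_dil'_cancel]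
    rw [h]
    exact Subalgebra.mul_mem _ hP hQ

theorem cj_comm (s : ℝ) (Q P : Module.End ℂ 𝔉.domain) :
    𝔉.comm (Ud 𝔉 (dil s) * Q * Ud 𝔉 (dil (-s))) (Ud 𝔉 (dil s) * P * Ud 𝔉 (dil (-s))) =
      Ud 𝔉 (dil s) * 𝔉.comm Q P * Ud 𝔉 (dil (-s)) := by
  unfold FieldSystem.comm
  simp only [mul_sub, sub_mul, mul_assoc, Ud_dil'_cancel]

/-- The affine charge of a homogeneous pair `(T^{(d)}, V^{(d-1)})` has weight `d - 4` under dilations, if the translation part of the
vector field and the slab are scaled along. -/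
theorem cj_charge (s : ℝ) {d : ℝ} {T : Fin 4 → Fin 4 → 𝔉.F} {V : Fin 4 → 𝔉.F} (hT : ∀ μ ν, T μ ν ∈ 𝔉.grade d)
    (hV : ∀ μ, V μ ∈ 𝔉.grade (d - 1)) (c : M4) (M : Matrix (Fin 4) (Fin 4) ℝ) (κ : ℝ) (F : Fin 4 → RTest) :
    Ud 𝔉 (dil s) * (𝔉.charge T (affineField c M κ) F - (κ : ℂ) • 𝔉.flux V F) * Ud 𝔉 (dil (-s)) =
      (Real.exp (s * (d - 4)) : ℂ) • (𝔉.charge T (affineField (Real.exp s • c) M κ) (scaleSlab s F) -
        (κ : ℂ) • 𝔉.flux V (scaleSlab s F)) := by
  unfold FieldSystem.charge FieldSystem.flux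
  simp only [mul_sub, sub_mul, Finset.mul_sum, Finset.sum_mul, mul_smul_comm, smul_mul_assoc, cov_dil 𝔉 s (hT _ _),
    cov_dil 𝔉 s (hV _), push_mulT_affine, push_toC, map_smul, smul_smul, smul_sub, Finset.smul_sum]
  congr 1
  · exact Finset.sum_congr rfl fun μ _ => Finset.sum_congr rfl fun ν _ => by rw [mul_comm]
  · refine Finset.sum_congr rfl fun μ _ => ?_
    congr 1
    rw [← Complex.ofReal_mul (Real.exp _) (Real.exp s), ← Real.exp_add]
    have h1 : s * d - s * 1 - s * 4 + s = s * d - s * 4 := by ring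
    rw [h1]
    ring

/-! ### 2. The conjugated curve -/

/-- `δ_s γ(τ) δ_s⁻¹`. -/
def scaleCurve (s : ℝ) (γ : ℝ → Sim) (τ : ℝ) : Sim := ⟨Real.exp s • (γ τ).a, (γ τ).A, (γ τ).s⟩

theorem isTangent_scaleCurve (s : ℝ) {γ : ℝ → Sim} {c : M4} {M : Matrix (Fin 4) (Fin 4) ℝ} {κ : ℝ}
    (h : IsTangent γ c M κ) : IsTangent (scaleCurve s γ) (Real.exp s • c) M κ := by
  obtain ⟨h0, ha, hA, hL, hs⟩ := h
  refine ⟨?_, ha.const_smul (Real.exp s), hA, hL, hs⟩
  unfold scaleCurve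
  rw [h0]
  simp [Sim.one]

theorem scaleCurve_mul (s : ℝ) (γ : ℝ → Sim) (τ : ℝ) : (scaleCurve s γ τ).mul (dil s) = (dil s).mul (γ τ) := by
  simp [scaleCurve, dil, Sim.mul, Sim.act, Sanity.lorentz_one, add_comm]

theorem Uact_scale (s : ℝ) (γ : ℝ → Sim) (τ : ℝ) (χ : 𝔉.domain) :
    𝔉.Uact (scaleCurve s γ τ) (Ud 𝔉 (dil s) χ) = Ud 𝔉 (dil s) (𝔉.Uact (γ τ) χ) :=
  congrArg (fun X : Module.End ℂ 𝔉.domain => X χ) ((Ud_mul 𝔉 (scaleCurve s γ τ) (dil s)).trans
    ((congrArg (Ud 𝔉) (scaleCurve_mul s γ τ)).trans (Ud_mul 𝔉 (dil s) (γ τ)).symm))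

/-! ### 3. The scaling identity -/

theorem inner_comm_sum (S : Finset ℝ) (Q : ℝ → Module.End ℂ 𝔉.domain) (P : Module.End ℂ 𝔉.domain)
    (φ ψ : 𝔉.domain) : ⟪(φ : H), (((-Complex.I) • 𝔉.comm (∑ d ∈ S, Q d) P) ψ : H)⟫_ℂ =
      ∑ d ∈ S, ⟪(φ : H), (((-Complex.I) • 𝔉.comm (Q d) P) ψ : H)⟫_ℂ := by
  have h : (-Complex.I) • 𝔉.comm (∑ d ∈ S, Q d) P = ∑ d ∈ S, (-Complex.I) • 𝔉.comm (Q d) P := by
    unfold FieldSystem.comm
    rw [Finset.sum_mul, Finset.mul_sum, ← Finset.sum_sub_distrib, Finset.smul_sum]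
  rw [h, LinearMap.sum_apply, Submodule.coe_sum, inner_sum]

theorem Ud_dil'_apply (s : ℝ) (ψ : 𝔉.domain) : Ud 𝔉 (dil (-s)) (Ud 𝔉 (dil s) ψ) = ψ :=
  congrArg (fun X : Module.End ℂ 𝔉.domain => X ψ) (Ud_dil' 𝔉 s)

theorem inner_scaled (s w : ℝ) {Q Q' : Module.End ℂ 𝔉.domain}
    (hQ : Ud 𝔉 (dil s) * Q * Ud 𝔉 (dil (-s)) = (Real.exp w : ℂ) • Q') (P : Module.End ℂ 𝔉.domain)
    (φ ψ : 𝔉.domain) :
    ⟪(Ud 𝔉 (dil s) φ : H), (((-Complex.I) • 𝔉.comm Q' (Ud 𝔉 (dil s) * P * Ud 𝔉 (dil (-s))))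
      (Ud 𝔉 (dil s) ψ) : H)⟫_ℂ =
      (Real.exp (-w) : ℂ) * ⟪(φ : H), (((-Complex.I) • 𝔉.comm Q P) ψ : H)⟫_ℂ := by
  have hr : (Real.exp (-w) : ℂ) * (Real.exp w : ℂ) = 1 := by
    rw [← Complex.ofReal_mul, ← Real.exp_add]; simp
  have hQ' : Q' = (Real.exp (-w) : ℂ) • (Ud 𝔉 (dil s) * Q * Ud 𝔉 (dil (-s))) := by
    rw [hQ, smul_smul, hr, one_smul]
  have h1 : 𝔉.comm Q' (Ud 𝔉 (dil s) * P * Ud 𝔉 (dil (-s))) =
      (Real.exp (-w) : ℂ) • (Ud 𝔉 (dil s) * 𝔉.comm Q P * Ud 𝔉 (dil (-s))) := by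
    rw [← cj_comm, hQ']
    unfold FieldSystem.comm
    rw [smul_mul_assoc, mul_smul_comm, smul_sub]
  have h2 : ((-Complex.I) • 𝔉.comm Q' (Ud 𝔉 (dil s) * P * Ud 𝔉 (dil (-s)))) (Ud 𝔉 (dil s) ψ) =
      (Real.exp (-w) : ℂ) • Ud 𝔉 (dil s) (((-Complex.I) • 𝔉.comm Q P) ψ) := by
    rw [h1]
    simp only [LinearMap.smul_apply, Module.End.mul_apply, Ud_dil'_apply, map_smul]
    rw [smul_comm]
  rw [h2, Submodule.coe_smul, inner_smul_right, Ud_inner]

/-- **The scaling argument of Section 2.3.**  If `T = ∑_d T^{(d)}`, `V = ∑_d V^{(d-1)}` (finite sums of homogeneous fields) satisfy the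
affine Ward identities, so do `T^{(4)}`, `V^{(3)}` alone. -/
theorem ward_component {T : Fin 4 → Fin 4 → 𝔉.F} {V : Fin 4 → 𝔉.F} (h : 𝔉.AffineWardOn 𝔉.localAlg T V)
    (S : Finset ℝ) (h4 : (4 : ℝ) ∈ S) (Tc : ℝ → Fin 4 → Fin 4 → 𝔉.F) (Vc : ℝ → Fin 4 → 𝔉.F)
    (hTc : ∀ d μ ν, Tc d μ ν ∈ 𝔉.grade d) (hVc : ∀ d μ, Vc d μ ∈ 𝔉.grade (d - 1))
    (hT : ∀ μ ν, T μ ν = ∑ d ∈ S, Tc d μ ν) (hV : ∀ μ, V μ = ∑ d ∈ S, Vc d μ) :
    𝔉.AffineWardOn 𝔉.localAlg (Tc 4) (Vc 4) := by
  intro γ c M κ hγ K F hF P hP φ ψ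
  have hQ : ∀ (c' : M4) (F' : Fin 4 → RTest),
      𝔉.charge T (affineField c' M κ) F' - (κ : ℂ) • 𝔉.flux V F' =
      ∑ d ∈ S, (𝔉.charge (Tc d) (affineField c' M κ) F' - (κ : ℂ) • 𝔉.flux (Vc d) F') := by
    intro c' F'
    unfold FieldSystem.charge FieldSystem.flux
    simp only [hT, hV, map_sum, LinearMap.sum_apply, Finset.smul_sum, Finset.sum_sub_distrib]
    congr 1
    · symm
      rw [Finset.sum_comm]
      exact Finset.sum_congr rfl fun μ _ => Finset.sum_comm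
    · rw [Finset.sum_comm]
  have h1 := h γ c M κ hγ K F hF P hP φ ψ
  rw [hQ, inner_comm_sum] at h1
  have hscale : ∀ s : ℝ, ∑ d ∈ S, (Real.exp (-(s * (d - 4))) : ℂ) *
      ⟪(φ : H), (((-Complex.I) • 𝔉.comm (𝔉.charge (Tc d) (affineField c M κ) F -
        (κ : ℂ) • 𝔉.flux (Vc d) F) P) ψ : H)⟫_ℂ =
      ∑ d ∈ S, ⟪(φ : H), (((-Complex.I) • 𝔉.comm (𝔉.charge (Tc d) (affineField c M κ) F -
        (κ : ℂ) • 𝔉.flux (Vc d) F) P) ψ : H)⟫_ℂ := by
    intro s
    have h2 := h (scaleCurve s γ) (Real.exp s • c) M κ (isTangent_scaleCurve s hγ) _ (scaleSlab s F)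
      (isSlabFor_scale s hF) _ (cj_mem 𝔉 s hP) (Ud 𝔉 (dil s) φ) (Ud 𝔉 (dil s) ψ)
    have hfun : (fun τ : ℝ => ⟪(𝔉.Uact (scaleCurve s γ τ) (Ud 𝔉 (dil s) φ) : H),
        ((Ud 𝔉 (dil s) * P * Ud 𝔉 (dil (-s))) (𝔉.Uact (scaleCurve s γ τ) (Ud 𝔉 (dil s) ψ)) : H)⟫_ℂ) =
        fun τ : ℝ => ⟪(𝔉.Uact (γ τ) φ : H), (P (𝔉.Uact (γ τ) ψ) : H)⟫_ℂ := by
      funext τ
      rw [Uact_scale, Uact_scale]
      simp only [Module.End.mul_apply, Ud_dil'_apply]
      rw [Ud_inner]
    rw [hfun, hQ, inner_comm_sum] at h2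
    rw [← h2.unique h1]
    exact Finset.sum_congr rfl fun d _ =>
      (inner_scaled 𝔉 s (s * (d - 4)) (cj_charge 𝔉 s (hTc d) (hVc d) c M κ F) P φ ψ).symm
  have hz := eq_zero_of_exp_sum S _ h4 hscale
  rw [Finset.sum_eq_single_of_mem 4 h4 fun d hd hne => hz d hd hne] at h1
  exact h1

/-! ### 4. Every label is the finite sum of its components -/

theorem exists_finset_comp (k : ℝ) (A : 𝔉.F) :
    ∃ s : Finset ℝ, ∀ s' : Finset ℝ, s ⊆ s' → A = ∑ d ∈ s', 𝔉.comp (d - k) A := by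
  refine label_induction 𝔉
    (p := fun A => ∃ s : Finset ℝ, ∀ s' : Finset ℝ, s ⊆ s' → A = ∑ d ∈ s', 𝔉.comp (d - k) A) ?_ ?_ ?_ A
  · intro Δ A hA
    refine ⟨{Δ + k}, fun s' hs => ?_⟩
    rw [Finset.sum_eq_single (Δ + k)]
    · rw [add_sub_cancel_right, comp_of_mem 𝔉 hA]
    · intro d _ hd
      exact comp_of_mem_ne 𝔉 hA fun h => hd (by linarith)
    · intro h; exact absurd (hs (Finset.mem_singleton_self _)) h
  · exact ⟨∅, fun s' _ => by simp [comp_zero]⟩
  · rintro A A' ⟨s, hs⟩ ⟨t, ht⟩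
    refine ⟨s ∪ t, fun s' h => ?_⟩
    simp only [comp_add, Finset.sum_add_distrib]
    rw [← hs s' (Finset.subset_union_left.trans h), ← ht s' (Finset.subset_union_right.trans h)]

/-- The components of dimension four and three of a pair with the affine Ward identities have them too. -/
theorem ward_comp {T : Fin 4 → Fin 4 → 𝔉.F} {V : Fin 4 → 𝔉.F} (h : 𝔉.AffineWardOn 𝔉.localAlg T V) :
    𝔉.AffineWardOn 𝔉.localAlg (fun μ ν => 𝔉.comp 4 (T μ ν)) fun μ => 𝔉.comp 3 (V μ) := by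
  choose sT hsT using fun μ ν => exists_finset_comp 𝔉 0 (T μ ν)
  choose sV hsV using fun μ => exists_finset_comp 𝔉 1 (V μ)
  have h1 := ward_component 𝔉 h
    (insert 4 ((Finset.univ.biUnion fun μ => Finset.univ.biUnion fun ν => sT μ ν) ∪ Finset.univ.biUnion sV))
    (Finset.mem_insert_self _ _) (fun d μ ν => 𝔉.comp d (T μ ν)) (fun d μ => 𝔉.comp (d - 1) (V μ))
    (fun d μ ν => comp_mem 𝔉 d _) (fun d μ => comp_mem 𝔉 (d - 1) _)
    (fun μ ν => by
      have h2 := hsT μ ν _ (show sT μ ν ⊆ insert 4 ((Finset.univ.biUnion fun μ => Finset.univ.biUnion fun ν =>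
        sT μ ν) ∪ Finset.univ.biUnion sV) from fun x hx => Finset.mem_insert_of_mem (Finset.mem_union_left _
          (Finset.mem_biUnion.2 ⟨μ, Finset.mem_univ _, Finset.mem_biUnion.2 ⟨ν, Finset.mem_univ _, hx⟩⟩)))
      simpa only [sub_zero] using h2)
    (fun μ => hsV μ _ fun x hx => Finset.mem_insert_of_mem (Finset.mem_union_right _
      (Finset.mem_biUnion.2 ⟨μ, Finset.mem_univ _, hx⟩)))
  have e : (4 : ℝ) - 1 = 3 := by norm_num
  simp only [e] at h1
  exact h1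

/-! ### 5. In the words of the statement -/

variable {𝔉}

/-- **The first clause of `Conclusion`, read on `localAlg`, holds in every theory** (Section 2.3 of the paper): the replacement
`T ↦ T⁽⁴⁾`, `V ↦ V⁽³⁾` preserves the affine Ward identities. -/
theorem first_clause_local (S : StressData 𝔉) : 𝔉.AffineWardOn 𝔉.localAlg S.T4 S.V3 :=
  ward_comp 𝔉 (SanityHerm.ward_herm_even 𝔉 S)

/-- Section 2.3 in one object: `T⁽⁴⁾`, `V⁽³⁾` are again a stress tensor and a virial field in the sense of `StressData`. -/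
def stressData4 (S : StressData 𝔉) : StressData 𝔉 where
  T := S.T4
  V := S.V3
  T_tensor := T4_tensor S
  V_vector := V3_vector S
  T_symm := T4_symm S
  T_cons := T4_cons S
  trace_eq := trace_T4 S
  ward := first_clause_local S

/-- The virial field may be changed by a current whose fluxes commute with the enclosed fields. -/
theorem ward_congr_flux {T : Fin 4 → Fin 4 → 𝔉.F} {V V' : Fin 4 → 𝔉.F} (h : 𝔉.AffineWardOn 𝔉.localAlg T V)
    (hfl : ∀ K F, IsSlabFor K F → ∀ P ∈ 𝔉.localAlg K, 𝔉.comm (𝔉.flux V F) P = 𝔉.comm (𝔉.flux V' F) P) :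
    𝔉.AffineWardOn 𝔉.localAlg T V' := by
  intro γ c M κ hγ K F hF P hP φ ψ
  have h1 := h γ c M κ hγ K F hF P hP φ ψ
  have h2 : ∀ W : Fin 4 → 𝔉.F, 𝔉.comm (𝔉.charge T (affineField c M κ) F - (κ : ℂ) • 𝔉.flux W F) P =
      𝔉.comm (𝔉.charge T (affineField c M κ) F) P + (-(κ : ℂ)) • 𝔉.comm (𝔉.flux W F) P := by
    intro W
    rw [← SanityCharge.comm_add_smul]
    congr 1
    module
  rw [h2, hfl K F hF P hP, ← h2] at h1
  exact h1

/-- **When the improvement scalar is one of the original fields**: for a Bose label `L` of `𝔉` itself, `t = T⁽⁴⁾ + (1/3)(∂∂ - η□)L` satisfies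
the affine Ward identities without virial term (the clause `ConformalWard.affine`, on `localAlg`) iff the current `V⁽³⁾_μ - ∂_μ L` has
no charge: the fluxes of `V⁽³⁾` and of `∂L` through every slab act alike on the enclosed fields. -/
theorem affineWard_improved_iff_flux (S : StressData 𝔉) {L : 𝔉.F} (hL : 𝔉.par L = L) :
    𝔉.AffineWardOn 𝔉.localAlg (improved 𝔉 S.T4 L) 0 ↔
      ∀ K F, IsSlabFor K F → ∀ P ∈ 𝔉.localAlg K,
        𝔉.comm (𝔉.flux S.V3 F) P = 𝔉.comm (𝔉.flux (fun μ => 𝔉.der μ L) F) P := by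
  rw [SanityCharge.affineWard_improved_iff 𝔉 hL]
  exact ⟨fun h K F hF => SanityCharge.comm_flux_eq_of_ward 𝔉 (first_clause_local S) h hF,
    fun h => ward_congr_flux (first_clause_local S) h⟩

end SanityScale
end Claimed.Open.R282
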