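import Claimed.Open.R282.SanityScale

/-!
# Section 2.3, last sentence; the vacuum Ward identity of the affine fields.  In EVERY theory

No model: everything is proved for an ARBITRARY `FieldSystem` over an arbitrary `Background`.

1. `comm_comp_eq_zero`: "the other corresponding Ward contributions vanish.  This is a statement about charges, not the vanishing of the
   nonselected fields" (Section 2.3 of the paper): if `T`, `V` satisfy the affine Ward identities on `localAlg`, then for `d ≠ 4` the affine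
   charges of the components of dimension `d` of `T` and `d - 1` of `V` commute with the enclosed fields (`inner_component_eq_zero`: the
   scaling identity of `SanityScale.ward_component`, read for the other exponents).  `comm_comp_eq_zero_stress`: for the currents of a `StressData`.
2. `vacuum_of_ward`: the affine Ward identities imply the vacuum Ward identity `⟨Ω, [Q, P] Ω⟩ = 0` (invariance of `Ω`); hence
   `vacuum_T4` (for `T⁽⁴⁾`, `V⁽³⁾`, on `localAlg`, in every theory) and `vacuum_affine_of_affine`: for affine `X` the clause `vacuum` of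
   `ConformalWard` follows from its clause `affine`; it is an independent demand only for the special conformal fields.
-/

open scoped Distributions ContDiff InnerProductSpace ComplexConjugate Topology
open TopologicalSpace

noncomputable section

namespace Claimed.Open.R282
namespace SanityScaleZero

open SanityAlgebra SanityScale

variable {H : Type} [NormedAddCommGroup H] [InnerProductSpace ℂ H] [CompleteSpace H]
variable {B : Background H} (𝔉 : FieldSystem B)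

/-! ### 1. The nonselected components have no affine charges -/

theorem charge_sum (S : Finset ℝ) {T : Fin 4 → Fin 4 → 𝔉.F} {V : Fin 4 → 𝔉.F} (Tc : ℝ → Fin 4 → Fin 4 → 𝔉.F)
    (Vc : ℝ → Fin 4 → 𝔉.F) (hT : ∀ μ ν, T μ ν = ∑ d ∈ S, Tc d μ ν) (hV : ∀ μ, V μ = ∑ d ∈ S, Vc d μ)
    (X : M4 → M4) (κ : ℝ) (F' : Fin 4 → RTest) :
    𝔉.charge T X F' - (κ : ℂ) • 𝔉.flux V F' =
      ∑ d ∈ S, (𝔉.charge (Tc d) X F' - (κ : ℂ) • 𝔉.flux (Vc d) F') := by
  unfold FieldSystem.charge FieldSystem.flux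
  simp only [hT, hV, map_sum, LinearMap.sum_apply, Finset.smul_sum, Finset.sum_sub_distrib]
  congr 1
  · symm
    rw [Finset.sum_comm]
    exact Finset.sum_congr rfl fun μ _ => Finset.sum_comm
  · rw [Finset.sum_comm]

/-- The heart of the scaling argument: the matrix elements of the commutators with the charges of the pairs `(T^{(d)}, V^{(d-1)})`,
`d ≠ 4`, vanish. -/
theorem inner_component_eq_zero {T : Fin 4 → Fin 4 → 𝔉.F} {V : Fin 4 → 𝔉.F} (h : 𝔉.AffineWardOn 𝔉.localAlg T V)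
    (S : Finset ℝ) (h4 : (4 : ℝ) ∈ S) (Tc : ℝ → Fin 4 → Fin 4 → 𝔉.F) (Vc : ℝ → Fin 4 → 𝔉.F)
    (hTc : ∀ d μ ν, Tc d μ ν ∈ 𝔉.grade d) (hVc : ∀ d μ, Vc d μ ∈ 𝔉.grade (d - 1))
    (hT : ∀ μ ν, T μ ν = ∑ d ∈ S, Tc d μ ν) (hV : ∀ μ, V μ = ∑ d ∈ S, Vc d μ)
    {γ : ℝ → Sim} {c : M4} {M : Matrix (Fin 4) (Fin 4) ℝ} {κ : ℝ} (hγ : IsTangent γ c M κ) {K : Set M4}
    {F : Fin 4 → RTest} (hF : IsSlabFor K F) {P : Module.End ℂ 𝔉.domain} (hP : P ∈ 𝔉.localAlg K)
    (φ ψ : 𝔉.domain) : ∀ d ∈ S, d ≠ 4 →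
      ⟪(φ : H), (((-Complex.I) • 𝔉.comm (𝔉.charge (Tc d) (affineField c M κ) F -
        (κ : ℂ) • 𝔉.flux (Vc d) F) P) ψ : H)⟫_ℂ = 0 := by
  have h1 := h γ c M κ hγ K F hF P hP φ ψ
  rw [charge_sum 𝔉 S Tc Vc hT hV, inner_comm_sum] at h1
  have hscale : ∀ s : ℝ, ∑ d ∈ S, (Real.exp (-(s * (d - 4))) : ℂ) *
      ⟪(φ : H), (((-Complex.I) • 𝔉.comm (𝔉.charge (Tc d) (affineField c M κ) F -
        (κ : ℂ) • 𝔉.flux (Vc d) F) P) ψ : H)⟫_ℂ =
      ∑ d ∈ S, ⟪(φ : H), (((-Complex.I) • 𝔉.comm (𝔉.charge (Tc d) (affineField c M κ) F -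
        (κ : ℂ) • 𝔉.flux (Vc d) F) P) ψ : H)⟫_ℂ := by
    intro s
    have h2 := h (scaleCurve s γ) (Real.exp s • c) M κ (isTangent_scaleCurve s hγ) _ (scaleSlab s F)
      (isSlabFor_scale s hF) _ (cj_mem 𝔉 s hP) (Ud 𝔉 (dil s) φ) (Ud 𝔉 (dil s) ψ)
    have hfun : (fun τ : ℝ => ⟪(𝔉.Uact (scaleCurve s γ τ) (Ud 𝔉 (dil s) φ) : H),
        ((Ud 𝔉 (dil s) * P * Ud 𝔉 (dil (-s))) (𝔉.Uact (scaleCurve s γ τ) (Ud 𝔉 (dil s) ψ)) : H)⟫_ℂ) =
        fun τ : ℝ => ⟪(𝔉.Uact (γ τ) φ : H), (P (𝔉.Uact (γ τ) ψ) : H)⟫_ℂ := by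
      funext τ
      rw [Uact_scale, Uact_scale]
      simp only [Module.End.mul_apply, Ud_dil'_apply]
      rw [Ud_inner]
    rw [hfun, charge_sum 𝔉 S Tc Vc hT hV, inner_comm_sum] at h2
    rw [← h2.unique h1]
    exact Finset.sum_congr rfl fun d _ =>
      (inner_scaled 𝔉 s (s * (d - 4)) (cj_charge 𝔉 s (hTc d) (hVc d) c M κ F) P φ ψ).symm
  exact eq_zero_of_exp_sum S _ h4 hscale

/-- "The other corresponding Ward contributions vanish.  This is a statement about charges, not the vanishing of the nonselected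
fields" (Section 2.3): for `d ≠ 4` the affine charges of the components of dimension `d` of `T` and `d - 1` of `V` commute with the
enclosed fields. -/
theorem comm_comp_eq_zero {T : Fin 4 → Fin 4 → 𝔉.F} {V : Fin 4 → 𝔉.F} (h : 𝔉.AffineWardOn 𝔉.localAlg T V)
    {d : ℝ} (hd : d ≠ 4) {γ : ℝ → Sim} {c : M4} {M : Matrix (Fin 4) (Fin 4) ℝ} {κ : ℝ} (hγ : IsTangent γ c M κ)
    {K : Set M4} {F : Fin 4 → RTest} (hF : IsSlabFor K F) : ∀ P ∈ 𝔉.localAlg K,
    𝔉.comm (𝔉.charge (fun μ ν => 𝔉.comp d (T μ ν)) (affineField c M κ) F -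
      (κ : ℂ) • 𝔉.flux (fun μ => 𝔉.comp (d - 1) (V μ)) F) P = 0 := by
  intro P hP
  choose sT hsT using fun μ ν => exists_finset_comp 𝔉 0 (T μ ν)
  choose sV hsV using fun μ => exists_finset_comp 𝔉 1 (V μ)
  have h1 : (-Complex.I) • 𝔉.comm (𝔉.charge (fun μ ν => 𝔉.comp d (T μ ν)) (affineField c M κ) F -
      (κ : ℂ) • 𝔉.flux (fun μ => 𝔉.comp (d - 1) (V μ)) F) P = 0 := by
    refine SanityCharge.end_ext_inner' 𝔉 fun φ ψ => ?_
    rw [LinearMap.zero_apply, Submodule.coe_zero, inner_zero_right]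
    exact inner_component_eq_zero 𝔉 h
      (insert 4 (insert d ((Finset.univ.biUnion fun μ => Finset.univ.biUnion fun ν => sT μ ν) ∪
        Finset.univ.biUnion sV)))
      (Finset.mem_insert_self _ _) (fun d μ ν => 𝔉.comp d (T μ ν)) (fun d μ => 𝔉.comp (d - 1) (V μ))
      (fun d μ ν => comp_mem 𝔉 d _) (fun d μ => comp_mem 𝔉 (d - 1) _)
      (fun μ ν => by
        have h2 := hsT μ ν (insert 4 (insert d ((Finset.univ.biUnion fun μ => Finset.univ.biUnion fun ν =>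
          sT μ ν) ∪ Finset.univ.biUnion sV))) fun x hx => Finset.mem_insert_of_mem (Finset.mem_insert_of_mem
            (Finset.mem_union_left _ (Finset.mem_biUnion.2 ⟨μ, Finset.mem_univ _,
              Finset.mem_biUnion.2 ⟨ν, Finset.mem_univ _, hx⟩⟩)))
        simpa only [sub_zero] using h2)
      (fun μ => hsV μ _ fun x hx => Finset.mem_insert_of_mem (Finset.mem_insert_of_mem
        (Finset.mem_union_right _ (Finset.mem_biUnion.2 ⟨μ, Finset.mem_univ _, hx⟩))))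
      hγ hF hP φ ψ d (Finset.mem_insert_of_mem (Finset.mem_insert_self _ _)) hd
  exact (smul_eq_zero.1 h1).resolve_left (neg_ne_zero.2 Complex.I_ne_zero)

/-- The same for the currents of a `StressData`: the components of dimension `d ≠ 4` (`d - 1`) of the Hermitian even parts of `T` (`V`). -/
theorem comm_comp_eq_zero_stress (S : StressData 𝔉) {d : ℝ} (hd : d ≠ 4) {γ : ℝ → Sim} {c : M4}
    {M : Matrix (Fin 4) (Fin 4) ℝ} {κ : ℝ} (hγ : IsTangent γ c M κ) {K : Set M4} {F : Fin 4 → RTest}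
    (hF : IsSlabFor K F) : ∀ P ∈ 𝔉.localAlg K,
    𝔉.comm (𝔉.charge (fun μ ν => 𝔉.comp d (𝔉.hermPart (𝔉.evenPart (S.T μ ν)))) (affineField c M κ) F -
      (κ : ℂ) • 𝔉.flux (fun μ => 𝔉.comp (d - 1) (𝔉.hermPart (𝔉.evenPart (S.V μ)))) F) P = 0 :=
  comm_comp_eq_zero 𝔉 (SanityHerm.ward_herm_even 𝔉 S) hd hγ hF

/-! ### 2. The vacuum Ward identity of the affine fields -/

theorem vacuum_of_ward {Pol : Set M4 → Subalgebra ℂ (Module.End ℂ 𝔉.domain)} {T : Fin 4 → Fin 4 → 𝔉.F}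
    {V : Fin 4 → 𝔉.F} (h : 𝔉.AffineWardOn Pol T V) {γ : ℝ → Sim} {c : M4} {M : Matrix (Fin 4) (Fin 4) ℝ} {κ : ℝ}
    (hγ : IsTangent γ c M κ) {K : Set M4} {F : Fin 4 → RTest} (hF : IsSlabFor K F) : ∀ P ∈ Pol K,
    ⟪B.Ω, (𝔉.comm (𝔉.charge T (affineField c M κ) F - (κ : ℂ) • 𝔉.flux V F) P 𝔉.vac : H)⟫_ℂ = 0 := by
  intro P hP
  have h1 := h γ c M κ hγ K F hF P hP 𝔉.vac 𝔉.vac
  have hconst : (fun s : ℝ => ⟪(𝔉.Uact (γ s) 𝔉.vac : H), (P (𝔉.Uact (γ s) 𝔉.vac) : H)⟫_ℂ) =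
      fun _ => ⟪(𝔉.vac : H), (P 𝔉.vac : H)⟫_ℂ := by
    funext s
    have h0 : 𝔉.Uact (γ s) 𝔉.vac = 𝔉.vac := Subtype.ext (B.U_Ω (γ s))
    rw [h0]
  rw [hconst] at h1
  have h2 := h1.unique (hasDerivAt_const _ _)
  simp only [LinearMap.smul_apply, Submodule.coe_smul, inner_smul_right] at h2
  exact (mul_eq_zero.1 h2).resolve_left (neg_ne_zero.2 Complex.I_ne_zero)

/-- The vacuum Ward identity of the affine charges of `T⁽⁴⁾`, `V⁽³⁾`, in every theory. -/
theorem vacuum_T4 (S : StressData 𝔉) {γ : ℝ → Sim} {c : M4} {M : Matrix (Fin 4) (Fin 4) ℝ} {κ : ℝ}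
    (hγ : IsTangent γ c M κ) {K : Set M4} {F : Fin 4 → RTest} (hF : IsSlabFor K F) : ∀ P ∈ 𝔉.localAlg K,
    ⟪B.Ω, (𝔉.comm (𝔉.charge S.T4 (affineField c M κ) F - (κ : ℂ) • 𝔉.flux S.V3 F) P 𝔉.vac : H)⟫_ℂ = 0 :=
  vacuum_of_ward 𝔉 (first_clause_local S) hγ hF

/-- For affine `X` the clause `vacuum` of `ConformalWard` follows from its clause `affine`. -/
theorem vacuum_affine_of_affine {t : Fin 4 → Fin 4 → 𝔉.F} (h : 𝔉.AffineWardOn 𝔉.jointAlg t 0) {γ : ℝ → Sim} {c : M4}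
    {M : Matrix (Fin 4) (Fin 4) ℝ} {κ : ℝ} (hγ : IsTangent γ c M κ) {K : Set M4} {F : Fin 4 → RTest}
    (hF : IsSlabFor K F) : ∀ P ∈ 𝔉.jointAlg K,
    ⟪B.Ω, (𝔉.comm (𝔉.charge t (affineField c M κ) F) P 𝔉.vac : H)⟫_ℂ = 0 := by
  intro P hP
  have h1 := vacuum_of_ward 𝔉 h hγ hF P hP
  rwa [SanityCharge.flux_zero, smul_zero, sub_zero] at h1

end SanityScaleZero
end Claimed.Open.R282
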