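import Claimed.Open.R282.Statement

/-!
# Result 282, sanity checks: the spectrum condition and affiliation have teeth

`Sanity.lean` meets `SpectrumCondition` and `AffiliatedWith` only in the vacuum theory (`U = 1`, `H = ℂ`), where a wrong sign of
the cone or of the exponent `e^{iP·a}` would not be seen.  Here:

* `spectrumCondition_character_iff` : the one-dimensional representation `a ↦ e^{i p·a}` of the translations (a state of sharp
  momentum `p`, Minkowski product in the exponent as in Section 2 of the paper, `U(x) = e^{iP·x}`) satisfies `SpectrumCondition`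
  **iff** `p` lies in the closed forward cone.  (`character_add`, `character_zero`, `character_mem_unitary`: it is a unitary
  representation.)
  Examples (`spectrumCondition_character`): `spectrumCondition_rest` (`p = (m,0,0,0)`, `m ≥ 0`), `spectrumCondition_lightlike`.
  Non-examples (`not_spectrumCondition_character`): `not_spectrumCondition_negative_energy`, `not_spectrumCondition_tachyon`,
  `not_spectrumCondition_wrong_sign` (`a ↦ e^{-i m a⁰}`, `m > 0`).
  The proof of the non-examples is Fourier inversion for a bump function in momentum space (`integral_fourier_mul_exp`).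
* `affiliatedWith_bounded_iff` : an everywhere defined bounded operator is affiliated with `𝓜` iff it lies in the double commutant
  `𝓜''`; for a von Neumann algebra: iff it belongs to it (`affiliatedWith_bounded_vonNeumann_iff`).  So the members of `𝓜` are
  examples, and every bounded operator outside `𝓜` is a non-example (`not_affiliatedWith_of_not_commute`).
* `affiliatedWith_zero_iff` : the domain matters, even for the zero operator; `affiliatedWith_mono` : isotony.
-/

open scoped InnerProductSpace SchwartzMap FourierTransform Real
open MeasureTheory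

noncomputable section

namespace Claimed.Open.R282
namespace SanitySpectrum

/-! ## 1. The spectrum condition for a sharp momentum -/

/-- The one-dimensional representation `a ↦ e^{i p·a}` of the translation group: sharp momentum `p`. -/
def character (p : M4) (a : M4) : ℂ →L[ℂ] ℂ :=
  Complex.exp (Complex.I * (mink p a : ℂ)) • (1 : ℂ →L[ℂ] ℂ)

lemma inner_character (p a : M4) (φ ψ : ℂ) :
    ⟪φ, character p a ψ⟫_ℂ = Complex.exp (Complex.I * (mink p a : ℂ)) * ((starRingEnd ℂ) φ * ψ) := by
  simp [character]
  ring

/-- `a ↦ e^{i p·a}` is a representation of the translation group ... -/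
theorem character_add (p a b : M4) : character p (a + b) = character p a * character p b := by
  have h : mink p (a + b) = mink p a + mink p b := by
    simp only [mink, Pi.add_apply, mul_add, Finset.sum_add_distrib]
  ext
  simp [character, h, mul_add, Complex.exp_add]
  ring

theorem character_zero (p : M4) : character p 0 = 1 := by
  simp [character, mink]

/-- ... by unitary operators. -/
theorem character_mem_unitary (p a : M4) : character p a ∈ unitary (ℂ →L[ℂ] ℂ) := by
  have h : character p (-a) = star (character p a) := by
    have hm : mink p (-a) = -mink p a := by simp [mink]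
    simp only [character, hm, star_smul, star_one]
    congr 1
    rw [Complex.star_def, ← Complex.exp_conj]
    simp
  rw [Unitary.mem_iff, ← h, ← character_add, ← character_add]
  simp [character_zero]

/-- Positive energy: momenta in the closed forward cone satisfy the spectrum condition. -/
theorem spectrumCondition_character {p : M4} (hp : p ∈ closedCone) : SpectrumCondition (character p) := by
  intro f hf φ ψ
  have h := hf p hp
  calc ∫ a, f a * ⟪φ, character p a ψ⟫_ℂ
      = ∫ a, (f a * Complex.exp (Complex.I * (mink p a : ℂ))) * ((starRingEnd ℂ) φ * ψ) := by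
        congr 1; ext a; rw [inner_character]; ring
    _ = (∫ a, f a * Complex.exp (Complex.I * (mink p a : ℂ))) * ((starRingEnd ℂ) φ * ψ) :=
        integral_mul_const _ _
    _ = 0 := by rw [h, zero_mul]

lemma isClosed_closedCone : IsClosed closedCone := by
  have h1 : IsClosed {p : M4 | 0 ≤ p 0} := isClosed_le continuous_const (continuous_apply 0)
  have h2 : IsClosed {p : M4 | 0 ≤ mink p p} := by
    refine isClosed_le continuous_const ?_
    unfold mink
    fun_prop
  exact h1.inter h2

/-- Euclidean four-space, on which Mathlib's Fourier transform lives. -/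
abbrev E4 : Type := EuclideanSpace ℝ (Fin 4)

/-- The Euclidean frequency `η p / 2π` of the Minkowski momentum `p`. -/
def freq (p : M4) : E4 := WithLp.toLp 2 fun μ => eta μ * p μ / (2 * π)

/-- The Minkowski momentum of a Euclidean frequency. -/
def momentum (w : E4) : M4 := fun μ => 2 * π * eta μ * w μ

lemma eta_mul_eta (μ : Fin 4) : eta μ * eta μ = 1 := by
  unfold eta; split_ifs <;> norm_num

lemma momentum_freq (p : M4) : momentum (freq p) = p := by
  funext μ
  have h : (2 * π) ≠ 0 := by positivity
  simp only [momentum, freq]
  field_simp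
  rw [pow_two, eta_mul_eta, one_mul]

lemma continuous_momentum : Continuous momentum := by
  unfold momentum
  fun_prop

lemma two_pi_inner_freq (v : E4) (p : M4) : 2 * π * ⟪v, freq p⟫_ℝ = mink p (WithLp.ofLp v) := by
  have h : (2 * π) ≠ 0 := by positivity
  simp only [freq, mink, PiLp.inner_apply, RCLike.inner_apply, conj_trivial, Finset.mul_sum]
  refine Finset.sum_congr rfl fun μ _ => ?_
  field_simp

/-- The Minkowski Fourier integral of the pull-back to `ℝ⁴` of the Euclidean Fourier transform of `G` is `G` at the frequency. -/
lemma integral_fourier_mul_exp (G : 𝓢(E4, ℂ)) (p : M4) :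
    ∫ a : M4, (SchwartzMap.compCLMOfContinuousLinearEquiv ℂ (EuclideanSpace.equiv (Fin 4) ℝ).symm (𝓕 G)) a *
      Complex.exp (Complex.I * (mink p a : ℂ)) = G (freq p) := by
  have h1 : 𝓕⁻ (𝓕 G) = G := FourierTransform.fourierInv_fourier_eq G
  have h2 : G (freq p) = ∫ v : E4, Complex.exp ((↑(2 * π * ⟪v, freq p⟫_ℝ) * Complex.I)) • (𝓕 G) v := by
    conv_lhs => rw [← h1]
    rw [SchwartzMap.fourierInv_coe, Real.fourierInv_eq']
  rw [h2, ← (PiLp.volume_preserving_ofLp (Fin 4)).integral_comp
    (MeasurableEquiv.toLp 2 (Fin 4 → ℝ)).symm.measurableEmbedding]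
  refine integral_congr_ae (Filter.Eventually.of_forall fun v => ?_)
  simp only [SchwartzMap.compCLMOfContinuousLinearEquiv_apply, Function.comp_apply, smul_eq_mul, two_pi_inner_freq]
  rw [mul_comm, mul_comm Complex.I]
  rfl

/-- Momenta outside the closed forward cone violate the spectrum condition. -/
theorem not_spectrumCondition_character {p : M4} (hp : p ∉ closedCone) : ¬ SpectrumCondition (character p) := by
  intro hS
  -- a ball of frequencies round `freq p` whose momenta avoid the cone
  have hO : IsOpen (momentum ⁻¹' closedConeᶜ) := isClosed_closedCone.isOpen_compl.preimage continuous_momentum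
  have hmem : freq p ∈ momentum ⁻¹' closedConeᶜ := by
    show momentum (freq p) ∉ closedCone
    rwa [momentum_freq]
  obtain ⟨r, hr, hball⟩ := Metric.isOpen_iff.1 hO _ hmem
  let b : ContDiffBump (freq p) := ⟨r / 2, r, half_pos hr, half_lt_self hr⟩
  have hc : HasCompactSupport fun w : E4 => ((b w : ℝ) : ℂ) :=
    b.hasCompactSupport.comp_left (g := fun x : ℝ => (x : ℂ)) Complex.ofReal_zero
  have hs : ContDiff ℝ (⊤ : ℕ∞) fun w : E4 => ((b w : ℝ) : ℂ) := Complex.ofRealCLM.contDiff.comp b.contDiff
  let G : 𝓢(E4, ℂ) := hc.toSchwartzMap hs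
  have hG : ∀ w, G w = ((b w : ℝ) : ℂ) := fun _ => rfl
  let f : 𝓢(M4, ℂ) := SchwartzMap.compCLMOfContinuousLinearEquiv ℂ (EuclideanSpace.equiv (Fin 4) ℝ).symm (𝓕 G)
  have hf : ∀ q ∈ closedCone, ∫ a, f a * Complex.exp (Complex.I * (mink q a : ℂ)) = 0 := by
    intro q hq
    rw [integral_fourier_mul_exp, hG]
    have : freq q ∉ Metric.ball (freq p) r := fun h => hball h (by rwa [momentum_freq])
    rw [b.zero_of_le_dist (by simpa [Metric.mem_ball, not_lt] using this), Complex.ofReal_zero]
  have h1 := hS f hf 1 1
  have h2 : ∫ a, f a * ⟪(1 : ℂ), character p a 1⟫_ℂ = 1 := by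
    have : ∀ a, f a * ⟪(1 : ℂ), character p a 1⟫_ℂ = f a * Complex.exp (Complex.I * (mink p a : ℂ)) := by
      intro a; rw [inner_character]; simp
    simp_rw [this]
    rw [integral_fourier_mul_exp, hG, b.one_of_mem_closedBall (Metric.mem_closedBall_self (half_pos hr).le), Complex.ofReal_one]
  rw [h2] at h1
  exact one_ne_zero h1

/-- **The spectrum condition for a sharp momentum `p` says exactly `p ∈ \bar V₊`.** -/
theorem spectrumCondition_character_iff (p : M4) : SpectrumCondition (character p) ↔ p ∈ closedCone :=
  ⟨fun h => by_contra fun hp => not_spectrumCondition_character hp h, spectrumCondition_character⟩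

/-- Example: a particle at rest of mass `m ≥ 0` (for `m = 0`: the vacuum). -/
theorem spectrumCondition_rest {m : ℝ} (hm : 0 ≤ m) : SpectrumCondition (character ![m, 0, 0, 0]) := by
  refine spectrumCondition_character ⟨by simpa using hm, ?_⟩
  simp [mink, eta, Fin.sum_univ_four, mul_self_nonneg]

/-- Example: a lightlike momentum on the boundary of the cone. -/
theorem spectrumCondition_lightlike : SpectrumCondition (character ![1, 0, 0, 1]) := by
  refine spectrumCondition_character ⟨by simp, ?_⟩
  simp [mink, eta, Fin.sum_univ_four]

/-- Non-example: negative energy. -/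
theorem not_spectrumCondition_negative_energy {p : M4} (hp : p 0 < 0) : ¬ SpectrumCondition (character p) :=
  not_spectrumCondition_character fun h => absurd h.1 (not_le.2 hp)

/-- Non-example: a spacelike momentum, whatever the sign of its energy. -/
theorem not_spectrumCondition_tachyon {p : M4} (hp : mink p p < 0) : ¬ SpectrumCondition (character p) :=
  not_spectrumCondition_character fun h => absurd h.2 (not_le.2 hp)

/-- Non-example: the sign of the exponent matters.  The representation `a ↦ e^{-i m a⁰}`, `m > 0`, is rejected. -/
theorem not_spectrumCondition_wrong_sign {m : ℝ} (hm : 0 < m) : ¬ SpectrumCondition (character ![-m, 0, 0, 0]) :=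
  not_spectrumCondition_negative_energy (by simpa using hm)

/-! ## 2. Affiliation -/

section

variable {H : Type} [NormedAddCommGroup H] [InnerProductSpace ℂ H]

/-- A bounded operator as an everywhere defined partial map. -/
def bddPMap (x : H →L[ℂ] H) : H →ₗ.[ℂ] H := (x : H →ₗ[ℂ] H).toPMap ⊤

/-- **A bounded, everywhere defined operator is affiliated with `𝓜` iff it lies in `𝓜''`.** -/
theorem affiliatedWith_bounded_iff (x : H →L[ℂ] H) (𝓜 : Set (H →L[ℂ] H)) :
    AffiliatedWith (bddPMap x) 𝓜 ↔ x ∈ Set.centralizer (Set.centralizer 𝓜) := by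
  constructor
  · intro h C hC
    ext ψ
    obtain ⟨_, h2⟩ := h C hC ⟨ψ, trivial⟩
    exact h2.symm
  · intro h C hC ψ
    exact ⟨trivial, (congrArg (fun y : H →L[ℂ] H => y ψ) (h C hC)).symm⟩

/-- For a von Neumann algebra: a bounded operator is affiliated with it iff it belongs to it. -/
theorem affiliatedWith_bounded_vonNeumann_iff [CompleteSpace H] (x : H →L[ℂ] H) (M : VonNeumannAlgebra H) :
    AffiliatedWith (bddPMap x) (M : Set (H →L[ℂ] H)) ↔ x ∈ M := by
  rw [affiliatedWith_bounded_iff, VonNeumannAlgebra.centralizer_centralizer]
  rfl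

/-- Non-example: an operator that fails to commute with one element of the commutant is not affiliated. -/
theorem not_affiliatedWith_of_not_commute {x C : H →L[ℂ] H} {𝓜 : Set (H →L[ℂ] H)}
    (hC : C ∈ Set.centralizer 𝓜) (hx : C * x ≠ x * C) : ¬ AffiliatedWith (bddPMap x) 𝓜 :=
  fun h => hx ((affiliatedWith_bounded_iff x 𝓜).1 h C hC)

/-- The domain matters: the zero operator on the domain `D` is affiliated with `𝓜` iff the commutant of `𝓜` maps `D` into itself. -/
theorem affiliatedWith_zero_iff (D : Submodule ℂ H) (𝓜 : Set (H →L[ℂ] H)) :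
    AffiliatedWith (⟨D, 0⟩ : H →ₗ.[ℂ] H) 𝓜 ↔ ∀ C ∈ Set.centralizer 𝓜, ∀ ψ ∈ D, C ψ ∈ D := by
  constructor
  · intro h C hC ψ hψ
    exact (h C hC ⟨ψ, hψ⟩).1
  · intro h C hC ψ
    exact ⟨h C hC ψ ψ.2, by simp⟩

/-- Isotony: affiliation passes to larger algebras. -/
theorem affiliatedWith_mono {T : H →ₗ.[ℂ] H} {𝓜 𝓝 : Set (H →L[ℂ] H)} (h : 𝓜 ⊆ 𝓝) (hT : AffiliatedWith T 𝓜) :
    AffiliatedWith T 𝓝 :=
  fun C hC => hT C (Set.centralizer_subset h hC)

end

end SanitySpectrum
end Claimed.Open.R282
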