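import Claimed.Open.R282.SanityCone

/-!
# Result 282: the theorem, checked in full on every static finite-dimensional theory

`Sanity.lean` checks `Conclusion` on the one-dimensional Hilbert space, where every operator is a
scalar, so that commutants, affiliation and the uniqueness of joint distributions play no role.
This file checks the **whole** `Conclusion` (every clause, the clause over all admitted families
included) on a class of models in which they do:

* the Hilbert space `H` is any finite-dimensional Hilbert space;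
* the background is *static* (`IsStatic`): `U(g) = 1` for all `g`, and the net is constant on double
  cones, equal to some von Neumann algebra `𝓜` (abelian, by `Background.net_local`);
* `𝔉` is any cyclic field system over it without fields of dimension three and four, with any
  `StressData`.

`static_conclusion` : for such data `Conclusion 𝔉 S` holds, **given** `TensorTotal`: a distribution on
`(ℝ⁴)^n` which vanishes on all product tests vanishes.  This classical fact (kernel theorem, easy half)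
is used in exactly one place, `insertion_commute`: an insertion `P` is determined by *some* joint
distributions `W_{φψ}`, and `P` commutes with the commutant of the net only because these are unique.

What is checked on the way, for **every** field system `𝔊` over a static background:

* `static_domain_eq_top`     : the common domain is all of `H`;
* `op_commute`               : the clause `FieldSystem.affiliated` says that `A(f) ∈ 𝓜'' = 𝓜`
                               (uses `exists_isDoubleCone_superset`: a bounded set lies in a double cone);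
* `centralizer_alg_le`       : `𝓜(R)' ⊆ 𝓜'` for every nonempty open region `R`;
* `static_hasJoint`          : insertions with joint kernels exist;
* `static_compat`, `static_jointlyAffiliated` : the two affiliation clauses of the conclusion;
* `static_agree`             : an admitted family acts on the old domain as before (uses cyclicity).
-/

open scoped Distributions ContDiff InnerProductSpace ComplexConjugate Topology SchwartzMap
open scoped LinearPMap
open TopologicalSpace MeasureTheory

noncomputable section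

namespace Claimed.Open.R282
namespace SanityStatic

open SanityCone

/-- Product tests are total in `C_c^∞((ℝ⁴)^n)`: a distribution that vanishes on all products
`f_1 ⊗ ⋯ ⊗ f_n` vanishes.  (Claimed in the docstring of `FieldSystem.IsJointDist`.) -/
def TensorTotal : Prop :=
  ∀ (n : ℕ) (W : JTest n →L[ℂ] ℂ),
    (∀ (f : Fin n → Test) (h : JTest n), (∀ x, h x = ∏ i, f i (x i)) → W h = 0) → W = 0

/-! ## A. Every bounded set lies in a double cone -/

theorem exists_isDoubleCone_superset {K : Set M4} (hK : Bornology.IsBounded K) :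
    ∃ O, IsDoubleCone O ∧ K ⊆ O := by
  obtain ⟨r, hr⟩ := hK.subset_closedBall (0 : M4)
  set R : ℝ := |r| with hR
  have hR0 : 0 ≤ R := abs_nonneg r
  set c : ℝ := 3 * R + 1 with hc
  have hc0 : 0 < c := by positivity
  refine ⟨{y | y - (-(c • ev 0)) ∈ openCone ∧ (c • ev 0) - y ∈ openCone},
    ⟨-(c • ev 0), c • ev 0, ?_, rfl⟩, ?_⟩
  · have : c • ev 0 - -(c • ev 0) = (2 : ℝ) • (c • ev 0) := by rw [two_smul]; abel
    rw [this]
    exact smul_mem_openCone (by norm_num) (smul_mem_openCone hc0 ev0_mem_openCone)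
  · intro x hx
    have hx' : ‖x‖ ≤ R := by
      have := hr hx
      rw [mem_closedBall_zero_iff] at this
      exact this.trans (le_abs_self r)
    have hi : ∀ i, |x i| ≤ R := fun i => by
      have := norm_le_pi_norm x i
      rw [Real.norm_eq_abs] at this
      exact this.trans hx'
    have h0 := abs_le.mp (hi 0)
    have h1 := abs_le.mp (hi 1)
    have h2 := abs_le.mp (hi 2)
    have h3 := abs_le.mp (hi 3)
    have s1 : x 1 * x 1 ≤ R * R := by nlinarith
    have s2 : x 2 * x 2 ≤ R * R := by nlinarith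
    have s3 : x 3 * x 3 ≤ R * R := by nlinarith
    constructor
    · refine ⟨?_, ?_⟩
      · simp [ev]; linarith
      · rw [mink_expand]
        simp [ev]
        nlinarith
    · refine ⟨?_, ?_⟩
      · simp [ev]; linarith
      · rw [mink_expand]
        simp [ev]
        nlinarith

/-! ## B. Static backgrounds on a finite-dimensional Hilbert space -/

section static

variable {H : Type} [NormedAddCommGroup H] [InnerProductSpace ℂ H] [CompleteSpace H]

/-- A background is *static*: the symmetry group acts trivially and the net is constant on double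
cones. -/
structure IsStatic (B : Background H) (𝓜 : VonNeumannAlgebra H) : Prop where
  U_eq : ∀ g, B.U g = 1
  net_eq : ∀ O, IsDoubleCone O → B.net O = 𝓜

variable {B : Background H} {𝓜 : VonNeumannAlgebra H}

/-- `𝓜(R)' ⊆ 𝓜'` for every nonempty open region. -/
theorem centralizer_alg_le (hB : IsStatic B 𝓜) {R : Set M4} (hR : IsOpen R) (hne : R.Nonempty) :
    Set.centralizer (B.alg R) ⊆ Set.centralizer (𝓜 : Set (H →L[ℂ] H)) := by
  intro C hC
  unfold Background.alg at hC
  split_ifs at hC with hdc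
  · rwa [hB.net_eq R hdc] at hC
  · rw [Set.centralizer_centralizer_centralizer] at hC
    obtain ⟨x, hx⟩ := hne
    obtain ⟨O, hO, -, hcl⟩ := exists_isDoubleCone_subset hR hx
    refine Set.centralizer_subset ?_ hC
    intro y hy
    simp only [Set.mem_iUnion]
    exact ⟨O, ⟨hO, hcl⟩, by rw [hB.net_eq O hO]; exact hy⟩

variable [FiniteDimensional ℂ H] (𝔊 : FieldSystem B)

/-- A dense subspace of a finite-dimensional space is everything. -/
theorem static_domain_eq_top : 𝔊.domain = ⊤ := by
  have hcl : IsClosed (𝔊.domain : Set H) := 𝔊.domain.closed_of_finiteDimensional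
  have h : (𝔊.domain : Set H) = Set.univ := by
    rw [← hcl.closure_eq]; exact 𝔊.domain_dense.closure_eq
  exact SetLike.coe_injective (by rw [h]; rfl)

/-- A vector of `H` as an element of the domain. -/
def inDom (v : H) : 𝔊.domain := ⟨v, by rw [static_domain_eq_top]; trivial⟩

@[simp] theorem coe_inDom (v : H) : ((inDom 𝔊 v : 𝔊.domain) : H) = v := rfl

/-- An operator on `H` as an operator on the domain. -/
def liftEnd (L : H →ₗ[ℂ] H) : Module.End ℂ 𝔊.domain :=
  (L.comp 𝔊.domain.subtype).codRestrict 𝔊.domain (fun ψ => (inDom 𝔊 (L ψ)).2)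

@[simp] theorem coe_liftEnd (L : H →ₗ[ℂ] H) (ψ : 𝔊.domain) :
    ((liftEnd 𝔊 L ψ : 𝔊.domain) : H) = L ψ := rfl

/-- An operator on the domain as an operator on `H`. -/
def lower (X : Module.End ℂ 𝔊.domain) : H →ₗ[ℂ] H where
  toFun v := (X (inDom 𝔊 v) : H)
  map_add' v w := by
    have : inDom 𝔊 (v + w) = inDom 𝔊 v + inDom 𝔊 w := rfl
    rw [this, map_add]; rfl
  map_smul' c v := by
    have : inDom 𝔊 (c • v) = c • inDom 𝔊 v := rfl
    rw [this, map_smul]; rfl

theorem lower_apply (X : Module.End ℂ 𝔊.domain) (v : H) : lower 𝔊 X v = (X (inDom 𝔊 v) : H) := rfl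

/-- Everywhere defined operators that commute with the commutant are affiliated. -/
theorem affiliated_of_commute (X : Module.End ℂ 𝔊.domain) (𝓢 : Set (H →L[ℂ] H))
    (h : ∀ C ∈ Set.centralizer 𝓢, Commute X (liftEnd 𝔊 (C : H →ₗ[ℂ] H))) :
    AffiliatedWith (⟨𝔊.domain, 𝔊.domain.subtype ∘ₗ X⟩ : H →ₗ.[ℂ] H) 𝓢 := by
  intro C hC ψ
  refine ⟨(inDom 𝔊 (C ψ)).2, ?_⟩
  exact congrArg (fun Y : Module.End ℂ 𝔊.domain => ((Y ψ : 𝔊.domain) : H)) (h C hC).eq

/-- The content of `FieldSystem.affiliated` over a static background: `A(f)` commutes with `𝓜'`. -/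
theorem op_commute (hB : IsStatic B 𝓜) (A : 𝔊.F) (f : Test) {C : H →L[ℂ] H}
    (hC : C ∈ Set.centralizer (𝓜 : Set (H →L[ℂ] H))) :
    Commute (𝔊.op A f) (liftEnd 𝔊 (C : H →ₗ[ℂ] H)) := by
  obtain ⟨O, hO, hsub⟩ := exists_isDoubleCone_superset (K := tsupport f)
    f.hasCompactSupport.isCompact.isBounded
  obtain ⟨T, -, hle, -, haff⟩ := 𝔊.affiliated A f O hO hsub
  rw [hB.net_eq O hO] at haff
  apply LinearMap.ext; intro ψ; apply Subtype.ext
  have hψ : (ψ : H) ∈ T.domain := hle.1 ψ.2
  obtain ⟨hmem, heq⟩ := haff C hC ⟨ψ, hψ⟩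
  have e1 : (𝔊.op A f ψ : H) = T ⟨ψ, hψ⟩ := hle.2 (x := ψ) (y := ⟨ψ, hψ⟩) rfl
  have e2 : (𝔊.op A f (inDom 𝔊 (C ψ)) : H) = T ⟨C ψ, hmem⟩ :=
    hle.2 (x := inDom 𝔊 (C ψ)) (y := ⟨C ψ, hmem⟩) rfl
  show (𝔊.op A f (inDom 𝔊 (C ψ)) : H) = C (𝔊.op A f ψ : H)
  rw [e1, e2]; exact heq

omit [FiniteDimensional ℂ H] in
theorem word_commute {n : ℕ} (A : Fin n → 𝔊.F) (f : Fin n → Test) (Y : Module.End ℂ 𝔊.domain)
    (h : ∀ i, Commute (𝔊.op (A i) (f i)) Y) : Commute (𝔊.word A f) Y := by
  unfold FieldSystem.word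
  apply Commute.list_prod_left
  intro x hx
  obtain ⟨i, rfl⟩ := (List.mem_ofFn' _ _).mp hx
  exact h i

/-- **Uniqueness of joint distributions at work**: an insertion commutes with every bounded operator
that commutes with all the words it is built from. -/
theorem insertion_commute (htot : TensorTotal) {n : ℕ} (A : Fin n → 𝔊.F) (h : JTest n)
    (P : Module.End ℂ 𝔊.domain) (hP : 𝔊.IsInsertion A h P) (C : H →L[ℂ] H)
    (hw : ∀ f : Fin n → Test, Commute (𝔊.word A f) (liftEnd 𝔊 (C : H →ₗ[ℂ] H))) :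
    Commute P (liftEnd 𝔊 (C : H →ₗ[ℂ] H)) := by
  apply LinearMap.ext; intro ψ; apply Subtype.ext
  apply ext_inner_left ℂ; intro φ
  obtain ⟨W₁, hW₁, e₁⟩ := hP (inDom 𝔊 φ) (liftEnd 𝔊 (C : H →ₗ[ℂ] H) ψ)
  obtain ⟨W₂, hW₂, e₂⟩ := hP (inDom 𝔊 (ContinuousLinearMap.adjoint C φ)) ψ
  have hWW : W₁ = W₂ := by
    rw [← sub_eq_zero]
    apply htot n
    intro f k hk
    rw [sub_apply, hW₁ f k hk, hW₂ f k hk, sub_eq_zero]
    have hc : ((𝔊.word A f (liftEnd 𝔊 (C : H →ₗ[ℂ] H) ψ) : 𝔊.domain) : H)
        = C ((𝔊.word A f ψ : 𝔊.domain) : H) :=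
      congrArg (fun Y : Module.End ℂ 𝔊.domain => ((Y ψ : 𝔊.domain) : H)) (hw f).eq
    rw [hc, coe_inDom, coe_inDom, ContinuousLinearMap.adjoint_inner_left]
  show ⟪φ, ((P (liftEnd 𝔊 (C : H →ₗ[ℂ] H) ψ) : 𝔊.domain) : H)⟫_ℂ = ⟪φ, C ((P ψ : 𝔊.domain) : H)⟫_ℂ
  rw [← ContinuousLinearMap.adjoint_inner_left]
  rw [coe_inDom] at e₁ e₂
  rw [e₁, e₂, hWW]

/-- Insertions with joint kernels exist: the matrix of `P` in an orthonormal basis is
`W_{b_i b_j}(h)`. -/
theorem static_hasJoint : 𝔊.HasJointInsertions := by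
  intro n A h
  classical
  let b := stdOrthonormalBasis ℂ H
  choose W hW using fun i j => 𝔊.joint n A (inDom 𝔊 (b i)) (inDom 𝔊 (b j))
  let L : H →ₗ[ℂ] H :=
    ∑ i, ∑ j, (W i j h) • (LinearMap.toSpanSingleton ℂ H (b i)).comp (innerₛₗ ℂ (b j))
  refine ⟨liftEnd 𝔊 L, fun φ ψ =>
    ⟨∑ i, ∑ j, (⟪(φ : H), b i⟫_ℂ * ⟪b j, (ψ : H)⟫_ℂ) • W i j, ?_, ?_⟩⟩
  · intro f k hk
    have hψ : ψ = ∑ j, ⟪b j, (ψ : H)⟫_ℂ • inDom 𝔊 (b j) := by
      apply Subtype.ext
      simp [b.sum_repr']
    have h1 : ∀ i, ⟪b i, ((𝔊.word A f ψ : 𝔊.domain) : H)⟫_ℂ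
        = ∑ j, ⟪b j, (ψ : H)⟫_ℂ * W i j k := by
      intro i
      conv_lhs => rw [hψ, map_sum]
      simp only [map_smul, Submodule.coe_sum, Submodule.coe_smul, inner_sum, inner_smul_right]
      refine Finset.sum_congr rfl fun j _ => ?_
      rw [hW i j f k hk]
      rfl
    rw [← b.sum_inner_mul_inner]
    simp only [sum_apply, smul_apply, smul_eq_mul]
    refine Finset.sum_congr rfl fun i _ => ?_
    rw [h1 i, Finset.mul_sum]
    refine Finset.sum_congr rfl fun j _ => ?_
    ring
  · rw [coe_liftEnd]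
    simp only [L, LinearMap.sum_apply, LinearMap.smul_apply, LinearMap.comp_apply,
      LinearMap.toSpanSingleton_apply, inner_sum, inner_smul_right,
      sum_apply, smul_apply, smul_eq_mul]
    refine Finset.sum_congr rfl fun i _ => Finset.sum_congr rfl fun j _ => ?_
    simp only [innerₛₗ_apply_apply]
    ring

theorem test_eq_zero_of_tsupport {E : Type} [NormedAddCommGroup E] [NormedSpace ℝ E]
    (f : 𝓓((⊤ : Opens E), ℂ)) (hf : tsupport f = ∅) : f = 0 := by
  have h0 : (f : E → ℂ) = 0 := tsupport_eq_empty_iff.mp hf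
  ext x
  exact congrFun h0 x

theorem static_compat (hB : IsStatic B 𝓜) : 𝔊.CompatiblyAffiliated := by
  intro A f
  have hfa : (𝔊.pmap A f).IsFormalAdjoint (𝔊.pmap (𝔊.adj A) (conjT f)) := by
    intro x y
    have h := congrArg (starRingEnd ℂ) (𝔊.op_adj A f y x)
    rw [inner_conj_symm, inner_conj_symm] at h
    exact h
  refine ⟨𝔊.pmap A f, Submodule.closed_of_finiteDimensional _, le_refl _,
    hfa.le_adjoint 𝔊.domain_dense, ?_, ?_⟩
  · intro R hR hsupp
    apply affiliated_of_commute
    intro C hC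
    by_cases hne : R.Nonempty
    · exact op_commute 𝔊 hB A f (centralizer_alg_le hB hR hne hC)
    · have hf : f = 0 := test_eq_zero_of_tsupport f
        (Set.subset_eq_empty hsupp (Set.not_nonempty_iff_eq_empty.mp hne))
      rw [hf, map_zero]
      exact Commute.zero_left _
  · intro hA hf
    rw [hA, hf] at hfa
    exact hfa.le_adjoint 𝔊.domain_dense

theorem static_jointlyAffiliated (hB : IsStatic B 𝓜) (htot : TensorTotal) :
    𝔊.JointlyAffiliated := by
  intro n A h P hP
  refine ⟨⟨𝔊.domain, 𝔊.domain.subtype ∘ₗ P⟩, Submodule.closed_of_finiteDimensional _, le_refl _,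
    ?_, ?_⟩
  · intro y _
    rw [LinearPMap.mem_adjoint_domain_iff]
    exact LinearMap.continuous_of_finiteDimensional _
  · intro R hR hsupp
    apply affiliated_of_commute
    intro C hC
    by_cases hne : R.Nonempty
    · exact insertion_commute 𝔊 htot A h P hP C fun f =>
        word_commute 𝔊 A f _ fun i => op_commute 𝔊 hB _ _ (centralizer_alg_le hB hR hne hC)
    · rcases Nat.eq_zero_or_pos n with rfl | hn
      · exact insertion_commute 𝔊 htot A h P hP C fun f => by
          simp [FieldSystem.word]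
      · have hh : h = 0 := by
          apply test_eq_zero_of_tsupport
          by_contra hcon
          obtain ⟨x, hx⟩ := Set.nonempty_iff_ne_empty.mpr hcon
          exact hne ⟨x ⟨0, hn⟩, hsupp x hx _⟩
        have hP0 : P = 0 := by
          apply LinearMap.ext; intro ψ; apply Subtype.ext
          obtain ⟨W, -, e⟩ := hP (P ψ) ψ
          rw [hh, map_zero] at e
          exact inner_self_eq_zero.mp e
        rw [hP0]
        exact Commute.zero_left _

/-! ## C. The Ward identities of the vanishing tensor -/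

omit [FiniteDimensional ℂ H] in
theorem static_Uact (hB : IsStatic B 𝓜) (g : Sim) (ψ : 𝔊.domain) : 𝔊.Uact g ψ = ψ :=
  Subtype.ext (by simp [FieldSystem.Uact, hB.U_eq])

omit [FiniteDimensional ℂ H] in
theorem charge_zero {T : Fin 4 → Fin 4 → 𝔊.F} (hT : ∀ μ ν, T μ ν = 0) (X : M4 → M4)
    (F : Fin 4 → RTest) : 𝔊.charge T X F = 0 := by
  simp [FieldSystem.charge, hT]

omit [FiniteDimensional ℂ H] in
theorem flux_zero {V : Fin 4 → 𝔊.F} (hV : ∀ μ, V μ = 0) (F : Fin 4 → RTest) :
    𝔊.flux V F = 0 := by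
  simp [FieldSystem.flux, hV]

omit [FiniteDimensional ℂ H] in
theorem comm_zero_left (P : Module.End ℂ 𝔊.domain) : 𝔊.comm 0 P = 0 := by
  simp [FieldSystem.comm]

omit [FiniteDimensional ℂ H] in
theorem static_affineWard (hB : IsStatic B 𝓜)
    (Pol : Set M4 → Subalgebra ℂ (Module.End ℂ 𝔊.domain))
    {T : Fin 4 → Fin 4 → 𝔊.F} {V : Fin 4 → 𝔊.F} (hT : ∀ μ ν, T μ ν = 0) (hV : ∀ μ, V μ = 0) :
    𝔊.AffineWardOn Pol T V := by
  intro γ c M κ _ K F _ P _ φ ψ
  simp only [static_Uact 𝔊 hB, charge_zero 𝔊 hT, flux_zero 𝔊 hV, smul_zero, sub_zero,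
    comm_zero_left, LinearMap.zero_apply, ZeroMemClass.coe_zero, inner_zero_right]
  exact hasDerivAt_const _ _

omit [FiniteDimensional ℂ H] in
theorem static_conformalWard (hB : IsStatic B 𝓜) {t : Fin 4 → Fin 4 → 𝔊.F}
    (ht : ∀ μ ν, t μ ν = 0) : 𝔊.ConformalWard t where
  indep := by intros; simp [charge_zero 𝔊 ht]
  preserve := by intros; simp [charge_zero 𝔊 ht, comm_zero_left]
  affine := static_affineWard 𝔊 hB _ ht (fun _ => rfl)
  vacuum := by intros; simp [charge_zero 𝔊 ht, comm_zero_left]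
  lie := by intros; simp [charge_zero 𝔊 ht, comm_zero_left]

omit [FiniteDimensional ℂ H] in
theorem static_primary {t : Fin 4 → Fin 4 → 𝔊.F} (ht : ∀ μ ν, t μ ν = 0) :
    𝔊.PrimaryLaws t 0 where
  scalar := by intros; simp [charge_zero 𝔊 ht, comm_zero_left]
  tensor := by intros; simp [charge_zero 𝔊 ht, comm_zero_left, ht]

/-! ## D. Extensions -/

/-- Every field system over a finite-dimensional Hilbert space extends itself. -/
def staticRefl : Extension 𝔊 𝔊 where
  ι := LinearMap.id
  ι_inj := Function.injective_id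
  ι_grade := fun _ _ h => h
  ι_adj := fun _ => rfl
  ι_der := fun _ _ => rfl
  ι_rho := fun _ _ => rfl
  ι_par := fun _ => rfl
  Dold_le := by rw [static_domain_eq_top]; exact le_top
  agree := fun _ _ _ => rfl
  fin_gen := ⟨∅, by simp, by simp⟩

omit [FiniteDimensional ℂ H] in
theorem word_cons {n : ℕ} (a : 𝔊.F) (A : Fin n → 𝔊.F) (g : Test) (f : Fin n → Test) :
    𝔊.word (Fin.cons a A : Fin (n + 1) → 𝔊.F) (Fin.cons g f : Fin (n + 1) → Test)
      = 𝔊.op a g * 𝔊.word A f := by
  simp [FieldSystem.word, List.ofFn_succ]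

/-- A family admitted together with a cyclic system acts on the old domain as before. -/
theorem static_agree (𝔉 : FieldSystem B) (hcyc : 𝔉.Cyclic) (e : Extension 𝔉 𝔊) (A : 𝔉.F) (f : Test)
    (v : H) : (𝔊.op (e.ι A) f (inDom 𝔊 v) : H) = (𝔉.op A f (inDom 𝔉 v) : H) := by
  have htop : 𝔉.Dfact = ⊤ := by
    have hcl : IsClosed (𝔉.Dfact : Set H) := 𝔉.Dfact.closed_of_finiteDimensional
    have h : (𝔉.Dfact : Set H) = Set.univ := by
      rw [← hcl.closure_eq]; exact Dense.closure_eq hcyc
    exact SetLike.coe_injective (by rw [h]; rfl)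
  have key : lower 𝔊 (𝔊.op (e.ι A) f) = lower 𝔉 (𝔉.op A f) := by
    refine LinearMap.ext_on htop ?_
    rintro _ ⟨n, A', f', rfl⟩
    have h1 := e.agree n A' f'
    have h2 := e.agree (n + 1) (Fin.cons A A') (Fin.cons f f')
    have h3 : (fun i => e.ι ((Fin.cons A A' : Fin (n + 1) → 𝔉.F) i))
        = (Fin.cons (e.ι A) (fun i => e.ι (A' i)) : Fin (n + 1) → 𝔊.F) := by
      funext i
      refine Fin.cases ?_ (fun j => ?_) i <;> simp
    rw [h3, word_cons, word_cons] at h2
    have h4 : inDom 𝔊 ((𝔉.word A' f' 𝔉.vac : 𝔉.domain) : H)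
        = 𝔊.word (fun i => e.ι (A' i)) f' 𝔊.vac := Subtype.ext h1.symm
    rw [lower_apply, lower_apply, h4]
    exact h2
  exact congrArg (fun L : H →ₗ[ℂ] H => L v) key

omit [FiniteDimensional ℂ H] in
theorem comp_eq_zero {Δ : ℝ} (hΔ : 𝔊.grade Δ = ⊥) (A : 𝔊.F) : 𝔊.comp Δ A = 0 := by
  have h : 𝔊.comp Δ A ∈ 𝔊.grade Δ := by
    unfold FieldSystem.comp
    exact Subtype.coe_prop _
  rw [hΔ] at h
  exact (Submodule.mem_bot ℂ).mp h

/-! ## E. The theorem on static finite-dimensional theories -/

/-- **Theorem 1.1 on every static finite-dimensional theory** without fields of dimension three and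
four: all clauses of `Conclusion` hold (with `L = 0`, `t = 0`, and `𝔎 = 𝔊` for every admitted family `𝔊`),
given that product tests are total. -/
theorem static_conclusion (hB : IsStatic B 𝓜) (htot : TensorTotal) (𝔉 : FieldSystem B)
    (hcyc : 𝔉.Cyclic) (h3 : 𝔉.grade 3 = ⊥) (h4 : 𝔉.grade 4 = ⊥) (S : StressData 𝔉) :
    Conclusion 𝔉 S := by
  have hT4 : ∀ μ ν, S.T4 μ ν = 0 := fun μ ν => comp_eq_zero 𝔉 h4 _
  have hV3 : ∀ μ, S.V3 μ = 0 := fun μ => comp_eq_zero 𝔉 h3 _
  have himp : ∀ μ ν, improved 𝔉 (fun μ ν => (staticRefl 𝔉).ι (S.T4 μ ν)) 0 μ ν = 0 := by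
    intro μ ν
    simp [improved, hT4, FieldSystem.box]
  refine ⟨static_affineWard 𝔉 hB _ hT4 hV3, 𝔉, staticRefl 𝔉, 0, by simp [staticRefl], zero_mem _,
    map_zero _, map_zero _, fun _ => map_zero _, ?_, ?_, ?_, ?_, static_hasJoint _,
    static_compat _ hB, static_jointlyAffiliated _ hB htot, static_conformalWard _ hB himp,
    static_primary _ himp, ?_⟩
  · simp [FieldSystem.div, FieldSystem.box, hV3]
  · intro μ ν; rw [himp, himp]
  · intro ν; simp [FieldSystem.div, himp]
  · simp [FieldSystem.trace, himp]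
  · intro 𝔊 eG
    have ht : ∀ μ ν, eG.ι (improved 𝔉 (fun μ ν => (staticRefl 𝔉).ι (S.T4 μ ν)) 0 μ ν) = 0 := by
      intro μ ν; rw [himp, map_zero]
    refine ⟨𝔊, staticRefl 𝔊, eG, fun _ => rfl, by simp [staticRefl], ?_, static_hasJoint _,
      static_compat _ hB, static_jointlyAffiliated _ hB htot, static_conformalWard _ hB ht, ?_⟩
    · exact ⟨by rw [static_domain_eq_top 𝔊]; exact le_top,
        fun A f ψ => static_agree 𝔊 𝔉 hcyc eG A f ψ⟩
    · rw [map_zero]
      exact static_primary _ ht

end static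

end SanityStatic
end Claimed.Open.R282
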