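import Claimed.Open.R282.SanityInvariant
import Claimed.Open.R282.SanityStatic
import Claimed.Open.R282.SanityTwo

/-!
# Result 282: Theorem 1.1 for all static theories, on an arbitrary Hilbert space

A background is *static* (`SanityStatic.IsStatic`) if the similarity group acts trivially and the net is
constant on double cones.  `SanityStatic.lean` proves the whole `Conclusion` for static theories on
finite-dimensional Hilbert spaces, where every operator is bounded and every domain is everything.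
This file removes that restriction: the Hilbert space is arbitrary and the fields may be unbounded.

* `op_eq`: in a static theory every field is constant, `A(f) = (∫ f) A(f₁)` (from
  `SanityInvariant.invariant_eq_integral`: translation invariant distributions are constant);
* `grade_eq_bot`: all fields have scaling dimension `0` (the dilation law of `op_cov`);
* `hasJointInsertions`, `insertion_eq`: the insertion with a joint kernel `h` is `(∫ h) A_1 ⋯ A_n`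
  (uniqueness from `SanityJoint.tensor_total`);
* `exists_affiliated_closure`: **Lemma 8.7 of the paper**: an operator on a dense domain with a formal
  adjoint there, commuting weakly with a von Neumann algebra `N`, has a closed extension commuting with
  `N`, whose adjoint extends the formal adjoint, symmetric in the Hermitian case (the closure of the
  graph `{(C ψ, C P ψ)}`, `C ∈ N`);
* `weak_comm`, `weak_comm_list`: `FieldSystem.affiliated` gives the weak commutation of all polynomials in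
  the fields with the commutant of the net; hence `compatiblyAffiliated`, `jointlyAffiliated`;
* `isVacuumWord_eq`, `Dold_le_Dfact`: the vacuum words with joint Schwartz kernels are `(∫ h) A_1 ⋯ A_n Ω`, so
  `𝓓_old = 𝓓_fact`;
* `restr`, `extRestr`: a cyclic field system restricted to its vacuum-generated domain is again a field
  system, admitted together with the original one;
* `static_conclusion_general`: **every clause of `Conclusion` holds for every cyclic field system with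
  every `StressData` over every static background.**  The field system `𝔏` of the conclusion has to live
  on the vacuum-generated domain: the clause over all admitted families `𝔊` asks `dom 𝔏 ⊆ dom 𝔎`, and an
  admitted family may contain unbounded fields;
* `conclusion_L2`, `theorem_checked_on_L2`: hypotheses and conclusion of the theorem on the
  infinite-dimensional model `H = L²[0,1]`, `Ω = 1`, `𝓜(O) = {M_x}''` of `SanityTwo.lean`.
-/

open scoped Distributions ContDiff InnerProductSpace ComplexConjugate Topology SchwartzMap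
open scoped LinearPMap
open TopologicalSpace MeasureTheory

noncomputable section

set_option linter.unusedSectionVars false

namespace Claimed.Open.R282
namespace SanityStaticInf

open Sanity SanityTest SanityCone SanityJoint SanityInvariant SanityTwo SanityStatic

variable {H : Type} [NormedAddCommGroup H] [InnerProductSpace ℂ H] [CompleteSpace H]

variable {B : Background H} {M : VonNeumannAlgebra H} (hB : IsStatic B M) (𝔊 : FieldSystem B)

/-! ## 1. The fields of a static theory are constant -/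

include hB in
/-- Smeared fields do not change when the test function is translated. -/
lemma op_transl (A : 𝔊.F) (f f' : Test) (a : M4) (h : ∀ x, f' (x + a) = f x) :
    𝔊.op A f = 𝔊.op A f' := by
  have hA : A ∈ ⨆ Δ, 𝔊.grade Δ := by
    rw [𝔊.grade_internal.submodule_iSup_eq_top]; trivial
  induction hA using Submodule.iSup_induction' with
  | mem Δ A hA =>
    ext ψ
    have h1 := 𝔊.op_cov (Sim.transl a) Δ A hA f f'
      (by intro x; rw [← h x]; congr 1; simp [Sim.act, Sim.transl, lorentz_one_mulVec]) ψ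
    have h2 : (⟨B.U (Sim.transl a) ψ, 𝔊.U_mem (Sim.transl a) ψ ψ.2⟩ : 𝔊.domain) = ψ :=
      static_Uact 𝔊 hB _ ψ
    rw [h2, hB.U_eq] at h1
    simpa [Sim.transl] using h1
  | zero => simp
  | add A A' _ _ h1 h2 => rw [map_add, LinearMap.add_apply, LinearMap.add_apply, h1, h2]

/-- A joint kernel in one variable is a test function. -/
def unJ (g : JTest 1) : Test :=
  ⟨fun x => g (fun _ => x), g.contDiff.comp (contDiff_pi.2 fun _ => contDiff_id),
    g.hasCompactSupport.comp_homeomorph (Homeomorph.funUnique (Fin 1) M4).symm, fun _ _ => trivial⟩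

lemma unJ_apply (g : JTest 1) (x : Fin 1 → M4) : unJ g (x 0) = g x := by
  change g (fun _ => x 0) = g x
  congr 1
  funext i
  rw [Subsingleton.elim i 0]

/-- a test function of integral one -/
def f1 : Test := (intL exists_intL_ne_zero.choose)⁻¹ • exists_intL_ne_zero.choose

lemma intL_f1 : intL f1 = 1 := by
  rw [f1, map_smul, smul_eq_mul, inv_mul_cancel₀ exists_intL_ne_zero.choose_spec]

lemma integral_tensor {n : ℕ} (f : Fin n → Test) : ∫ x, tensor f x = ∏ i, intL (f i) := by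
  change ∫ x : Fin n → M4, ∏ i, f i (x i) = _
  exact integral_fintype_prod_volume_eq_prod (fun i x => f i x)

include hB in
/-- **In a static theory every field is constant**: `A(f) = (∫ f) A(f₁)`. -/
theorem op_eq (A : 𝔊.F) (f : Test) : 𝔊.op A f = intL f • 𝔊.op A f1 := by
  ext ψ
  rw [← sub_eq_zero]
  refine 𝔊.domain_dense.eq_zero_of_inner_right ℂ fun φ hφ => ?_
  obtain ⟨W, hW⟩ := 𝔊.joint 1 (fun _ => A) ⟨φ, hφ⟩ ψ
  have hW1 : ∀ k : Test, W (tensor fun _ => k) = ⟪φ, (𝔊.op A k ψ : H)⟫_ℂ := by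
    intro k
    rw [hW (fun _ => k) _ fun _ => rfl]
    simp
  have hg : ∀ g : JTest 1, g = tensor fun _ => unJ g := by
    intro g
    ext x
    change g x = ∏ i : Fin 1, unJ g (x i)
    simp [unJ_apply]
  have hinv : ∀ (g : JTest 1) (y : Fin 1 → M4), W (jtTr g y) = W g := by
    intro g y
    have e1 : jtTr g y = tensor fun _ => jtTr (unJ g) (y 0) := by
      ext x
      change g (x - y) = ∏ i : Fin 1, unJ g (x i - y 0)
      simp only [Finset.univ_unique, Fin.default_eq_zero, Fin.isValue, Finset.prod_singleton]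
      rw [← unJ_apply]; rfl
    rw [e1, hW1]
    conv_rhs => rw [hg g, hW1]
    rw [op_transl hB 𝔊 A (unJ g) (jtTr (unJ g) (y 0)) (y 0) (fun x => by
      change unJ g (x + y 0 - y 0) = _; rw [add_sub_cancel_right])]
  have h1 := invariant_eq_integral (volume : Measure (Fin 1 → M4)) W hinv (tensor fun _ => f1)
    (by rw [integral_tensor]; simp [intL_f1]) (tensor fun _ => f)
  rw [hW1, hW1, integral_tensor] at h1
  simp only [Finset.univ_unique, Finset.prod_const, Finset.card_singleton, pow_one] at h1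
  rw [inner_sub_right, h1]
  simp [inner_smul_right]

/-- The constant operator of a label. -/
def Y (A : 𝔊.F) : Module.End ℂ 𝔊.domain := 𝔊.op A f1

/-- The product of the constant operators of a list of labels. -/
def YY {n : ℕ} (A : Fin n → 𝔊.F) : Module.End ℂ 𝔊.domain := (List.ofFn fun i => Y 𝔊 (A i)).prod

include hB in
lemma word_eq {n : ℕ} (A : Fin n → 𝔊.F) (f : Fin n → Test) :
    𝔊.word A f = (∏ i, intL (f i)) • YY 𝔊 A := by
  rw [YY, ← prod_ofFn_smul (fun i => intL (f i)) (fun i => Y 𝔊 (A i))]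
  unfold FieldSystem.word
  congr 2
  funext i
  exact op_eq hB 𝔊 (A i) (f i)

include hB in
lemma isJointDist_static {n : ℕ} (A : Fin n → 𝔊.F) (φ ψ : 𝔊.domain) :
    𝔊.IsJointDist A φ ψ (⟪(φ : H), (YY 𝔊 A ψ : H)⟫_ℂ • intJ n) := by
  intro f h hh
  have h1 : ∫ x, h x = ∏ i, intL (f i) := by
    simp only [hh, intL_apply]
    exact integral_fintype_prod_eq_prod (fun i x => f i x)
  rw [word_eq hB]
  simp [intJ_apply, h1]
  ring

include hB in
lemma isInsertion_static {n : ℕ} (A : Fin n → 𝔊.F) (h : JTest n) :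
    𝔊.IsInsertion A h (intJ n h • YY 𝔊 A) := by
  intro φ ψ
  refine ⟨_, isJointDist_static hB 𝔊 A φ ψ, ?_⟩
  simp
  ring

include hB in
theorem hasJointInsertions : 𝔊.HasJointInsertions :=
  fun _ A h => ⟨_, isInsertion_static hB 𝔊 A h⟩

include hB in
lemma insertion_eq {n : ℕ} {A : Fin n → 𝔊.F} {h : JTest n} {P : Module.End ℂ 𝔊.domain}
    (hP : 𝔊.IsInsertion A h P) : P = intJ n h • YY 𝔊 A :=
  isInsertion_unique 𝔊 hP (isInsertion_static hB 𝔊 A h)

/-! ## 2. The affiliated closure (Lemma 8.7 of the paper) -/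

section closure

variable (𝒟 : Submodule ℂ H) (P Ps : Module.End ℂ 𝒟) (N : VonNeumannAlgebra H)

/-- The span of the pairs `(C ψ, C P ψ)`, `C ∈ N`, `ψ ∈ 𝒟`. -/
def affG : Submodule ℂ (H × H) :=
  Submodule.span ℂ {p | ∃ C ∈ N, ∃ ψ : 𝒟, p = ((C (ψ : H) : H), (C (P ψ : H) : H))}

/-- Its closure. -/
def affC : Submodule ℂ (H × H) := (affG 𝒟 P N).topologicalClosure

variable {𝒟 P Ps N}

lemma affC_inner (hK : ∀ C ∈ N, ∀ φ ψ : 𝒟, ⟪(Ps φ : H), C (ψ : H)⟫_ℂ = ⟪(φ : H), C (P ψ : H)⟫_ℂ)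
    {p : H × H} (hp : p ∈ affC 𝒟 P N) (φ : 𝒟) : ⟪(φ : H), p.2⟫_ℂ = ⟪(Ps φ : H), p.1⟫_ℂ := by
  set L : H × H →L[ℂ] ℂ := (innerSL ℂ (φ : H)).comp (ContinuousLinearMap.snd ℂ H H)
    - (innerSL ℂ (Ps φ : H)).comp (ContinuousLinearMap.fst ℂ H H) with hL
  have h1 : affG 𝒟 P N ≤ LinearMap.ker (L : H × H →ₗ[ℂ] ℂ) := by
    refine Submodule.span_le.2 ?_
    rintro _ ⟨C, hC, ψ, rfl⟩
    change L _ = 0
    simp [hL, hK C hC φ ψ]
  have h2 : affC 𝒟 P N ≤ LinearMap.ker (L : H × H →ₗ[ℂ] ℂ) :=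
    Submodule.topologicalClosure_minimal _ h1 L.isClosed_ker
  have h3 : L p = 0 := h2 hp
  simpa [hL, sub_eq_zero] using h3

lemma affC_map {C : H →L[ℂ] H} (hC : C ∈ N) {p : H × H} (hp : p ∈ affC 𝒟 P N) :
    (C p.1, C p.2) ∈ affC 𝒟 P N := by
  set Ch : H × H →L[ℂ] H × H := C.prodMap C with hCh
  have h1 : affG 𝒟 P N ≤ (affC 𝒟 P N).comap (Ch : H × H →ₗ[ℂ] H × H) := by
    refine Submodule.span_le.2 ?_
    rintro _ ⟨C', hC', ψ, rfl⟩
    exact Submodule.le_topologicalClosure _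
      (Submodule.subset_span ⟨C * C', mul_mem hC hC', ψ, rfl⟩)
  have hcl : IsClosed (((affC 𝒟 P N).comap (Ch : H × H →ₗ[ℂ] H × H) : Submodule ℂ (H × H)) :
      Set (H × H)) :=
    (Submodule.isClosed_topologicalClosure (affG 𝒟 P N)).preimage Ch.continuous
  exact Submodule.topologicalClosure_minimal _ h1 hcl hp

lemma affC_single (h𝒟 : Dense (𝒟 : Set H))
    (hK : ∀ C ∈ N, ∀ φ ψ : 𝒟, ⟪(Ps φ : H), C (ψ : H)⟫_ℂ = ⟪(φ : H), C (P ψ : H)⟫_ℂ) :
    ∀ p ∈ affC 𝒟 P N, p.1 = 0 → p.2 = 0 := by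
  intro p hp h0
  refine h𝒟.eq_zero_of_inner_right ℂ fun φ hφ => ?_
  rw [affC_inner hK hp ⟨φ, hφ⟩, h0, inner_zero_right]

lemma affC_symm (hK : ∀ C ∈ N, ∀ φ ψ : 𝒟, ⟪(P φ : H), C (ψ : H)⟫_ℂ = ⟪(φ : H), C (P ψ : H)⟫_ℂ)
    {p q : H × H} (hp : p ∈ affC 𝒟 P N) (hq : q ∈ affC 𝒟 P N) : ⟪p.2, q.1⟫_ℂ = ⟪p.1, q.2⟫_ℂ := by
  set L : H × H →L[ℂ] ℂ := (innerSL ℂ p.2).comp (ContinuousLinearMap.fst ℂ H H)
    - (innerSL ℂ p.1).comp (ContinuousLinearMap.snd ℂ H H) with hL
  have h1 : affG 𝒟 P N ≤ LinearMap.ker (L : H × H →ₗ[ℂ] ℂ) := by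
    refine Submodule.span_le.2 ?_
    rintro _ ⟨C, hC, φ, rfl⟩
    change L _ = 0
    have h2 := affC_inner hK (affC_map (star_mem hC) hp) φ
    have h3 := congrArg (starRingEnd ℂ) h2
    rw [inner_conj_symm, inner_conj_symm] at h3
    simp only [ContinuousLinearMap.star_eq_adjoint, ContinuousLinearMap.adjoint_inner_left] at h3
    simp [hL, h3]
  have h2 : affC 𝒟 P N ≤ LinearMap.ker (L : H × H →ₗ[ℂ] ℂ) :=
    Submodule.topologicalClosure_minimal _ h1 L.isClosed_ker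
  have h3 : L q = 0 := h2 hq
  simpa [hL, sub_eq_zero] using h3

/-- **Lemma 8.7**: an operator `P` on a dense domain, with a formal adjoint `P^♯` there, which commutes
weakly with a von Neumann algebra `N`, has a closed extension `T` which commutes with `N`, whose adjoint
extends `P^♯`, and which is symmetric if `P^♯ = P`. -/
theorem exists_affiliated_closure (h𝒟 : Dense (𝒟 : Set H))
    (hK : ∀ C ∈ N, ∀ φ ψ : 𝒟, ⟪(Ps φ : H), C (ψ : H)⟫_ℂ = ⟪(φ : H), C (P ψ : H)⟫_ℂ) :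
    ∃ T : H →ₗ.[ℂ] H, T.IsClosed ∧ (⟨𝒟, 𝒟.subtype ∘ₗ P⟩ : H →ₗ.[ℂ] H) ≤ T ∧
      (⟨𝒟, 𝒟.subtype ∘ₗ Ps⟩ : H →ₗ.[ℂ] H) ≤ T† ∧
      (∀ C ∈ N, ∀ ψ : T.domain, ∃ h : C ψ ∈ T.domain, T ⟨C ψ, h⟩ = C (T ψ)) ∧
      (Ps = P → T ≤ T†) := by
  have hg := Submodule.toLinearPMap_graph_eq (affC 𝒟 P N) (affC_single h𝒟 hK)
  set T : H →ₗ.[ℂ] H := (affC 𝒟 P N).toLinearPMap with hT
  have hle : (⟨𝒟, 𝒟.subtype ∘ₗ P⟩ : H →ₗ.[ℂ] H) ≤ T := by
    refine LinearPMap.le_of_le_graph fun p hp => ?_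
    rw [hg]
    obtain ⟨ψ, h1, h2⟩ := (LinearPMap.mem_graph_iff _).1 hp
    refine Submodule.le_topologicalClosure _ (Submodule.subset_span ⟨1, one_mem _, ψ, ?_⟩)
    exact Prod.ext h1.symm h2.symm
  have hdense : Dense (T.domain : Set H) := h𝒟.mono hle.1
  have hmem : ∀ x : T.domain, ((x : H), T x) ∈ affC 𝒟 P N := fun x => by
    rw [← hg]; exact T.mem_graph x
  refine ⟨T, ?_, hle, ?_, ?_, ?_⟩
  · rw [LinearPMap.IsClosed, hg]
    exact Submodule.isClosed_topologicalClosure _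
  · refine LinearPMap.IsFormalAdjoint.le_adjoint hdense fun x φ => ?_
    have h1 := congrArg (starRingEnd ℂ) (affC_inner hK (hmem x) φ)
    rw [inner_conj_symm, inner_conj_symm] at h1
    exact h1
  · intro C hC ψ
    have h1 := affC_map hC (hmem ψ)
    rw [← hg] at h1
    obtain ⟨y, h2, h3⟩ := (LinearPMap.mem_graph_iff _).1 h1
    have h2' : (y : H) = C ψ := h2
    have h4 : C ψ ∈ T.domain := h2' ▸ y.2
    refine ⟨h4, ?_⟩
    have : (⟨C ψ, h4⟩ : T.domain) = y := Subtype.ext h2'.symm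
    rw [this]; exact h3
  · intro hP
    subst hP
    exact LinearPMap.IsFormalAdjoint.le_adjoint hdense fun x y => affC_symm hK (hmem x) (hmem y)

end closure

/-! ## 3. Weak commutation of the fields with the commutant of the net -/

lemma mem_commutant_of_centralizer {C : H →L[ℂ] H} (hC : C ∈ Set.centralizer (M : Set (H →L[ℂ] H))) :
    C ∈ M.commutant := by
  rw [← SetLike.mem_coe, VonNeumannAlgebra.coe_commutant]; exact hC

lemma centralizer_of_mem_commutant {C : H →L[ℂ] H} (hC : C ∈ M.commutant) :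
    C ∈ Set.centralizer (M : Set (H →L[ℂ] H)) := by
  rw [← SetLike.mem_coe, VonNeumannAlgebra.coe_commutant] at hC; exact hC

include hB in
lemma op_conj_f1 (A : 𝔊.F) : 𝔊.op A (conjT f1) = Y 𝔊 A := by
  rw [op_eq hB, intL_conj, intL_f1, map_one, one_smul]; rfl

include hB in
/-- `⟨A^† φ, C ψ⟩ = ⟨φ, C A ψ⟩` for `C` in the commutant of the net. -/
lemma weak_comm (A : 𝔊.F) {C : H →L[ℂ] H} (hC : C ∈ M.commutant) (φ ψ : 𝔊.domain) :
    ⟪(Y 𝔊 (𝔊.adj A) φ : H), C (ψ : H)⟫_ℂ = ⟪(φ : H), C (Y 𝔊 A ψ : H)⟫_ℂ := by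
  obtain ⟨O, hO, hsub⟩ := exists_isDoubleCone_superset f1.hasCompactSupport.isCompact.isBounded
  obtain ⟨T, -, h1, h2, h3⟩ := 𝔊.affiliated A f1 O hO hsub
  rw [hB.net_eq O hO] at h3
  have e1 : T ⟨ψ, h1.1 ψ.2⟩ = (𝔊.op A f1 ψ : H) := (h1.2 (x := ψ) (y := ⟨ψ, h1.1 ψ.2⟩) rfl).symm
  obtain ⟨hmem, e2⟩ := h3 C (centralizer_of_mem_commutant hC) ⟨ψ, h1.1 ψ.2⟩
  have e3 : T† ⟨φ, h2.1 φ.2⟩ = (𝔊.op (𝔊.adj A) (conjT f1) φ : H) :=
    (h2.2 (x := φ) (y := ⟨φ, h2.1 φ.2⟩) rfl).symm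
  have hd : Dense (T.domain : Set H) := 𝔊.domain_dense.mono h1.1
  have e4 := LinearPMap.adjoint_isFormalAdjoint hd ⟨φ, h2.1 φ.2⟩ ⟨C ψ, hmem⟩
  rw [e3, e2, e1] at e4
  have e5 : (𝔊.op (𝔊.adj A) (conjT f1) φ : H) = (Y 𝔊 (𝔊.adj A) φ : H) := by
    rw [op_conj_f1 hB]
  rw [← e5]
  exact e4

/-- The product of the constant operators of a list of labels. -/
def YL (l : List 𝔊.F) : Module.End ℂ 𝔊.domain := (l.map (Y 𝔊)).prod

/-- The reversed product of the adjoint labels. -/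
def YLs (l : List 𝔊.F) : Module.End ℂ 𝔊.domain := (l.reverse.map fun A => Y 𝔊 (𝔊.adj A)).prod

lemma YY_eq {n : ℕ} (A : Fin n → 𝔊.F) : YY 𝔊 A = YL 𝔊 (List.ofFn A) := by
  rw [YY, YL, List.map_ofFn]; rfl

include hB in
lemma weak_comm_list {C : H →L[ℂ] H} (hC : C ∈ M.commutant) (l : List 𝔊.F) (φ ψ : 𝔊.domain) :
    ⟪(YLs 𝔊 l φ : H), C (ψ : H)⟫_ℂ = ⟪(φ : H), C (YL 𝔊 l ψ : H)⟫_ℂ := by
  induction l generalizing φ ψ with
  | nil => simp [YL, YLs]
  | cons A l ih =>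
    have e1 : YL 𝔊 (A :: l) = Y 𝔊 A * YL 𝔊 l := by simp [YL]
    have e2 : YLs 𝔊 (A :: l) = YLs 𝔊 l * Y 𝔊 (𝔊.adj A) := by simp [YLs]
    rw [e1, e2, Module.End.mul_apply, Module.End.mul_apply, ih, weak_comm hB 𝔊 A hC]

include hB in
lemma weak_comm_smul (c : ℂ) {C : H →L[ℂ] H} (hC : C ∈ M.commutant) (l : List 𝔊.F)
    (φ ψ : 𝔊.domain) :
    ⟪(((starRingEnd ℂ c) • YLs 𝔊 l) φ : H), C (ψ : H)⟫_ℂ = ⟪(φ : H), C ((c • YL 𝔊 l) ψ : H)⟫_ℂ := by
  simp only [LinearMap.smul_apply, Submodule.coe_smul, map_smul, inner_smul_left, inner_smul_right,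
    weak_comm_list hB 𝔊 hC l φ ψ, Complex.conj_conj]

/-! ## 4. Scalar operators -/

/-- The operator `c · 1`, defined everywhere. -/
def scal (c : ℂ) : H →ₗ.[ℂ] H := ⟨⊤, c • (⊤ : Submodule ℂ H).subtype⟩

lemma scal_apply (c : ℂ) (ψ : (scal c : H →ₗ.[ℂ] H).domain) : scal c ψ = c • (ψ : H) := rfl

lemma scal_isClosed (c : ℂ) : (scal c : H →ₗ.[ℂ] H).IsClosed := by
  have : ((scal c : H →ₗ.[ℂ] H).graph : Set (H × H)) = {p | p.2 = c • p.1} := by
    ext p
    simp only [SetLike.mem_coe, LinearPMap.mem_graph_iff]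
    change _ ↔ p.2 = c • p.1
    constructor
    · rintro ⟨y, hy, hy2⟩
      rw [← hy2, ← hy]; rfl
    · intro h
      exact ⟨⟨p.1, trivial⟩, rfl, h.symm⟩
  rw [LinearPMap.IsClosed, this]
  exact isClosed_eq continuous_snd (continuous_fst.const_smul _)

lemma scal_affiliated (c : ℂ) (𝓢 : Set (H →L[ℂ] H)) : AffiliatedWith (scal c : H →ₗ.[ℂ] H) 𝓢 := by
  intro C _ ψ
  refine ⟨(trivial : C ψ ∈ (⊤ : Submodule ℂ H)), ?_⟩
  rw [scal_apply, scal_apply, map_smul]

lemma le_scal (𝒟 : Submodule ℂ H) (c : ℂ) :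
    (⟨𝒟, 𝒟.subtype ∘ₗ (c • (1 : Module.End ℂ 𝒟))⟩ : H →ₗ.[ℂ] H) ≤ scal c :=
  ⟨le_top, fun x y h => by
    change c • (x : H) = c • (y : H)
    rw [h]⟩

lemma le_scal_adjoint (𝒟 : Submodule ℂ H) (c : ℂ) :
    (⟨𝒟, 𝒟.subtype ∘ₗ ((starRingEnd ℂ c) • (1 : Module.End ℂ 𝒟))⟩ : H →ₗ.[ℂ] H) ≤ (scal c)† := by
  refine LinearPMap.IsFormalAdjoint.le_adjoint (by simp [scal]) fun x y => ?_
  change ⟪c • (x : H), (y : H)⟫_ℂ = ⟪(x : H), (starRingEnd ℂ c) • (y : H)⟫_ℂ
  rw [inner_smul_left, inner_smul_right]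

lemma scal_zero_symm : (scal 0 : H →ₗ.[ℂ] H) ≤ (scal 0)† := by
  refine LinearPMap.IsFormalAdjoint.le_adjoint (by simp [scal]) fun x y => ?_
  simp [scal_apply]

/-! ## 5. Compatible affiliated realisations -/

include hB in
theorem compatiblyAffiliated : 𝔊.CompatiblyAffiliated := by
  intro A f
  by_cases h0 : intL f = 0
  · have e1 : 𝔊.op A f = (0 : ℂ) • (1 : Module.End ℂ 𝔊.domain) := by
      rw [op_eq hB, h0, zero_smul, zero_smul]
    have e2 : 𝔊.op (𝔊.adj A) (conjT f) = (starRingEnd ℂ (0 : ℂ)) • (1 : Module.End ℂ 𝔊.domain) := by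
      rw [op_eq hB, intL_conj, h0, map_zero, zero_smul, zero_smul]
    refine ⟨scal 0, scal_isClosed 0, ?_, ?_, fun _ _ _ => scal_affiliated 0 _, fun _ _ => scal_zero_symm⟩
    · unfold FieldSystem.pmap; rw [e1]; exact le_scal _ _
    · unfold FieldSystem.pmap; rw [e2]; exact le_scal_adjoint _ _
  · have hK : ∀ C ∈ M.commutant, ∀ φ ψ : 𝔊.domain,
        ⟪(𝔊.op (𝔊.adj A) (conjT f) φ : H), C (ψ : H)⟫_ℂ = ⟪(φ : H), C (𝔊.op A f ψ : H)⟫_ℂ := by
      intro C hC φ ψ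
      have h1 := weak_comm_smul hB 𝔊 (intL f) hC [A] φ ψ
      have e1 : YL 𝔊 [A] = Y 𝔊 A := by simp [YL]
      have e2 : YLs 𝔊 [A] = Y 𝔊 (𝔊.adj A) := by simp [YLs]
      rw [e1, e2] at h1
      rw [op_eq hB 𝔊 A f, op_eq hB 𝔊 (𝔊.adj A) (conjT f), intL_conj]
      exact h1
    obtain ⟨T, hcl, h1, h2, h3, h4⟩ := exists_affiliated_closure 𝔊.domain_dense hK
    refine ⟨T, hcl, h1, h2, ?_, ?_⟩
    · intro R hR hsupp C hC ψ
      have hne : R.Nonempty := by
        by_contra hne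
        have hf : f = 0 := test_eq_zero_of_tsupport f
          (Set.subset_eq_empty hsupp (Set.not_nonempty_iff_eq_empty.mp hne))
        exact h0 (by rw [hf, map_zero])
      exact h3 C (mem_commutant_of_centralizer (centralizer_alg_le hB hR hne hC)) ψ
    · intro hA hf
      exact h4 (by rw [hA, hf])

include hB in
theorem jointlyAffiliated : 𝔊.JointlyAffiliated := by
  intro n A h P hP
  have hPe := insertion_eq hB 𝔊 hP
  rw [YY_eq] at hPe
  by_cases hs : n = 0 ∨ intJ n h = 0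
  · obtain ⟨c, hc⟩ : ∃ c : ℂ, P = c • (1 : Module.End ℂ 𝔊.domain) := by
      rcases hs with rfl | h0
      · exact ⟨intJ 0 h, by rw [hPe]; simp [YL]⟩
      · exact ⟨0, by rw [hPe, h0, zero_smul, zero_smul]⟩
    subst hc
    exact ⟨scal c, scal_isClosed c, le_scal _ _, (le_scal_adjoint 𝔊.domain c).1,
      fun _ _ _ => scal_affiliated c _⟩
  · rw [not_or] at hs
    obtain ⟨hn, h0⟩ := hs
    have hK : ∀ C ∈ M.commutant, ∀ φ ψ : 𝔊.domain,
        ⟪(((starRingEnd ℂ (intJ n h)) • YLs 𝔊 (List.ofFn A)) φ : H), C (ψ : H)⟫_ℂ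
          = ⟪(φ : H), C (P ψ : H)⟫_ℂ := by
      intro C hC φ ψ
      rw [hPe]
      exact weak_comm_smul hB 𝔊 (intJ n h) hC _ φ ψ
    obtain ⟨T, hcl, h1, h2, h3, -⟩ := exists_affiliated_closure 𝔊.domain_dense hK
    refine ⟨T, hcl, h1, h2.1, ?_⟩
    intro R hR hsupp C hC ψ
    have hne : R.Nonempty := by
      have hh : tsupport h ≠ ∅ := fun hcon => h0 (by
        rw [test_eq_zero_of_tsupport h hcon, map_zero])
      obtain ⟨x, hx⟩ := Set.nonempty_iff_ne_empty.mpr hh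
      exact ⟨x ⟨0, Nat.pos_of_ne_zero hn⟩, hsupp x hx _⟩
    exact h3 C (mem_commutant_of_centralizer (centralizer_alg_le hB hR hne hC)) ψ

/-! ## 6. The vacuum-generated domain -/

lemma integrable_sum_tensor {n : ℕ} (l : List (Fin n → Test)) :
    Integrable (fun x : Fin n → M4 => (l.map fun f => ∏ i, f i (x i)).sum) := by
  induction l with
  | nil => simp
  | cons f l ih =>
    simp only [List.map_cons, List.sum_cons]
    exact (test_integrable volume (tensor f)).add ih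

lemma integral_sum_tensor {n : ℕ} (l : List (Fin n → Test)) :
    ∫ x : Fin n → M4, (l.map fun f => ∏ i, f i (x i)).sum = (l.map fun f => ∏ i, intL (f i)).sum := by
  induction l with
  | nil => simp
  | cons f l ih =>
    simp only [List.map_cons, List.sum_cons]
    have h1 : Integrable (fun x : Fin n → M4 => ∏ i, f i (x i)) := test_integrable volume (tensor f)
    rw [integral_add h1 (integrable_sum_tensor l), ih]
    congr 1
    exact integral_tensor f

lemma temperate {X : Type*} [NormedAddCommGroup X] [NormedSpace ℝ X] [FiniteDimensional ℝ X]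
    [MeasurableSpace X] [BorelSpace X] (μ : Measure X) [μ.IsAddHaarMeasure] :
    μ.HasTemperateGrowth := inferInstance

include hB in
lemma factGraph_snd {n : ℕ} (A : Fin n → 𝔊.F) {p : 𝓢(Fin n → M4, ℂ) × H} (hp : p ∈ 𝔊.factGraph A) :
    p.2 = (∫ x, p.1 x) • (YY 𝔊 A 𝔊.vac : H) := by
  obtain ⟨l, h1, h2⟩ := hp
  simp only [h1, integral_sum_tensor]
  rw [h2]
  clear h1 h2
  induction l with
  | nil => simp
  | cons f l ih =>
    simp only [List.map_cons, List.sum_cons, add_smul, ih]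
    rw [word_eq hB]
    rfl

include hB in
/-- The vacuum word with a joint Schwartz kernel `h` is `(∫ h) A_1 ⋯ A_n Ω`. -/
lemma isVacuumWord_eq {n : ℕ} {A : Fin n → 𝔊.F} {h : 𝓢(Fin n → M4, ℂ)} {ψ : H}
    (hψ : 𝔊.IsVacuumWord A h ψ) : ψ = (∫ x, h x) • (YY 𝔊 A 𝔊.vac : H) := by
  by_contra hne
  obtain ⟨u, v, hu, hv, hψu, hv', huv⟩ := t2_separation hne
  obtain ⟨V, hV, hVp⟩ := hψ.2 u (hu.mem_nhds hψu)
  have htg : (volume : Measure (Fin n → M4)).HasTemperateGrowth := temperate _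
  have hcont : Continuous fun g : 𝓢(Fin n → M4, ℂ) => (∫ x, g x) • (YY 𝔊 A 𝔊.vac : H) := by
    have h1 : Continuous fun g : 𝓢(Fin n → M4, ℂ) => SchwartzMap.integralCLM ℂ volume g :=
      (SchwartzMap.integralCLM ℂ (volume : Measure (Fin n → M4))).continuous
    simp only [SchwartzMap.integralCLM_apply] at h1
    exact h1.smul continuous_const
  have hV' : (fun g : 𝓢(Fin n → M4, ℂ) => (∫ x, g x) • (YY 𝔊 A 𝔊.vac : H)) ⁻¹' v ∈ 𝓝 h :=
    hcont.continuousAt.preimage_mem_nhds (hv.mem_nhds hv')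
  obtain ⟨g, ⟨hg1, hg2⟩, p, hp, rfl⟩ := mem_closure_iff_nhds.1 hψ.1 _ (Filter.inter_mem hV hV')
  have h3 := hVp p hp hg1
  have h4 : (∫ x, p.1 x) • (YY 𝔊 A 𝔊.vac : H) ∈ v := hg2
  rw [← factGraph_snd hB 𝔊 A hp] at h4
  exact Set.disjoint_left.1 huv h3 h4

include hB in
lemma YY_vac_mem_Dfact {n : ℕ} (A : Fin n → 𝔊.F) : (YY 𝔊 A 𝔊.vac : H) ∈ 𝔊.Dfact := by
  refine Submodule.subset_span ⟨n, A, fun _ => f1, ?_⟩
  rw [word_eq hB]
  simp [intL_f1]

include hB in
theorem Dold_le_Dfact : 𝔊.Dold ≤ 𝔊.Dfact := by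
  refine Submodule.span_le.2 ?_
  rintro ψ (hψ | ⟨n, A, h, hψ⟩)
  · have : ψ = B.Ω := hψ
    subst this
    exact Submodule.subset_span ⟨0, Fin.elim0, Fin.elim0, by simp [FieldSystem.word, FieldSystem.vac]⟩
  · rw [isVacuumWord_eq hB 𝔊 hψ]
    exact 𝔊.Dfact.smul_mem _ (YY_vac_mem_Dfact hB 𝔊 A)

lemma Dfact_le_domain : 𝔊.Dfact ≤ 𝔊.domain := by
  refine Submodule.span_le.2 ?_
  rintro _ ⟨n, A, f, rfl⟩
  exact (𝔊.word A f 𝔊.vac).2

include hB in
/-- Every field system over a static background extends itself. -/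
def extRefl : Extension 𝔊 𝔊 where
  ι := LinearMap.id
  ι_inj := Function.injective_id
  ι_grade := fun _ _ h => h
  ι_adj := fun _ => rfl
  ι_der := fun _ _ => rfl
  ι_rho := fun _ _ => rfl
  ι_par := fun _ => rfl
  Dold_le := (Dold_le_Dfact hB 𝔊).trans (Dfact_le_domain 𝔊)
  agree := fun _ _ _ => rfl
  fin_gen := ⟨∅, by simp, by simp⟩

/-! ## 7. All fields of a static theory have dimension zero -/

include hB in
theorem grade_eq_bot {Δ : ℝ} (hΔ : Δ ≠ 0) : 𝔊.grade Δ = ⊥ := by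
  rw [eq_bot_iff]
  intro A hA
  rw [Submodule.mem_bot]
  apply 𝔊.faithful
  intro f
  have hY : Y 𝔊 A = 0 := by
    set g : Sim := ⟨0, 1, 1⟩ with hg
    ext ψ
    have h1 := 𝔊.op_cov g Δ A hA f1 (push g f1) (push_act g f1) ψ
    have h2 : (⟨B.U g ψ, 𝔊.U_mem g ψ ψ.2⟩ : 𝔊.domain) = ψ := static_Uact 𝔊 hB g ψ
    rw [h2, hB.U_eq] at h1
    have h3 : intL f1 = (Real.exp (-(4 * g.s)) : ℂ) * intL (push g f1) := by
      rw [intL_apply, intL_apply, ← integral_comp_act g _ (push g f1).continuous]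
      simp only [push_act]
    rw [intL_f1] at h3
    rw [op_eq hB 𝔊 _ (push g f1)] at h1
    have h4 : 𝔊.rho g.A A = A := by simp [hg]
    rw [h4] at h1
    have h5 : (Y 𝔊 A ψ : H)
        = ((Real.exp (g.s * (Δ - 4)) : ℂ) * intL (push g f1)) • (Y 𝔊 A ψ : H) := by
      rw [mul_smul]; exact h1
    have h6 : (Real.exp (g.s * (Δ - 4)) : ℂ) * intL (push g f1) ≠ 1 := by
      intro h7
      have h8 : (Real.exp (g.s * (Δ - 4)) : ℂ) = (Real.exp (-(4 * g.s)) : ℂ) := by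
        have hne : intL (push g f1) ≠ 0 := by
          intro h0; rw [h0, mul_zero] at h3; exact one_ne_zero h3
        exact mul_right_cancel₀ hne (h7.trans h3)
      have h9 : Real.exp (g.s * (Δ - 4)) = Real.exp (-(4 * g.s)) := by exact_mod_cast h8
      have h10 := Real.exp_injective h9
      simp only [hg] at h10
      exact hΔ (by linarith)
    have h7 : ((1 : ℂ) - (Real.exp (g.s * (Δ - 4)) : ℂ) * intL (push g f1)) • (Y 𝔊 A ψ : H) = 0 := by
      rw [sub_smul, one_smul, ← h5, sub_self]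
    rcases smul_eq_zero.1 h7 with h8 | h8
    · exact absurd (sub_eq_zero.1 h8).symm h6
    · simpa using h8
  rw [op_eq hB, show 𝔊.op A f1 = Y 𝔊 A from rfl, hY, smul_zero]

/-! ## 8. The restriction of a field system to its vacuum-generated domain -/

section restrict

variable (𝔉 : FieldSystem B)

/-- The span of the vacuum words, inside the domain. -/
def Dw : Submodule ℂ 𝔉.domain :=
  Submodule.span ℂ {w | ∃ (n : ℕ) (A : Fin n → 𝔉.F) (f : Fin n → Test), w = 𝔉.word A f 𝔉.vac}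

lemma Dfact_eq_map : 𝔉.Dfact = (Dw 𝔉).map 𝔉.domain.subtype := by
  rw [Dw, Submodule.map_span, FieldSystem.Dfact]
  congr 1
  ext v
  constructor
  · rintro ⟨n, A, f, rfl⟩
    exact ⟨_, ⟨n, A, f, rfl⟩, rfl⟩
  · rintro ⟨_, ⟨n, A, f, rfl⟩, rfl⟩
    exact ⟨n, A, f, rfl⟩

lemma mem_Dw_iff (ψ : 𝔉.domain) : ψ ∈ Dw 𝔉 ↔ (ψ : H) ∈ 𝔉.Dfact := by
  rw [Dfact_eq_map]
  constructor
  · intro h; exact ⟨ψ, h, rfl⟩
  · rintro ⟨w, hw, h⟩
    have : w = ψ := Subtype.ext h
    rwa [← this]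

lemma op_mem_Dw (A : 𝔉.F) (f : Test) : ∀ ψ ∈ Dw 𝔉, 𝔉.op A f ψ ∈ Dw 𝔉 := by
  have : Dw 𝔉 ≤ (Dw 𝔉).comap (𝔉.op A f) := by
    refine Submodule.span_le.2 ?_
    rintro _ ⟨n, A', f', rfl⟩
    refine Submodule.subset_span ⟨n + 1, Fin.cons A A', Fin.cons f f', ?_⟩
    rw [word_cons]; rfl
  exact this

/-- The inclusion of the vacuum-generated domain. -/
def inc (ψ : 𝔉.Dfact) : 𝔉.domain := ⟨ψ, Dfact_le_domain 𝔉 ψ.2⟩

lemma inc_mem (ψ : 𝔉.Dfact) : inc 𝔉 ψ ∈ Dw 𝔉 := (mem_Dw_iff 𝔉 _).2 ψ.2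

/-- The restriction of an operator which preserves the vacuum-generated domain. -/
def resEnd (X : Module.End ℂ 𝔉.domain) (hX : ∀ ψ ∈ Dw 𝔉, X ψ ∈ Dw 𝔉) : Module.End ℂ 𝔉.Dfact where
  toFun ψ := ⟨(X (inc 𝔉 ψ) : H), (mem_Dw_iff 𝔉 _).1 (hX _ (inc_mem 𝔉 ψ))⟩
  map_add' ψ ψ' := by
    apply Subtype.ext
    have : inc 𝔉 (ψ + ψ') = inc 𝔉 ψ + inc 𝔉 ψ' := rfl
    simp [this]
  map_smul' c ψ := by
    apply Subtype.ext
    have : inc 𝔉 (c • ψ) = c • inc 𝔉 ψ := rfl
    simp [this]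

/-- The smeared fields on the vacuum-generated domain. -/
def opR : 𝔉.F →ₗ[ℂ] Test →ₗ[ℂ] Module.End ℂ 𝔉.Dfact :=
  LinearMap.mk₂ ℂ (fun A f => resEnd 𝔉 (𝔉.op A f) (op_mem_Dw 𝔉 A f))
    (by intros; ext ψ; simp [resEnd]) (by intros; ext ψ; simp [resEnd])
    (by intros; ext ψ; simp [resEnd]) (by intros; ext ψ; simp [resEnd])

lemma inc_opR (A : 𝔉.F) (f : Test) (ψ : 𝔉.Dfact) : inc 𝔉 (opR 𝔉 A f ψ) = 𝔉.op A f (inc 𝔉 ψ) := rfl

lemma inc_prod {n : ℕ} (A : Fin n → 𝔉.F) (f : Fin n → Test) (ψ : 𝔉.Dfact) :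
    inc 𝔉 ((List.ofFn fun i => opR 𝔉 (A i) (f i)).prod ψ)
      = (List.ofFn fun i => 𝔉.op (A i) (f i)).prod (inc 𝔉 ψ) := by
  induction n with
  | zero => simp
  | succ n ih =>
    rw [List.ofFn_succ, List.prod_cons, List.ofFn_succ, List.prod_cons, Module.End.mul_apply,
      Module.End.mul_apply, inc_opR, ih]

lemma inc_injective {ψ ψ' : 𝔉.Dfact} (h : inc 𝔉 ψ = inc 𝔉 ψ') : ψ = ψ' :=
  Subtype.ext (congrArg (fun x : 𝔉.domain => (x : H)) h)

/-- The grading maps vacuum words to vacuum words. -/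
lemma Γ_word {n : ℕ} (A : Fin n → 𝔉.F) (f : Fin n → Test) :
    B.Γ (𝔉.word A f 𝔉.vac : H) = (𝔉.word (fun i => 𝔉.par (A i)) f 𝔉.vac : H) := by
  induction n with
  | zero => simp [FieldSystem.word, FieldSystem.vac, B.Γ_Ω]
  | succ n ih =>
    have e1 : 𝔉.word A f = 𝔉.op (A 0) (f 0) * 𝔉.word (fun i => A i.succ) (fun i => f i.succ) := by
      simp [FieldSystem.word, List.ofFn_succ]
    have e2 : 𝔉.word (fun i => 𝔉.par (A i)) f = 𝔉.op (𝔉.par (A 0)) (f 0)
        * 𝔉.word (fun i => 𝔉.par (A i.succ)) (fun i => f i.succ) := by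
      simp [FieldSystem.word, List.ofFn_succ]
    rw [e1, e2, Module.End.mul_apply, Module.End.mul_apply, 𝔉.op_Γ]
    congr 2
    exact Subtype.ext (ih _ _)

lemma Γ_mem_Dfact : ∀ ψ ∈ 𝔉.Dfact, B.Γ ψ ∈ 𝔉.Dfact := by
  have : 𝔉.Dfact ≤ 𝔉.Dfact.comap (B.Γ : H →ₗ[ℂ] H) := by
    refine Submodule.span_le.2 ?_
    rintro _ ⟨n, A, f, rfl⟩
    exact Submodule.subset_span ⟨n, _, f, Γ_word 𝔉 A f⟩
  exact this

lemma Ω_mem_Dfact : B.Ω ∈ 𝔉.Dfact :=
  Submodule.subset_span ⟨0, Fin.elim0, Fin.elim0, by simp [FieldSystem.word, FieldSystem.vac]⟩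

lemma faithfulR (hcyc : 𝔉.Cyclic) (A : 𝔉.F) (hA : ∀ f, opR 𝔉 A f = 0) : A = 0 := by
  apply 𝔉.faithful
  intro f
  have h0 : ∀ (k : Test) (φ : 𝔉.Dfact), 𝔉.op A k (inc 𝔉 φ) = 0 := fun k φ => by
    rw [← inc_opR, hA k]; rfl
  have h1 : ∀ φ : 𝔉.Dfact, 𝔉.op (𝔉.adj A) (conjT f) (inc 𝔉 φ) = 0 := by
    intro φ
    apply Subtype.ext
    refine Dense.eq_zero_of_inner_right ℂ hcyc fun φ' hφ' => ?_
    have h2 := 𝔉.op_adj (𝔉.adj A) (conjT f) (inc 𝔉 ⟨φ', hφ'⟩) (inc 𝔉 φ)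
    rw [𝔉.adj_adj, conjT_conjT, h0] at h2
    simp only [ZeroMemClass.coe_zero, inner_zero_left] at h2
    exact h2
  ext ψ
  refine Dense.eq_zero_of_inner_right ℂ hcyc fun φ hφ => ?_
  have h2 := 𝔉.op_adj A f (inc 𝔉 ⟨φ, hφ⟩) ψ
  rw [h1] at h2
  simp only [ZeroMemClass.coe_zero, inner_zero_left] at h2
  exact h2

include hB in
/-- The field system `𝔉`, restricted to its vacuum-generated domain `𝓓_fact`. -/
def restr (hcyc : 𝔉.Cyclic) : FieldSystem B where
  F := 𝔉.F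
  grade := 𝔉.grade
  grade_internal := 𝔉.grade_internal
  grade_finite := 𝔉.grade_finite
  spec_bddBelow := 𝔉.spec_bddBelow
  spec_locFinite := 𝔉.spec_locFinite
  adj := 𝔉.adj
  adj_adj := 𝔉.adj_adj
  adj_grade := 𝔉.adj_grade
  der := 𝔉.der
  der_grade := 𝔉.der_grade
  rho := 𝔉.rho
  rho_grade := 𝔉.rho_grade
  rho_adj := 𝔉.rho_adj
  par := 𝔉.par
  par_par := 𝔉.par_par
  par_grade := 𝔉.par_grade
  par_rho := 𝔉.par_rho
  domain := 𝔉.Dfact
  domain_dense := hcyc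
  Ω_mem := Ω_mem_Dfact 𝔉
  U_mem := fun g ψ hψ => by rw [hB.U_eq]; exact hψ
  Γ_mem := Γ_mem_Dfact 𝔉
  op := opR 𝔉
  faithful := faithfulR 𝔉 hcyc
  op_adj := fun A f φ ψ => 𝔉.op_adj A f (inc 𝔉 φ) (inc 𝔉 ψ)
  op_der := fun μ A f => by
    ext ψ
    have h := congrArg (fun X : Module.End ℂ 𝔉.domain => ((X (inc 𝔉 ψ) : 𝔉.domain) : H)) (𝔉.op_der μ A f)
    exact h
  op_cov := fun g Δ A hA f f' h ψ => 𝔉.op_cov g Δ A hA f f' h (inc 𝔉 ψ)
  op_Γ := fun A f ψ => 𝔉.op_Γ A f (inc 𝔉 ψ)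
  joint := fun n A φ ψ => by
    obtain ⟨W, hW⟩ := 𝔉.joint n A (inc 𝔉 φ) (inc 𝔉 ψ)
    refine ⟨W, fun f h hh => ?_⟩
    rw [hW f h hh, ← inc_prod]
    rfl
  op_local := fun A A' f f' hsep => by
    obtain ⟨h1, h2⟩ := 𝔉.op_local A A' f f' hsep
    constructor
    · intro hp
      ext ψ
      exact congrArg (fun X : Module.End ℂ 𝔉.domain => ((X (inc 𝔉 ψ) : 𝔉.domain) : H)) (h1 hp)
    · intro hp hp'
      ext ψ
      exact congrArg (fun X : Module.End ℂ 𝔉.domain => ((X (inc 𝔉 ψ) : 𝔉.domain) : H)) (h2 hp hp')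
  affiliated := fun A f O hO hsub => by
    obtain ⟨T, hcl, h1, h2, h3⟩ := 𝔉.affiliated A f O hO hsub
    refine ⟨T, hcl, le_trans ?_ h1, le_trans ?_ h2, h3⟩
    · exact ⟨Dfact_le_domain 𝔉, fun x y h => by
        have : inc 𝔉 x = y := Subtype.ext h
        rw [← this]; rfl⟩
    · exact ⟨Dfact_le_domain 𝔉, fun x y h => by
        have : inc 𝔉 x = y := Subtype.ext h
        rw [← this]; rfl⟩

end restrict

/-! ## 9. Extensions -/

section ext

variable (𝔉 : FieldSystem B) (hcyc : 𝔉.Cyclic)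

lemma word_restr {n : ℕ} (A : Fin n → 𝔉.F) (f : Fin n → Test) :
    (((restr hB 𝔉 hcyc).word A f (restr hB 𝔉 hcyc).vac : (restr hB 𝔉 hcyc).domain) : H)
      = (𝔉.word A f 𝔉.vac : H) :=
  congrArg (fun x : 𝔉.domain => (x : H)) (inc_prod 𝔉 A f (restr hB 𝔉 hcyc).vac)

/-- The restriction to the vacuum-generated domain is admitted. -/
def extRestr : Extension 𝔉 (restr hB 𝔉 hcyc) where
  ι := LinearMap.id
  ι_inj := Function.injective_id
  ι_grade := fun _ _ h => h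
  ι_adj := fun _ => rfl
  ι_der := fun _ _ => rfl
  ι_rho := fun _ _ => rfl
  ι_par := fun _ => rfl
  Dold_le := Dold_le_Dfact hB 𝔉
  agree := fun _ A f => word_restr hB 𝔉 hcyc A f
  fin_gen := ⟨∅, by simp, eq_top_iff.2 fun x _ => Submodule.mem_sup_left ⟨x, rfl⟩⟩

variable {𝔉} {𝔊}

lemma Dfact_le_of_ext (eG : Extension 𝔉 𝔊) : 𝔉.Dfact ≤ 𝔊.domain := by
  refine Submodule.span_le.2 ?_
  rintro _ ⟨n, A, f, rfl⟩
  rw [← eG.agree n A f]
  exact (𝔊.word _ f 𝔊.vac).2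

/-- A family admitted together with `𝔉` is admitted together with the restriction of `𝔉`. -/
def extOfRestr (eG : Extension 𝔉 𝔊) : Extension (restr hB 𝔉 hcyc) 𝔊 where
  ι := eG.ι
  ι_inj := eG.ι_inj
  ι_grade := eG.ι_grade
  ι_adj := eG.ι_adj
  ι_der := eG.ι_der
  ι_rho := eG.ι_rho
  ι_par := eG.ι_par
  Dold_le := by
    refine (Dold_le_Dfact hB (restr hB 𝔉 hcyc)).trans ?_
    refine Submodule.span_le.2 ?_
    rintro _ ⟨n, A, f, rfl⟩
    rw [word_restr hB 𝔉 hcyc A f, ← eG.agree n A f]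
    exact (𝔊.word _ f 𝔊.vac).2
  agree := fun n A f => (eG.agree n A f).trans (word_restr hB 𝔉 hcyc A f).symm
  fin_gen := eG.fin_gen

/-- An admitted family acts on the vacuum-generated domain of `𝔉` as `𝔉` does. -/
lemma agree_on_Dfact (eG : Extension 𝔉 𝔊) (A : 𝔉.F) (f : Test) (v : H) (hv : v ∈ 𝔉.Dfact) :
    (𝔊.op (eG.ι A) f ⟨v, Dfact_le_of_ext eG hv⟩ : H) = (𝔉.op A f ⟨v, Dfact_le_domain 𝔉 hv⟩ : H) := by
  have key : ∀ v ∈ Submodule.span ℂ {v | ∃ (n : ℕ) (A : Fin n → 𝔉.F) (f : Fin n → Test),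
      v = (𝔉.word A f 𝔉.vac : H)}, ∀ (h1 : v ∈ 𝔊.domain) (h2 : v ∈ 𝔉.domain),
      (𝔊.op (eG.ι A) f ⟨v, h1⟩ : H) = (𝔉.op A f ⟨v, h2⟩ : H) := by
    intro v hv
    induction hv using Submodule.span_induction with
    | mem v hv =>
      intro hm1 hm2
      obtain ⟨n, A', f', rfl⟩ := hv
      have h1 := eG.agree n A' f'
      have h2 := eG.agree (n + 1) (Fin.cons A A') (Fin.cons f f')
      have h3 : (fun i => eG.ι ((Fin.cons A A' : Fin (n + 1) → 𝔉.F) i))
          = (Fin.cons (eG.ι A) (fun i => eG.ι (A' i)) : Fin (n + 1) → 𝔊.F) := by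
        funext i
        refine Fin.cases ?_ (fun j => ?_) i <;> simp
      rw [h3, word_cons, word_cons] at h2
      have h4 : (⟨(𝔉.word A' f' 𝔉.vac : H), hm1⟩ : 𝔊.domain)
          = 𝔊.word (fun i => eG.ι (A' i)) f' 𝔊.vac := Subtype.ext h1.symm
      have h5 : (⟨(𝔉.word A' f' 𝔉.vac : H), hm2⟩ : 𝔉.domain) = 𝔉.word A' f' 𝔉.vac := Subtype.ext rfl
      rw [h4, h5]
      exact h2
    | zero =>
      intro hm1 hm2
      have e1 : (⟨0, hm1⟩ : 𝔊.domain) = 0 := rfl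
      have e2 : (⟨0, hm2⟩ : 𝔉.domain) = 0 := rfl
      rw [e1, e2, map_zero, map_zero]; rfl
    | add x y hx hy h1 h2 =>
      intro hm1 hm2
      have hx1 : x ∈ 𝔊.domain := Dfact_le_of_ext eG hx
      have hy1 : y ∈ 𝔊.domain := Dfact_le_of_ext eG hy
      have hx2 : x ∈ 𝔉.domain := Dfact_le_domain 𝔉 hx
      have hy2 : y ∈ 𝔉.domain := Dfact_le_domain 𝔉 hy
      have e1 : (⟨x + y, hm1⟩ : 𝔊.domain) = ⟨x, hx1⟩ + ⟨y, hy1⟩ := rfl
      have e2 : (⟨x + y, hm2⟩ : 𝔉.domain) = ⟨x, hx2⟩ + ⟨y, hy2⟩ := rfl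
      rw [e1, e2, map_add, map_add, Submodule.coe_add, Submodule.coe_add, h1 hx1 hx2, h2 hy1 hy2]
    | smul c x hx h1 =>
      intro hm1 hm2
      have hx1 : x ∈ 𝔊.domain := Dfact_le_of_ext eG hx
      have hx2 : x ∈ 𝔉.domain := Dfact_le_domain 𝔉 hx
      have e1 : (⟨c • x, hm1⟩ : 𝔊.domain) = c • ⟨x, hx1⟩ := rfl
      have e2 : (⟨c • x, hm2⟩ : 𝔉.domain) = c • ⟨x, hx2⟩ := rfl
      rw [e1, e2, map_smul, map_smul, Submodule.coe_smul, Submodule.coe_smul, h1 hx1 hx2]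
  exact key v hv _ _

end ext

/-! ## 10. Theorem 1.1 for all static theories -/

/-- **Theorem 1.1 holds for every static theory**, on an arbitrary Hilbert space and with possibly
unbounded fields: if the representation of the similarity group is trivial and the net is constant on
double cones, then every cyclic field system `𝔉` with every `StressData` satisfies every clause of
`Conclusion`.  Here `L = 0`, `t = 0`, the field system `𝔏` of the conclusion is `𝔉` on its vacuum-generated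
domain `𝓓_fact`, and `𝔎 = 𝔊` for every admitted family `𝔊`. -/
theorem static_conclusion_general (hB : IsStatic B M) (𝔉 : FieldSystem B) (hcyc : 𝔉.Cyclic)
    (S : StressData 𝔉) : Conclusion 𝔉 S := by
  have hT4 : ∀ μ ν, S.T4 μ ν = 0 := fun μ ν =>
    comp_eq_zero 𝔉 (grade_eq_bot hB 𝔉 (by norm_num)) _
  have hV3 : ∀ μ, S.V3 μ = 0 := fun μ => comp_eq_zero 𝔉 (grade_eq_bot hB 𝔉 (by norm_num)) _
  have himp : ∀ μ ν, improved (restr hB 𝔉 hcyc)
      (fun μ ν => (extRestr hB 𝔉 hcyc).ι (S.T4 μ ν)) 0 μ ν = 0 := by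
    intro μ ν
    simp [improved, hT4, FieldSystem.box]
  refine ⟨static_affineWard 𝔉 hB _ hT4 hV3, restr hB 𝔉 hcyc, extRestr hB 𝔉 hcyc, 0,
    eq_top_iff.2 fun x _ => Submodule.mem_sup_left ⟨x, rfl⟩, zero_mem _, map_zero _, map_zero _,
    fun _ => map_zero _, ?_, ?_, ?_, ?_,
    hasJointInsertions hB _, compatiblyAffiliated hB _, jointlyAffiliated hB _,
    static_conformalWard _ hB himp, static_primary _ himp, ?_⟩
  · simp [FieldSystem.div, FieldSystem.box, hV3]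
  · intro μ ν; rw [himp, himp]
  · intro ν; simp [FieldSystem.div, himp]
  · simp [FieldSystem.trace, himp]
  · intro 𝔊 eG
    have ht : ∀ μ ν, (extOfRestr hB hcyc eG).ι (improved (restr hB 𝔉 hcyc)
        (fun μ ν => (extRestr hB 𝔉 hcyc).ι (S.T4 μ ν)) 0 μ ν) = 0 := by
      intro μ ν; rw [himp, map_zero]
    refine ⟨𝔊, extRefl hB 𝔊, extOfRestr hB hcyc eG, fun _ => rfl, by simp [extRefl], ?_,
      hasJointInsertions hB _, compatiblyAffiliated hB _, jointlyAffiliated hB _,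
      static_conformalWard _ hB ht, ?_⟩
    · exact ⟨Dfact_le_of_ext eG, fun A f ψ => agree_on_Dfact eG A f ψ ψ.2⟩
    · rw [map_zero]
      exact static_primary _ ht

/-- `Statement`, restricted to static backgrounds, is a theorem. -/
theorem statement_static (H : Type) [NormedAddCommGroup H] [InnerProductSpace ℂ H] [CompleteSpace H]
    (B : Background H) (M : VonNeumannAlgebra H) (hB : IsStatic B M) (𝔉 : FieldSystem B) :
    𝔉.Cyclic → ∀ S : StressData 𝔉, Conclusion 𝔉 S :=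
  fun hcyc S => static_conclusion_general hB 𝔉 hcyc S

/-! ## 11. The models of `SanityTwo.lean` -/

lemma datum_isStatic (D : Datum H) : IsStatic D.bg D.vn := ⟨fun _ => rfl, fun _ _ => rfl⟩

/-- The whole conclusion in the model of `SanityTwo.lean`, over any Hilbert space. -/
theorem datum_conclusion (D : Datum H) (S : StressData D.sys) : Conclusion D.sys S :=
  static_conclusion_general (datum_isStatic D) D.sys D.sys_cyclic S

/-- The whole conclusion in the model `H = L²[0,1]`, `X = M_x`, `Ω = 1`. -/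
theorem conclusion_L2 : Conclusion datumL2.sys datumL2.stress := datum_conclusion datumL2 _

/-- Hypotheses and conclusion of Theorem 1.1, checked together on an infinite-dimensional Hilbert
space. -/
theorem theorem_checked_on_L2 : ¬ FiniteDimensional ℂ L2I ∧
    ∃ (B : Background L2I) (𝔉 : FieldSystem B) (_ : 𝔉.Cyclic) (S : StressData 𝔉), Conclusion 𝔉 S :=
  ⟨not_finiteDimensional_L2I, datumL2.bg, datumL2.sys, datumL2.sys_cyclic, datumL2.stress, conclusion_L2⟩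

end SanityStaticInf
end Claimed.Open.R282
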