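import Claimed.Open.R282.SanityKilling
import Claimed.Open.R282.SanityTest

/-!
# Result 282: the primary laws read on translations and dilations

No model: an arbitrary `FieldSystem`.  `PrimaryLaws t L` is written with the dual test function `transportT X f`.  Here it is
evaluated on the translation fields `X = c` and on the dilation field `X = x`:

* `transportT_pField`: `transportT c f = - c^λ ∂_λ f`;
* `primary_scalar_translation`, `primary_tensor_translation`: `i[Q_c(F), L(f)] = (c^λ ∂_λ L)(f)` and the same for `t_{μν}`: the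
  translation charges act as derivatives on the labels (`op_der`), with this sign;
* `mulT_fderiv_dField`, `primary_tensor_dilation`: for `X = x` the two terms `(∂_μX^λ)t_{λν} + (∂_νX^λ)t_{μλ}` add `2 t_{μν}`, so
  `i[Q_D(F), t_{μν}(f)] = t_{μν}(transportT x f) + 2 t_{μν}(f)`: the scalar law carries the weight `2` (dimension two) and the tensor
  law the weight `2 + 2 = 4` (dimension four), as `L ∈ 𝓕_2` and `t_{μν} ∈ 𝓕_4` in `Conclusion`.
-/

open scoped Distributions ContDiff InnerProductSpace ComplexConjugate Topology SchwartzMap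
open TopologicalSpace MeasureTheory

noncomputable section

namespace Claimed.Open.R282
namespace SanityTransport

open SanityTest SanityKilling

variable {H : Type} [NormedAddCommGroup H] [InnerProductSpace ℂ H] [CompleteSpace H]

variable {B : Background H} {𝔉 : FieldSystem B}

/-- Multiplication by a constant. -/
theorem mulT_const (r : ℝ) (f : Test) : mulT (fun _ => r) f = (r : ℂ) • f := by
  ext x
  rw [mulT_apply contDiff_const]
  rfl

/-- `transportT c f = - c^λ ∂_λ f`. -/
theorem transportT_pField (c : M4) (f : Test) :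
    transportT (pField c) f = - ∑ l, (c l : ℂ) • pd l f := by
  have h1 : sigmaOf (pField c) = fun _ => 0 := funext (sigmaOf_pField c)
  have h2 : ∀ l, mulT (fun x => pField c x l) (pd l f) = (c l : ℂ) • pd l f := fun l =>
    mulT_const (c l) _
  unfold transportT
  rw [h1, mulT_const]
  simp only [h2]
  simp

/-- `A(transportT c f) = (c^λ ∂_λ A)(f)` for every label. -/
theorem op_transportT_pField (A : 𝔉.F) (c : M4) (f : Test) :
    𝔉.op A (transportT (pField c) f) = ∑ l, (c l : ℂ) • 𝔉.op (𝔉.der l A) f := by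
  rw [transportT_pField, map_neg, map_sum, ← Finset.sum_neg_distrib]
  refine Finset.sum_congr rfl fun l _ => ?_
  rw [map_smul, 𝔉.op_der, smul_neg]

/-- **Scalar primary law on translations**: `i[Q_c(F), L(f)] = (c^λ ∂_λ L)(f)`. -/
theorem primary_scalar_translation {t : Fin 4 → Fin 4 → 𝔉.F} {L : 𝔉.F} (h : 𝔉.PrimaryLaws t L) (c : M4)
    (f : Test) (F : Fin 4 → RTest) (hF : IsSlabFor (tsupport f) F) :
    Complex.I • 𝔉.comm (𝔉.charge t (pField c) F) (𝔉.op L f) = ∑ l, (c l : ℂ) • 𝔉.op (𝔉.der l L) f := by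
  rw [h.scalar _ (isConformalKilling_pField c) f F hF, op_transportT_pField]

theorem mulT_zero_fun (f : Test) : mulT (fun _ => 0) f = 0 := by
  rw [mulT_const]; simp

/-- **Tensor primary law on translations**: `i[Q_c(F), t_{μν}(f)] = (c^λ ∂_λ t_{μν})(f)`. -/
theorem primary_tensor_translation {t : Fin 4 → Fin 4 → 𝔉.F} {L : 𝔉.F} (h : 𝔉.PrimaryLaws t L) (c : M4)
    (f : Test) (F : Fin 4 → RTest) (hF : IsSlabFor (tsupport f) F) (μ ν : Fin 4) :
    Complex.I • 𝔉.comm (𝔉.charge t (pField c) F) (𝔉.op (t μ ν) f)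
      = ∑ l, (c l : ℂ) • 𝔉.op (𝔉.der l (t μ ν)) f := by
  have h0 : ∀ (κ l : Fin 4), (fun x => fderiv ℝ (pField c) x (ev κ) l) = fun _ => (0 : ℝ) := fun κ l => by
    funext x
    rw [(hasFDerivAt_pField c x).fderiv]
    rfl
  rw [h.tensor _ (isConformalKilling_pField c) f F hF μ ν, op_transportT_pField]
  simp only [h0, mulT_zero_fun, map_zero, Finset.sum_const_zero, add_zero]

/-- `∂_κ x^l = δ_κ^l`. -/
theorem mulT_fderiv_dField (κ l : Fin 4) (f : Test) :
    mulT (fun x => fderiv ℝ dField x (ev κ) l) f = (if l = κ then (1 : ℂ) else 0) • f := by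
  have h0 : (fun x => fderiv ℝ dField x (ev κ) l) = fun _ => (if l = κ then (1 : ℝ) else 0) := by
    funext x
    rw [(hasFDerivAt_dField x).fderiv]
    simp [ev, Pi.single_apply]
  rw [h0, mulT_const]
  split_ifs <;> simp

/-- **Tensor primary law on the dilation field**: the two index terms add `2 t_{μν}`: total weight `2 + 2 = 4`. -/
theorem primary_tensor_dilation {t : Fin 4 → Fin 4 → 𝔉.F} {L : 𝔉.F} (h : 𝔉.PrimaryLaws t L)
    (f : Test) (F : Fin 4 → RTest) (hF : IsSlabFor (tsupport f) F) (μ ν : Fin 4) :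
    Complex.I • 𝔉.comm (𝔉.charge t dField F) (𝔉.op (t μ ν) f)
      = 𝔉.op (t μ ν) (transportT dField f) + (2 : ℂ) • 𝔉.op (t μ ν) f := by
  rw [h.tensor _ isConformalKilling_dField f F hF μ ν]
  have h1 : ∑ l, 𝔉.op (t l ν) (mulT (fun x => fderiv ℝ dField x (ev μ) l) f) = 𝔉.op (t μ ν) f := by
    rw [Finset.sum_eq_single μ]
    · rw [mulT_fderiv_dField, if_pos rfl, one_smul]
    · intro l _ hl
      rw [mulT_fderiv_dField, if_neg hl, zero_smul, map_zero]
    · intro hμ
      exact absurd (Finset.mem_univ μ) hμ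
  have h2 : ∑ l, 𝔉.op (t μ l) (mulT (fun x => fderiv ℝ dField x (ev ν) l) f) = 𝔉.op (t μ ν) f := by
    rw [Finset.sum_eq_single ν]
    · rw [mulT_fderiv_dField, if_pos rfl, one_smul]
    · intro l _ hl
      rw [mulT_fderiv_dField, if_neg hl, zero_smul, map_zero]
    · intro hν
      exact absurd (Finset.mem_univ ν) hν
  rw [h1, h2, add_assoc, two_smul]

end SanityTransport
end Claimed.Open.R282
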