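import Claimed.Open.R282.SanityTangent
import Claimed.Open.R282.SanitySlab
import Claimed.Open.R282.SanityStaticInf

/-!
# Result 282, sanity check: the hypothesis `StressData.ward` has teeth

All checked models of the hypotheses of `Statement` (`Sanity.lean`, `SanityOps.lean`, `SanityTwo.lean`,
`SanityFull.lean`, `SanityStaticInf.lean`) have `U = 1` and `T = V = 0`, and there the affine Ward identities
`StressData.ward` hold for a trivial reason.  This file shows, for **every** background and **every** cyclic field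
system (no model is chosen), that this is the only way in which the zero currents can pass:

* `U_eq_one_of_affineWard_zero`: if `T = 0`, `V = 0` satisfy `AffineWardOn localAlg`, then `U(g) = 1` for all
  Poincare transformations and dilations `g` (`U_transl_eq_one`, `U_dil_eq_one`, `U_lor_eq_one`);
  `affineWard_zero_iff`: for a cyclic theory the two are equivalent;
* `not_affineWard_zero`, `stressData_ne_zero`: a class of **non-examples** of `AffineWardOn`: in a cyclic theory in
  which some `U(g) ≠ 1`, the zero currents violate the Ward identities, and every `StressData` has `T ≠ 0` or `V ≠ 0`.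
  So `ward` really ties the currents to the representation `U`;
* `exists_isStatic_of_U_eq_one`, `isStatic_iff`: if `U = 1`, the net is constant on double cones (covariance under
  dilations and translations + isotony), so the second clause of `SanityStatic.IsStatic` follows from the first;
* `statement_zero_currents`: **`Statement` restricted to theories with `T = 0`, `V = 0` is a theorem**, without any
  hypothesis on the background (such a theory is static, and `SanityStaticInf.static_conclusion_general` applies);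
* `T4_or_V3_ne_zero_of_conclusion`, `ne_zero_of_conformalWard`: the **conclusion** has the same teeth: over a cyclic theory
  with some `U(g) ≠ 1`, its first clause forces `T⁽⁴⁾ ≠ 0` or `V⁽³⁾ ≠ 0`, and a tensor `t` with the conformal Ward identities
  of the clause `ConformalWard` on an admitted family (`cyclic_of_extension`: it is cyclic again) is not zero.

Proof of the first item.  Let `g_s` be a one-parameter group of similarities, `P` a polynomial in fields smeared in a
bounded region `K` (which has a compact Cauchy slab: `SanitySlab.exists_slab_of_isBounded`).  The Ward identity with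
vanishing charges says that `s ↦ ⟨U(g_s)φ, P U(g_s)ψ⟩` has derivative `0` at `s = 0`, for all `φ, ψ` in the invariant
domain; by the group law, at every `s` (`inner_const_of_ward_zero`).  With `ψ = Ω` and the density of the domain,
`U(g_s) P Ω = P Ω` (`U_fix_of_ward_zero`); the vectors `P Ω` contain all vacuum words, which are total by cyclicity
(`U_eq_one_of_ward_zero`).  Translations, dilations and the two unipotent families `1 + s z E₁₂`, `1 + s z E₂₁` of
`SL(2,ℂ)` are one-parameter groups with a tangent in the sense of `IsTangent`, and they generate the group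
(`sl_factor`, `sim_factor`).
-/

set_option autoImplicit false

open scoped Distributions ContDiff InnerProductSpace ComplexConjugate Topology SchwartzMap
open scoped LinearPMap
open TopologicalSpace

noncomputable section

namespace Claimed.Open.R282
namespace SanityWard

open Sanity SanityTangent SanitySlab SanityCone SanityStatic SanityStaticInf

variable {H : Type} [NormedAddCommGroup H] [InnerProductSpace ℂ H] [CompleteSpace H]
variable {B : Background H} (𝔉 : FieldSystem B)

/-! ### The charges of the zero tensor -/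

theorem charge_zero (X : M4 → M4) (F : Fin 4 → RTest) : 𝔉.charge 0 X F = 0 := by
  simp [FieldSystem.charge]

theorem flux_zero (F : Fin 4 → RTest) : 𝔉.flux 0 F = 0 := by
  simp [FieldSystem.flux]

theorem comm_zero_left (P : Module.End ℂ 𝔉.domain) : 𝔉.comm 0 P = 0 := by
  simp [FieldSystem.comm]

/-! ### The action of `U` on the domain -/

theorem Uact_one (φ : 𝔉.domain) : 𝔉.Uact Sim.one φ = φ := by
  apply Subtype.ext
  show B.U Sim.one (φ : H) = φ
  rw [B.U_one]
  rfl

theorem Uact_mul (g h : Sim) (φ : 𝔉.domain) : 𝔉.Uact (g.mul h) φ = 𝔉.Uact g (𝔉.Uact h φ) := by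
  apply Subtype.ext
  show B.U (g.mul h) (φ : H) = B.U g (B.U h (φ : H))
  rw [B.U_mul]
  rfl

theorem Uact_vac (g : Sim) : 𝔉.Uact g 𝔉.vac = 𝔉.vac := Subtype.ext (B.U_Ω g)

/-! ### Words lie in the polynomial algebra of a bounded region -/

theorem word_mem_localAlg {n : ℕ} (A : Fin n → 𝔉.F) (f : Fin n → Test) :
    𝔉.word A f ∈ 𝔉.localAlg (⋃ i, tsupport (f i)) := by
  unfold FieldSystem.word
  apply Subalgebra.list_prod_mem
  intro X hX
  rw [List.mem_ofFn] at hX
  obtain ⟨i, rfl⟩ := hX
  exact Algebra.subset_adjoin ⟨A i, f i, Set.subset_iUnion (fun i => tsupport (f i)) i, rfl⟩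

theorem isBounded_iUnion_tsupport {n : ℕ} (f : Fin n → Test) :
    Bornology.IsBounded (⋃ i, tsupport (f i)) :=
  (isCompact_iUnion fun i => (f i).hasCompactSupport.isCompact).isBounded

/-! ### The Ward identity of the zero currents along a one-parameter group -/

variable {𝔉}

/-- If the zero tensor and the zero virial field satisfy the affine Ward identities, the matrix elements
of a local polynomial are constant along every one-parameter group of similarities. -/
theorem inner_const_of_ward_zero (hW : 𝔉.AffineWardOn 𝔉.localAlg 0 0) {γ : ℝ → Sim} {c : M4}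
    {M : Matrix (Fin 4) (Fin 4) ℝ} {κ : ℝ} (hγ : IsTangent γ c M κ)
    (hadd : ∀ s t, γ (s + t) = (γ s).mul (γ t)) {K : Set M4} (hK : Bornology.IsBounded K)
    {P : Module.End ℂ 𝔉.domain} (hP : P ∈ 𝔉.localAlg K) (φ ψ : 𝔉.domain) (s : ℝ) :
    ⟪(𝔉.Uact (γ s) φ : H), (P (𝔉.Uact (γ s) ψ) : H)⟫_ℂ = ⟪(φ : H), (P ψ : H)⟫_ℂ := by
  obtain ⟨F, hF⟩ := exists_slab_of_isBounded hK
  have h0 : ∀ φ ψ : 𝔉.domain, HasDerivAt
      (fun s : ℝ => ⟪(𝔉.Uact (γ s) φ : H), (P (𝔉.Uact (γ s) ψ) : H)⟫_ℂ) 0 0 := by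
    intro φ ψ
    have h := hW γ c M κ hγ K F hF P hP φ ψ
    rw [charge_zero, flux_zero, smul_zero, sub_zero, comm_zero_left, smul_zero] at h
    simpa using h
  have h1 : ∀ s0 : ℝ, HasDerivAt
      (fun s : ℝ => ⟪(𝔉.Uact (γ s) φ : H), (P (𝔉.Uact (γ s) ψ) : H)⟫_ℂ) 0 s0 := by
    intro s0
    have h2 := h0 (𝔉.Uact (γ s0) φ) (𝔉.Uact (γ s0) ψ)
    simp only [← Uact_mul, ← hadd] at h2
    have h3 : HasDerivAt (fun s : ℝ =>
        ⟪(𝔉.Uact (γ (s + s0)) φ : H), (P (𝔉.Uact (γ (s + s0)) ψ) : H)⟫_ℂ) 0 (s0 - s0) := by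
      rw [sub_self]; exact h2
    have h4 := HasDerivAt.comp_sub_const s0 s0 h3
    simpa using h4
  have h5 := is_const_of_deriv_eq_zero (fun x => (h1 x).differentiableAt) (fun x => (h1 x).deriv) s 0
  rw [h5, hγ.1, Uact_one, Uact_one]

/-- ... hence every vector `P Ω` is fixed. -/
theorem U_fix_of_ward_zero (hW : 𝔉.AffineWardOn 𝔉.localAlg 0 0) {γ : ℝ → Sim} {c : M4}
    {M : Matrix (Fin 4) (Fin 4) ℝ} {κ : ℝ} (hγ : IsTangent γ c M κ)
    (hadd : ∀ s t, γ (s + t) = (γ s).mul (γ t)) {K : Set M4} (hK : Bornology.IsBounded K)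
    {P : Module.End ℂ 𝔉.domain} (hP : P ∈ 𝔉.localAlg K) (s : ℝ) :
    B.U (γ s) (P 𝔉.vac : H) = (P 𝔉.vac : H) := by
  have hu := B.U_unitary (γ s)
  have h1 : star (B.U (γ s)) (P 𝔉.vac : H) = (P 𝔉.vac : H) := by
    refine 𝔉.domain_dense.eq_of_inner_right ℂ fun φ' hφ => ?_
    have h2 := inner_const_of_ward_zero hW hγ hadd hK hP ⟨φ', hφ⟩ 𝔉.vac s
    rw [Uact_vac] at h2
    rw [ContinuousLinearMap.star_eq_adjoint, ContinuousLinearMap.adjoint_inner_right]
    exact h2
  have h3 : B.U (γ s) (star (B.U (γ s)) (P 𝔉.vac : H)) = (P 𝔉.vac : H) := by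
    have h4 := Unitary.mul_star_self_of_mem hu
    exact DFunLike.congr_fun h4 _
  rw [h1] at h3
  exact h3

/-- In a cyclic theory the one-parameter group acts trivially. -/
theorem U_eq_one_of_ward_zero (hc : 𝔉.Cyclic) (hW : 𝔉.AffineWardOn 𝔉.localAlg 0 0) {γ : ℝ → Sim}
    {c : M4} {M : Matrix (Fin 4) (Fin 4) ℝ} {κ : ℝ} (hγ : IsTangent γ c M κ)
    (hadd : ∀ s t, γ (s + t) = (γ s).mul (γ t)) (s : ℝ) : B.U (γ s) = 1 := by
  refine ContinuousLinearMap.ext_on hc ?_
  rintro v ⟨n, A, f, rfl⟩
  exact U_fix_of_ward_zero hW hγ hadd (isBounded_iUnion_tsupport f) (word_mem_localAlg 𝔉 A f) s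

/-! ### Translations and dilations -/

theorem transl_add (a : M4) (s t : ℝ) :
    Sim.transl ((s + t) • a) = (Sim.transl (s • a)).mul (Sim.transl (t • a)) := by
  simp [Sim.transl, Sim.mul, Sim.act, lorentz_one_mulVec, add_smul, add_comm]

theorem dil_add (s t : ℝ) : (⟨0, 1, s + t⟩ : Sim) = (⟨0, 1, s⟩ : Sim).mul ⟨0, 1, t⟩ := by
  simp [Sim.mul, Sim.act]

/-- **Translations act trivially.** -/
theorem U_transl_eq_one (hc : 𝔉.Cyclic) (hW : 𝔉.AffineWardOn 𝔉.localAlg 0 0) (a : M4) :
    B.U (Sim.transl a) = 1 := by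
  have h := U_eq_one_of_ward_zero hc hW (isTangent_translation a) (transl_add a) 1
  rwa [one_smul] at h

/-- **Dilations act trivially.** -/
theorem U_dil_eq_one (hc : 𝔉.Cyclic) (hW : 𝔉.AffineWardOn 𝔉.localAlg 0 0) (s : ℝ) :
    B.U ⟨0, 1, s⟩ = 1 :=
  U_eq_one_of_ward_zero hc hW isTangent_dilation dil_add s

/-! ### Lorentz transformations: `SL(2,ℂ)` is generated by two families of one-parameter groups -/

theorem slCurve_upper_val (z : ℂ) (s : ℝ) : (slCurve 0 z 0 s).1 = !![1, z * s; 0, 1] := by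
  ext i j
  fin_cases i <;> fin_cases j <;> simp [slCurve]

theorem slCurve_lower_val (z : ℂ) (s : ℝ) : (slCurve 0 0 z s).1 = !![1, 0; z * s, 1] := by
  ext i j
  fin_cases i <;> fin_cases j <;> simp [slCurve]

theorem slCurve_upper_add (z : ℂ) (s t : ℝ) :
    slCurve 0 z 0 (s + t) = slCurve 0 z 0 s * slCurve 0 z 0 t := by
  apply Subtype.ext
  rw [Matrix.SpecialLinearGroup.coe_mul, slCurve_upper_val, slCurve_upper_val, slCurve_upper_val]
  ext i j
  fin_cases i <;> fin_cases j <;> simp [Matrix.mul_apply, Fin.sum_univ_two]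
  ring

theorem slCurve_lower_add (z : ℂ) (s t : ℝ) :
    slCurve 0 0 z (s + t) = slCurve 0 0 z s * slCurve 0 0 z t := by
  apply Subtype.ext
  rw [Matrix.SpecialLinearGroup.coe_mul, slCurve_lower_val, slCurve_lower_val, slCurve_lower_val]
  ext i j
  fin_cases i <;> fin_cases j <;> simp [Matrix.mul_apply, Fin.sum_univ_two]
  ring

theorem lor_mul (A A' : SL2C) : (⟨0, A * A', 0⟩ : Sim) = (⟨0, A, 0⟩ : Sim).mul ⟨0, A', 0⟩ := by
  simp [Sim.mul, Sim.act]

theorem U_upper_eq_one (hc : 𝔉.Cyclic) (hW : 𝔉.AffineWardOn 𝔉.localAlg 0 0) (z : ℂ) :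
    B.U ⟨0, slCurve 0 z 0 1, 0⟩ = 1 := by
  have h := U_eq_one_of_ward_zero hc hW (isTangent_slCurve 0 0 z 0 0) (fun s t => by
    simp only [smul_zero, zero_mul, slCurve_upper_add]
    exact lor_mul _ _) 1
  simpa using h

theorem U_lower_eq_one (hc : 𝔉.Cyclic) (hW : 𝔉.AffineWardOn 𝔉.localAlg 0 0) (z : ℂ) :
    B.U ⟨0, slCurve 0 0 z 1, 0⟩ = 1 := by
  have h := U_eq_one_of_ward_zero hc hW (isTangent_slCurve 0 0 0 z 0) (fun s t => by
    simp only [smul_zero, zero_mul, slCurve_lower_add]
    exact lor_mul _ _) 1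
  simpa using h

/-- `A = E₁₂((a-1)/c) E₂₁(c) E₁₂((d-1)/c)` if `c ≠ 0` -/
theorem sl_factor (A : SL2C) (hc : A.1 1 0 ≠ 0) :
    A = slCurve 0 ((A.1 0 0 - 1) / A.1 1 0) 0 1 * slCurve 0 0 (A.1 1 0) 1 *
      slCurve 0 ((A.1 1 1 - 1) / A.1 1 0) 0 1 := by
  have hdet : A.1 0 0 * A.1 1 1 - A.1 0 1 * A.1 1 0 = 1 := by
    rw [← Matrix.det_fin_two]; exact A.2
  apply Subtype.ext
  rw [Matrix.SpecialLinearGroup.coe_mul, Matrix.SpecialLinearGroup.coe_mul, slCurve_upper_val,
    slCurve_upper_val, slCurve_lower_val]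
  ext i j
  fin_cases i <;> fin_cases j <;> simp [Matrix.mul_apply, Fin.sum_univ_two]
  · field_simp
    ring
  · field_simp
    linear_combination (-1 : ℂ) * hdet
  · field_simp
    ring

/-- **Lorentz transformations act trivially.** -/
theorem U_lor_eq_one (hc : 𝔉.Cyclic) (hW : 𝔉.AffineWardOn 𝔉.localAlg 0 0) (A : SL2C) :
    B.U ⟨0, A, 0⟩ = 1 := by
  have key : ∀ A : SL2C, A.1 1 0 ≠ 0 → B.U ⟨0, A, 0⟩ = 1 := by
    intro A hA
    rw [sl_factor A hA, lor_mul, B.U_mul, lor_mul, B.U_mul, U_upper_eq_one hc hW,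
      U_upper_eq_one hc hW, U_lower_eq_one hc hW]
    simp
  by_cases hA : A.1 1 0 = 0
  · have hdet : A.1 0 0 * A.1 1 1 - A.1 0 1 * A.1 1 0 = 1 := by
      rw [← Matrix.det_fin_two]; exact A.2
    have ha : A.1 0 0 ≠ 0 := fun h => by
      rw [h, hA] at hdet
      simp at hdet
    have h1 : (slCurve 0 0 1 1 * A).1 1 0 ≠ 0 := by
      rw [Matrix.SpecialLinearGroup.coe_mul, slCurve_lower_val]
      simpa [Matrix.mul_apply, Fin.sum_univ_two, hA] using ha
    have h2 := key _ h1
    rw [lor_mul, B.U_mul, U_lower_eq_one hc hW, one_mul] at h2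
    exact h2
  · exact key A hA

theorem sim_factor (g : Sim) :
    g = (Sim.transl g.a).mul ((⟨0, g.A, 0⟩ : Sim).mul ⟨0, 1, g.s⟩) := by
  obtain ⟨a, A, s⟩ := g
  simp [Sim.transl, Sim.mul, Sim.act]

/-- **The affine Ward identities tie the currents to the symmetries.**  If in a cyclic theory the zero
tensor and the zero virial field satisfy the affine Ward identities of `StressData.ward`, then the whole
group of Poincare transformations and dilations acts trivially. -/
theorem U_eq_one_of_affineWard_zero (hc : 𝔉.Cyclic) (hW : 𝔉.AffineWardOn 𝔉.localAlg 0 0) (g : Sim) :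
    B.U g = 1 := by
  rw [sim_factor g, B.U_mul, B.U_mul, U_transl_eq_one hc hW, U_lor_eq_one hc hW, U_dil_eq_one hc hW]
  simp

/-- The same for `StressData`: `T = 0`, `V = 0` is possible only if `U = 1`. -/
theorem U_eq_one_of_stressData_zero (hc : 𝔉.Cyclic) (S : StressData 𝔉) (hT : S.T = 0) (hV : S.V = 0)
    (g : Sim) : B.U g = 1 := by
  have hW := S.ward
  rw [hT, hV] at hW
  exact U_eq_one_of_affineWard_zero hc hW g

/-- **A class of non-examples of `AffineWardOn`**: in a cyclic theory in which some Poincare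
transformation or dilation acts non-trivially, the zero currents violate the affine Ward identities:
such a theory needs a non-zero stress tensor or virial field. -/
theorem not_affineWard_zero (hc : 𝔉.Cyclic) {g : Sim} (hg : B.U g ≠ 1) :
    ¬ 𝔉.AffineWardOn 𝔉.localAlg 0 0 :=
  fun hW => hg (U_eq_one_of_affineWard_zero hc hW g)

theorem stressData_ne_zero (hc : 𝔉.Cyclic) {g : Sim} (hg : B.U g ≠ 1) (S : StressData 𝔉) :
    S.T ≠ 0 ∨ S.V ≠ 0 := by
  by_contra h
  rw [not_or, not_not, not_not] at h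
  exact hg (U_eq_one_of_stressData_zero hc S h.1 h.2 g)

/-- For a cyclic theory: the zero currents satisfy the affine Ward identities **iff** the symmetry group
acts trivially. -/
theorem affineWard_zero_iff (hc : 𝔉.Cyclic) :
    𝔉.AffineWardOn 𝔉.localAlg 0 0 ↔ ∀ g, B.U g = 1 := by
  refine ⟨fun hW g => U_eq_one_of_affineWard_zero hc hW g, ?_⟩
  intro hU γ c M κ _ K F _ P _ φ ψ
  have hact : ∀ (g : Sim) (χ : 𝔉.domain), 𝔉.Uact g χ = χ := fun g χ => Subtype.ext (by
    show B.U g (χ : H) = χ
    rw [hU]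
    rfl)
  simp only [hact]
  rw [charge_zero, flux_zero, smul_zero, sub_zero, comm_zero_left, smul_zero]
  simpa using hasDerivAt_const (0 : ℝ) ⟪(φ : H), (P ψ : H)⟫_ℂ

/-! ### A trivial representation forces a constant net: the theory is static -/

/-- a bounded set can be moved into any nonempty open set by a dilation and a translation -/
theorem exists_act_image_subset {O₁ O₂ : Set M4} (h1 : Bornology.IsBounded O₁) (h2 : IsOpen O₂)
    (hne : O₂.Nonempty) : ∃ g : Sim, g.act '' O₁ ⊆ O₂ := by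
  obtain ⟨x₀, hx₀⟩ := hne
  obtain ⟨ε, hε, hball⟩ := Metric.isOpen_iff.mp h2 x₀ hx₀
  obtain ⟨R, hR⟩ := h1.subset_closedBall (0 : M4)
  set lam : ℝ := ε / (2 * (|R| + 1)) with hlam
  have hlam0 : 0 < lam := by positivity
  refine ⟨⟨x₀, 1, Real.log lam⟩, ?_⟩
  rintro _ ⟨x, hx, rfl⟩
  apply hball
  have hxR : ‖x‖ ≤ |R| := by
    have := hR hx
    rw [mem_closedBall_zero_iff] at this
    exact this.trans (le_abs_self R)
  rw [Metric.mem_ball, dist_eq_norm]
  show ‖Real.exp (Real.log lam) • (lorentz 1).mulVec x + x₀ - x₀‖ < ε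
  rw [Real.exp_log hlam0, lorentz_one_mulVec, add_sub_cancel_right, norm_smul, Real.norm_eq_abs,
    abs_of_pos hlam0]
  calc lam * ‖x‖ ≤ lam * |R| := by gcongr
    _ < ε := by
      rw [hlam, div_mul_eq_mul_div, div_lt_iff₀ (by positivity)]
      nlinarith [abs_nonneg R]

theorem net_le_of_U_eq_one (hU : ∀ g, B.U g = 1) {O₁ O₂ : Set M4} (h1 : IsDoubleCone O₁)
    (h2 : IsDoubleCone O₂) (x : H →L[ℂ] H) (hx : x ∈ B.net O₁) : x ∈ B.net O₂ := by
  obtain ⟨g, hg⟩ := exists_act_image_subset (isDoubleCone_isBounded h1) (isDoubleCone_isOpen h2)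
    (isDoubleCone_nonempty h2)
  have h3 := (B.net_cov g O₁ h1 x).1 hx
  rw [hU g, one_mul, star_one, mul_one] at h3
  exact B.net_mono _ _ (isDoubleCone_image_act g h1) h2 hg x h3

/-- **If the symmetry group acts trivially, the net is constant on double cones** (covariance under
dilations and translations, and isotony): the background is static in the sense of
`SanityStatic.IsStatic`. -/
theorem exists_isStatic_of_U_eq_one (hU : ∀ g, B.U g = 1) :
    ∃ 𝓜 : VonNeumannAlgebra H, IsStatic B 𝓜 := by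
  obtain ⟨O₀, hO₀, -, -⟩ := exists_isDoubleCone_subset isOpen_univ (Set.mem_univ (0 : M4))
  exact ⟨B.net O₀, hU, fun O hO => SetLike.ext fun x =>
    ⟨net_le_of_U_eq_one hU hO hO₀ x, net_le_of_U_eq_one hU hO₀ hO x⟩⟩

/-- The second clause of `IsStatic` follows from the first. -/
theorem isStatic_iff : (∃ 𝓜 : VonNeumannAlgebra H, IsStatic B 𝓜) ↔ ∀ g, B.U g = 1 :=
  ⟨fun ⟨_, h⟩ => h.U_eq, exists_isStatic_of_U_eq_one⟩

/-! ### Theorem 1.1 for all theories with vanishing currents -/

/-- A cyclic theory with `T = 0`, `V = 0` is static ... -/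
theorem exists_isStatic_of_stressData_zero (hc : 𝔉.Cyclic) (S : StressData 𝔉) (hT : S.T = 0)
    (hV : S.V = 0) : ∃ 𝓜 : VonNeumannAlgebra H, IsStatic B 𝓜 :=
  exists_isStatic_of_U_eq_one (U_eq_one_of_stressData_zero hc S hT hV)

/-- ... and satisfies every clause of `Conclusion`. -/
theorem conclusion_of_stressData_zero (hc : 𝔉.Cyclic) (S : StressData 𝔉) (hT : S.T = 0)
    (hV : S.V = 0) : Conclusion 𝔉 S := by
  obtain ⟨𝓜, h𝓜⟩ := exists_isStatic_of_stressData_zero hc S hT hV
  exact static_conclusion_general h𝓜 𝔉 hc S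

/-! ### The conclusion has teeth too: it cannot be met by zero currents unless `U = 1` -/

/-- the affine Ward identities pass to smaller polynomial algebras -/
theorem affineWardOn_mono {Pol Pol' : Set M4 → Subalgebra ℂ (Module.End ℂ 𝔉.domain)}
    (hle : ∀ K, Pol' K ≤ Pol K) {T : Fin 4 → Fin 4 → 𝔉.F} {V : Fin 4 → 𝔉.F}
    (h : 𝔉.AffineWardOn Pol T V) : 𝔉.AffineWardOn Pol' T V :=
  fun γ c M κ hγ K F hF P hP φ ψ => h γ c M κ hγ K F hF P (hle K hP) φ ψ

/-- a family admitted together with a cyclic family is cyclic -/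
theorem cyclic_of_extension {𝔏 : FieldSystem B} (e : Extension 𝔉 𝔏) (hc : 𝔉.Cyclic) : 𝔏.Cyclic := by
  refine Dense.mono ?_ hc
  refine Submodule.span_le.2 ?_
  rintro _ ⟨n, A, f, rfl⟩
  rw [← e.agree n A f]
  exact Submodule.subset_span ⟨n, fun i => e.ι (A i), f, rfl⟩

/-- **First clause of `Conclusion`**: in a cyclic theory in which some `U(g) ≠ 1`, the clause
`AffineWardOn jointAlg T⁽⁴⁾ V⁽³⁾` forces `T⁽⁴⁾ ≠ 0` or `V⁽³⁾ ≠ 0`. -/
theorem T4_or_V3_ne_zero_of_conclusion (hc : 𝔉.Cyclic) {g : Sim} (hg : B.U g ≠ 1)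
    (S : StressData 𝔉) (hS : Conclusion 𝔉 S) : S.T4 ≠ 0 ∨ S.V3 ≠ 0 := by
  by_contra h
  rw [not_or, not_not, not_not] at h
  have h1 := hS.1
  rw [h.1, h.2] at h1
  exact hg (U_eq_one_of_affineWard_zero hc
    (affineWardOn_mono (SanityJoint.localAlg_le_jointAlg 𝔉) h1) g)

/-- **Clause `ConformalWard` of `Conclusion`**: over a cyclic theory in which some `U(g) ≠ 1`, a tensor `t`
with unbroken conformal Ward identities on an admitted family is not zero.  So outside the static theories the
conclusion of Theorem 1.1 cannot be met by the trivial improvement `t = 0`. -/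
theorem ne_zero_of_conformalWard (hc : 𝔉.Cyclic) {g : Sim} (hg : B.U g ≠ 1) {𝔏 : FieldSystem B}
    (e : Extension 𝔉 𝔏) {t : Fin 4 → Fin 4 → 𝔏.F} (ht : 𝔏.ConformalWard t) : t ≠ 0 := by
  rintro rfl
  exact hg (U_eq_one_of_affineWard_zero (cyclic_of_extension e hc)
    (affineWardOn_mono (SanityJoint.localAlg_le_jointAlg 𝔏) ht.affine) g)

end SanityWard

/-- **`Statement`, restricted to theories with vanishing currents `T = 0`, `V = 0`, is a theorem**; no
hypothesis is made on the background. -/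
theorem SanityWard.statement_zero_currents (H : Type) [NormedAddCommGroup H] [InnerProductSpace ℂ H]
    [CompleteSpace H] (B : Background H) (𝔉 : FieldSystem B) :
    𝔉.Cyclic → ∀ S : StressData 𝔉, S.T = 0 → S.V = 0 → Conclusion 𝔉 S :=
  fun hc S hT hV => SanityWard.conclusion_of_stressData_zero hc S hT hV

end Claimed.Open.R282
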