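import Mathlib

/-!
# Result 282: from scale symmetry to local conformal symmetry in four-dimensional QFT

This file states Theorem 1.1 (`thm:main`) of

  *Scale and conformal symmetry in four-dimensional operational quantum field theory*
  (OpenAI, September 26, 2026),

together with every definition that the statement needs, on top of Mathlib only.

The hypotheses are those of Assumption 2.1 (`ass:framework`, "Operational physical theory"):

* `Background`   : Hilbert space, vacuum, unitary representation of the (spin covering of the)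
                   group of Poincare transformations and dilations with positive energy, the
                   statistics grading, and the fixed causally commuting net of von Neumann algebras;
* `FieldSystem`  : a space of point-field labels, graded by a discrete, bounded below, locally
                   finite set of real scaling dimensions with finite multiplicities, realised by
                   operator valued distributions on a common invariant domain, with adjoints,
                   derivatives, covariance, locality, joint distributions at every finite length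
                   and closed realisations affiliated with the local algebras of the net;
* `StressData`   : the symmetric conserved stress tensor `T`, the virial field `V` with
                   `T^μ_μ = ∂^μ V_μ`, and the compact-slab Ward identities of the currents
                   `X^ν T_{μν}` (translations, Lorentz) and `D_μ = x^ν T_{μν} - V_μ` (dilations).

The conclusion (`Conclusion`) is that a Hermitian scalar field `L` of dimension two is *admitted*
in the same net (`Extension`: the intrinsic membership criterion of Assumption 2.1), with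
`∂^μ V^{(3)}_μ = □ L`, that `t = T^{(4)} + (1/3)(∂∂ - η □) L` is symmetric, conserved and traceless,
that neither `T ↦ T^{(4)}` nor `T^{(4)} ↦ t` changes the affine Ward charges, and that the currents
`X^ν t_{μν}` of all conformal Killing fields have unbroken local Ward identities
(`ConformalWard`) on the polynomial algebra of the original fields, `L`, and any further finite
family admitted together with the original fields.
-/

open scoped Distributions ContDiff InnerProductSpace ComplexConjugate Topology SchwartzMap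
open scoped LinearPMap
open TopologicalSpace

noncomputable section

namespace Claimed.Open.R282

/-! ## 1. Minkowski space-time -/

/-- Space-time `ℝ^{1,3}`; the index `0` is time. -/
abbrev M4 : Type := Fin 4 → ℝ

/-- The diagonal of the metric `η = diag(1,-1,-1,-1)` (Section 2 of the paper). -/
def eta (μ : Fin 4) : ℝ := if μ = 0 then 1 else -1

/-- The components `η_{μν}` of the metric. -/
def etaM (μ ν : Fin 4) : ℝ := if μ = ν then eta μ else 0

/-- The Minkowski product `x·y = x⁰y⁰ - x¹y¹ - x²y² - x³y³`. -/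
def mink (x y : M4) : ℝ := ∑ μ, eta μ * x μ * y μ

/-- The coordinate unit vector `e_μ`. -/
def ev (μ : Fin 4) : M4 := Pi.single μ 1

/-- The open forward light cone `V₊`. -/
def openCone : Set M4 := {p | 0 < p 0 ∧ 0 < mink p p}

/-- The closed forward light cone `\bar V₊`. -/
def closedCone : Set M4 := {p | 0 ≤ p 0 ∧ 0 ≤ mink p p}

/-- Two regions are spacelike separated. -/
def SpacelikeSep (S T : Set M4) : Prop := ∀ x ∈ S, ∀ y ∈ T, mink (x - y) (x - y) < 0

/-- Open double cones `(a + V₊) ∩ (b - V₊)`, `b - a ∈ V₊`. -/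
def IsDoubleCone (O : Set M4) : Prop :=
  ∃ a b : M4, b - a ∈ openCone ∧ O = {x | x - a ∈ openCone ∧ b - x ∈ openCone}

/-- The causal future `J⁺(K)`. -/
def causalFuture (K : Set M4) : Set M4 := {x | ∃ y ∈ K, x - y ∈ closedCone}

/-- The causal past `J⁻(K)`. -/
def causalPast (K : Set M4) : Set M4 := {x | ∃ y ∈ K, y - x ∈ closedCone}

/-! ## 2. The similarity group (Poincare transformations and dilations), with spin -/

/-- `SL(2,ℂ)`, the universal cover of the proper orthochronous Lorentz group.  It is used so that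
"the usual grading when fermions occur" (Assumption 2.1) is covered. -/
abbrev SL2C : Type := Matrix.SpecialLinearGroup (Fin 2) ℂ

/-- `σ_0 = 1` and the Pauli matrices `σ_1, σ_2, σ_3`. -/
def pauli : Fin 4 → Matrix (Fin 2) (Fin 2) ℂ
  | 0 => !![1, 0; 0, 1]
  | 1 => !![0, 1; 1, 0]
  | 2 => !![0, -Complex.I; Complex.I, 0]
  | 3 => !![1, 0; 0, -1]

/-- The covering map `SL(2,ℂ) → SO⁺(1,3)`: `Λ(A)^μ{}_ν = ½ tr(σ_μ A σ_ν A^†)`, i.e.
`A (x^ν σ_ν) A^† = (Λ(A) x)^μ σ_μ`. -/
def lorentz (A : SL2C) : Matrix (Fin 4) (Fin 4) ℝ :=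
  Matrix.of fun μ ν => ((pauli μ * A.1 * pauli ν * A.1.conjTranspose).trace).re / 2

/-- Parameters `(a, A, s)` of the similarity `x ↦ e^s Λ(A) x + a`. -/
structure Sim where
  /-- translation part -/
  a : M4
  /-- Lorentz part (in the spin covering) -/
  A : SL2C
  /-- logarithm of the scale factor -/
  s : ℝ

namespace Sim

/-- The action `x ↦ e^s Λ(A) x + a` on space-time. -/
def act (g : Sim) (x : M4) : M4 := Real.exp g.s • (lorentz g.A).mulVec x + g.a

/-- The identity similarity. -/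
def one : Sim := ⟨0, 1, 0⟩

/-- Composition of similarities: `(g ∘ h)(x) = g (h x)`. -/
def mul (g h : Sim) : Sim := ⟨g.act h.a, g.A * h.A, g.s + h.s⟩

/-- The translation by `a`. -/
def transl (a : M4) : Sim := ⟨a, 1, 0⟩

end Sim

/-- `γ` is a curve in the similarity group through the identity, differentiable at `0`, whose
action on space-time has at `s = 0` the velocity field `x ↦ c + M x + κ x`
(translation `c`, Lorentz generator `M`, dilation rate `κ`). -/
def IsTangent (γ : ℝ → Sim) (c : M4) (M : Matrix (Fin 4) (Fin 4) ℝ) (κ : ℝ) : Prop :=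
  γ 0 = Sim.one ∧
  HasDerivAt (fun s => (γ s).a) c 0 ∧
  (∀ i j, DifferentiableAt ℝ (fun s => (γ s).A.1 i j) 0) ∧
  (∀ μ ν, HasDerivAt (fun s => lorentz (γ s).A μ ν) (M μ ν) 0) ∧
  HasDerivAt (fun s => (γ s).s) κ 0

/-- The affine vector field `x ↦ c + M x + κ x`. -/
def affineField (c : M4) (M : Matrix (Fin 4) (Fin 4) ℝ) (κ : ℝ) (x : M4) : M4 :=
  c + M.mulVec x + κ • x

/-! ## 3. Test functions -/

/-- Complex test functions `C_c^∞(ℝ⁴)` with their LF topology. -/
abbrev Test : Type := 𝓓((⊤ : Opens M4), ℂ)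

/-- Real test functions on `ℝ⁴`. -/
abbrev RTest : Type := 𝓓((⊤ : Opens M4), ℝ)

/-- Compactly supported smooth joint kernels on `(ℝ⁴)^n`. -/
abbrev JTest (n : ℕ) : Type := 𝓓((⊤ : Opens (Fin n → M4)), ℂ)

/-- The complex conjugate test function `\bar f`. -/
def conjT (f : Test) : Test :=
  TestFunction.postcompCLM (𝕜 := ℝ) (Complex.conjCLE : ℂ →L[ℝ] ℂ) f

/-- The partial derivative `∂_μ f`. -/
def pd (μ : Fin 4) (f : Test) : Test := TestFunction.lineDerivCLM ℂ (ev μ) f

/-- A real test function regarded as a complex one. -/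
def toC (f : RTest) : Test := TestFunction.postcompCLM (𝕜 := ℝ) Complex.ofRealCLM f

/-- The product `g · f` of a smooth real function and a test function
(junk value `0` if `g` is not smooth). -/
def mulT (g : M4 → ℝ) (f : Test) : Test :=
  open Classical in
  if hg : ContDiff ℝ ∞ g then
    ⟨fun x => (g x : ℂ) * f x, (Complex.ofRealCLM.contDiff.comp hg).mul f.contDiff,
      f.hasCompactSupport.mul_left, fun _ _ => trivial⟩
  else 0

/-! ## 4. The kinematical background: Hilbert space, vacuum, symmetries, net -/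

section

variable {H : Type} [NormedAddCommGroup H] [InnerProductSpace ℂ H] [CompleteSpace H]

/-- Positive translation spectrum for `U(a) = e^{iP·a}`: the joint spectrum of `P` lies in the closed
forward cone.  Formulated without the spectral theorem: if `∫ f(a) e^{ip·a} da` vanishes for all `p`
in the closed forward cone, then `∫ f(a) U(a) da = 0` (weakly). -/
def SpectrumCondition (U : M4 → H →L[ℂ] H) : Prop :=
  ∀ f : 𝓢(M4, ℂ), (∀ p ∈ closedCone, ∫ a, f a * Complex.exp (Complex.I * (mink p a : ℂ)) = 0) →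
    ∀ φ ψ : H, ∫ a, f a * ⟪φ, U a ψ⟫_ℂ = 0

variable (H) in
/-- The fixed kinematical data of Assumption 2.1. -/
structure Background where
  /-- the vacuum vector -/
  Ω : H
  norm_Ω : ‖Ω‖ = 1
  /-- the unitary representation of Poincare transformations and dilations:
  `U(a,1,0) = e^{iP·a}`, `U(0,1,s) = U_D(s)` -/
  U : Sim → H →L[ℂ] H
  U_unitary : ∀ g, U g ∈ unitary (H →L[ℂ] H)
  U_one : U Sim.one = 1
  U_mul : ∀ g h, U (g.mul h) = U g * U h
  /-- strong continuity -/
  U_cont : ∀ ψ : H, Continuous fun p : M4 × SL2C × ℝ => U ⟨p.1, p.2.1, p.2.2⟩ ψ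
  /-- the vacuum is invariant under Poincare transformations and dilations
  (uniqueness of the invariant vector is not assumed) -/
  U_Ω : ∀ g, U g Ω = Ω
  /-- positive translation spectrum -/
  spectrum : SpectrumCondition fun a => U (Sim.transl a)
  /-- the statistics grading `(-1)^F` (equal to `1` in a purely bosonic theory) -/
  Γ : H →L[ℂ] H
  Γ_sq : Γ * Γ = 1
  Γ_sa : star Γ = Γ
  Γ_Ω : Γ Ω = Ω
  Γ_U : ∀ g, Γ * U g = U g * Γ
  /-- the net `O ↦ 𝓜(O)` of weakly closed algebras of bounded operations; only its values on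
  double cones are used -/
  net : Set M4 → VonNeumannAlgebra H
  /-- isotony -/
  net_mono : ∀ O₁ O₂, IsDoubleCone O₁ → IsDoubleCone O₂ → O₁ ⊆ O₂ →
    ∀ x, x ∈ net O₁ → x ∈ net O₂
  /-- covariance under the same Poincare and dilation representation -/
  net_cov : ∀ g O, IsDoubleCone O → ∀ x, x ∈ net O ↔ U g * x * star (U g) ∈ net (g.act '' O)
  /-- the grading acts on each local algebra -/
  net_Γ : ∀ O, IsDoubleCone O → ∀ x, x ∈ net O → Γ * x * Γ ∈ net O
  /-- algebras at spacelike separation commute, with the statistics twist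
  `Z = (1 + iΓ)/(1 + i)` in the graded case -/
  net_local : ∀ O₁ O₂, IsDoubleCone O₁ → IsDoubleCone O₂ → SpacelikeSep O₁ O₂ →
    ∀ x ∈ net O₁, ∀ y ∈ net O₂,
      let Z : H →L[ℂ] H := ((1 + Complex.I)⁻¹ : ℂ) • (1 + Complex.I • Γ)
      x * (Z * y * star Z) = (Z * y * star Z) * x

/-- The algebra of a region: the given one for a double cone, and for any other region
`𝓜(R) = ⋁ {𝓜(O) : O a double cone with closure in R}` (Assumption 2.1). -/
def Background.alg (B : Background H) (R : Set M4) : Set (H →L[ℂ] H) :=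
  open Classical in
  if IsDoubleCone R then (B.net R : Set (H →L[ℂ] H))
  else Set.centralizer (Set.centralizer
    (⋃ O ∈ {O : Set M4 | IsDoubleCone O ∧ closure O ⊆ R}, (B.net O : Set (H →L[ℂ] H))))

/-- A (closed) operator `T` is affiliated with the von Neumann algebra `𝓜`: `C T ⊆ T C` for every
bounded `C` in the commutant of `𝓜`. -/
def AffiliatedWith (T : H →ₗ.[ℂ] H) (𝓜 : Set (H →L[ℂ] H)) : Prop :=
  ∀ C ∈ Set.centralizer 𝓜, ∀ ψ : T.domain, ∃ h : C ψ ∈ T.domain, T ⟨C ψ, h⟩ = C (T ψ)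

/-! ## 5. Field systems -/

/-- A system of point fields in the background `B`, as in Assumption 2.1: the original physical
fields form such a system, and so does every family admitted together with them. -/
structure FieldSystem (B : Background H) where
  /-- the complex vector space `𝓕` of point-field labels (component fields) -/
  F : Type
  [acg : AddCommGroup F]
  [mod : Module ℂ F]
  /-- `𝓕_Δ`: homogeneous fields of scaling dimension `Δ` -/
  grade : ℝ → Submodule ℂ F
  /-- `𝓕 = ⨁_Δ 𝓕_Δ` algebraically: every field has finite scaling support -/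
  grade_internal : DirectSum.IsInternal grade
  /-- finite multiplicities -/
  grade_finite : ∀ Δ, Module.Finite ℂ (grade Δ)
  /-- the dimension spectrum `Σ` is bounded below -/
  spec_bddBelow : BddBelow {Δ | grade Δ ≠ ⊥}
  /-- `Σ ∩ [a,b]` is finite -/
  spec_locFinite : ∀ a b : ℝ, ({Δ | grade Δ ≠ ⊥} ∩ Set.Icc a b).Finite
  /-- field adjunction `A ↦ A^†` -/
  adj : F →ₛₗ[starRingEnd ℂ] F
  adj_adj : ∀ A, adj (adj A) = A
  adj_grade : ∀ Δ, ∀ A ∈ grade Δ, adj A ∈ grade Δ
  /-- distributional differentiation `A ↦ ∂_μ A` -/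
  der : Fin 4 → F →ₗ[ℂ] F
  der_grade : ∀ μ Δ, ∀ A ∈ grade Δ, der μ A ∈ grade (Δ + 1)
  /-- the finite-component Lorentz action on labels:
  `U(Λ) A(x) U(Λ)^{-1} = (ρ(Λ) A)(Λ x)` -/
  rho : SL2C →* Module.End ℂ F
  rho_grade : ∀ Λ Δ, ∀ A ∈ grade Δ, rho Λ A ∈ grade Δ
  rho_adj : ∀ Λ A, rho Λ (adj A) = adj (rho Λ A)
  /-- the statistics involution on labels: `+1` on Bose fields, `-1` on Fermi fields -/
  par : F →ₗ[ℂ] F
  par_par : ∀ A, par (par A) = A
  par_grade : ∀ Δ, ∀ A ∈ grade Δ, par A ∈ grade Δ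
  par_rho : ∀ Λ A, par (rho Λ A) = rho Λ (par A)
  /-- the common invariant domain -/
  domain : Submodule ℂ H
  domain_dense : Dense (domain : Set H)
  Ω_mem : B.Ω ∈ domain
  U_mem : ∀ g, ∀ ψ ∈ domain, B.U g ψ ∈ domain
  Γ_mem : ∀ ψ ∈ domain, B.Γ ψ ∈ domain
  /-- the smeared fields `A(f) = ∫ A(x) f(x) d⁴x` on the invariant domain -/
  op : F →ₗ[ℂ] Test →ₗ[ℂ] Module.End ℂ domain
  /-- labels are taken modulo equality of their operator valued distributions -/
  faithful : ∀ A, (∀ f, op A f = 0) → A = 0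
  /-- `A^†(\bar f) ⊆ A(f)^*` -/
  op_adj : ∀ (A : F) (f : Test) (φ ψ : domain),
    ⟪(φ : H), (op A f ψ : H)⟫_ℂ = ⟪(op (adj A) (conjT f) φ : H), (ψ : H)⟫_ℂ
  /-- `(∂_μ A)(f) = - A(∂_μ f)` -/
  op_der : ∀ (μ : Fin 4) (A : F) (f : Test), op (der μ A) f = - op A (pd μ f)
  /-- Poincare covariance and the homogeneous dilation law
  `U_D(s) A_Δ(x) U_D(-s) = e^{sΔ} A_Δ(e^s x)`:
  for `g x = e^s Λ x + a` and `f' ∘ g = f` one has `U(g) A(f) = e^{s(Δ-4)} (ρ(Λ)A)(f') U(g)` -/
  op_cov : ∀ (g : Sim) (Δ : ℝ), ∀ A ∈ grade Δ, ∀ f f' : Test, (∀ x, f' (g.act x) = f x) →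
    ∀ ψ : domain, B.U g (op A f ψ : H) =
      (Real.exp (g.s * (Δ - 4)) : ℂ) • (op (rho g.A A) f' ⟨B.U g ψ, U_mem g ψ ψ.2⟩ : H)
  /-- the grading implements the statistics involution -/
  op_Γ : ∀ (A : F) (f : Test) (ψ : domain), B.Γ (op A f ψ : H) = (op (par A) f ⟨B.Γ ψ, Γ_mem ψ ψ.2⟩ : H)
  /-- ordered products of every finite length are operator valued distributions in the joint
  variables -/
  joint : ∀ (n : ℕ) (A : Fin n → F) (φ ψ : domain), ∃ W : JTest n →L[ℂ] ℂ,
    ∀ (f : Fin n → Test) (h : JTest n), (∀ x, h x = ∏ i, f i (x i)) →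
      W h = ⟪(φ : H), ((List.ofFn fun i => op (A i) (f i)).prod ψ : H)⟫_ℂ
  /-- locality, with the usual grading -/
  op_local : ∀ (A A' : F) (f f' : Test), SpacelikeSep (tsupport f) (tsupport f') →
    ((par A = A ∨ par A' = A') → op A f * op A' f' = op A' f' * op A f) ∧
    (par A = -A → par A' = -A' → op A f * op A' f' = - (op A' f' * op A f))
  /-- each smeared field has a closed realisation affiliated with its localisation algebra,
  extending the field on the domain, whose adjoint extends the field adjoint there -/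
  affiliated : ∀ (A : F) (f : Test) (O : Set M4), IsDoubleCone O → tsupport f ⊆ O →
    ∃ T : H →ₗ.[ℂ] H, T.IsClosed ∧
    (⟨domain, domain.subtype ∘ₗ op A f⟩ : H →ₗ.[ℂ] H) ≤ T ∧
    (⟨domain, domain.subtype ∘ₗ op (adj A) (conjT f)⟩ : H →ₗ.[ℂ] H) ≤ T† ∧
    AffiliatedWith T (B.net O)

attribute [instance] FieldSystem.acg FieldSystem.mod

namespace FieldSystem

variable {B : Background H} (𝔉 : FieldSystem B)

/-- The vacuum as an element of the domain. -/
def vac : 𝔉.domain := ⟨B.Ω, 𝔉.Ω_mem⟩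

/-- `U(g)` restricted to the domain. -/
def Uact (g : Sim) (ψ : 𝔉.domain) : 𝔉.domain := ⟨B.U g ψ, 𝔉.U_mem g ψ ψ.2⟩

/-- The smeared field as a partially defined operator on `H`. -/
def pmap (A : 𝔉.F) (f : Test) : H →ₗ.[ℂ] H := ⟨𝔉.domain, 𝔉.domain.subtype ∘ₗ 𝔉.op A f⟩

/-- The ordered product `A_1(f_1) ⋯ A_n(f_n)`. -/
def word {n : ℕ} (A : Fin n → 𝔉.F) (f : Fin n → Test) : Module.End ℂ 𝔉.domain :=
  (List.ofFn fun i => 𝔉.op (A i) (f i)).prod

/-- `𝓓_fact`: the algebraic span of `Ω` and all finite vacuum words with compactly supported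
factor tests. -/
def Dfact : Submodule ℂ H :=
  Submodule.span ℂ {v | ∃ (n : ℕ) (A : Fin n → 𝔉.F) (f : Fin n → Test), v = (𝔉.word A f 𝔉.vac : H)}

/-- The Hilbert space is generated from the vacuum by the fields (and their adjoints, which are
again labels). -/
def Cyclic : Prop := Dense (𝔉.Dfact : Set H)

/-- The graph of the factor-test vacuum map of the list `A`: pairs consisting of a finite sum
`u = ∑_k f^k_1 ⊗ ⋯ ⊗ f^k_n` of compact factor tests, regarded as a Schwartz kernel, and of the vector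
`∑_k A_1(f^k_1) ⋯ A_n(f^k_n) Ω`. -/
def factGraph {n : ℕ} (A : Fin n → 𝔉.F) : Set (𝓢(Fin n → M4, ℂ) × H) :=
  {p | ∃ l : List (Fin n → Test), (∀ x, p.1 x = (l.map fun f => ∏ i, f i (x i)).sum) ∧
    p.2 = (l.map fun f => (𝔉.word A f 𝔉.vac : H)).sum}

/-- `ψ = Ψ_A(h)`: the value at the joint Schwartz kernel `h` of the continuous extension of the
factor-test vacuum map of the list `A`. -/
def IsVacuumWord {n : ℕ} (A : Fin n → 𝔉.F) (h : 𝓢(Fin n → M4, ℂ)) (ψ : H) : Prop :=
  h ∈ closure (Prod.fst '' 𝔉.factGraph A) ∧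
    ∀ W ∈ 𝓝 ψ, ∃ V ∈ 𝓝 h, ∀ p ∈ 𝔉.factGraph A, p.1 ∈ V → p.2 ∈ W

/-- `𝓓_old`: the algebraic span of `Ω` and of all vacuum words `Ψ_A(h)` with joint Schwartz
kernels `h ∈ 𝓢((ℝ⁴)^n)` (Assumption 2.1 and Proposition 2.2). -/
def Dold : Submodule ℂ H :=
  Submodule.span ℂ ({B.Ω} ∪
    {ψ | ∃ (n : ℕ) (A : Fin n → 𝔉.F) (h : 𝓢(Fin n → M4, ℂ)), 𝔉.IsVacuumWord A h ψ})

/-- The polynomial algebra generated by the fields smeared in `K` (finite sums of factorised words). -/
def localAlg (K : Set M4) : Subalgebra ℂ (Module.End ℂ 𝔉.domain) :=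
  Algebra.adjoin ℂ {X | ∃ (A : 𝔉.F) (f : Test), tsupport f ⊆ K ∧ X = 𝔉.op A f}

/-- `W` is the joint distribution `⟨φ, A_1(x_1) ⋯ A_n(x_n) ψ⟩` (it exists by `FieldSystem.joint`, and is
unique because product tests are total). -/
def IsJointDist {n : ℕ} (A : Fin n → 𝔉.F) (φ ψ : 𝔉.domain) (W : JTest n →L[ℂ] ℂ) : Prop :=
  ∀ (f : Fin n → Test) (h : JTest n), (∀ x, h x = ∏ i, f i (x i)) →
    W h = ⟪(φ : H), (𝔉.word A f ψ : H)⟫_ℂ

/-- `P` is the insertion `∫ A_1(x_1) ⋯ A_n(x_n) h(x_1, …, x_n)` of the ordered product with the compact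
smooth joint kernel `h`, as an operator on the invariant domain. -/
def IsInsertion {n : ℕ} (A : Fin n → 𝔉.F) (h : JTest n) (P : Module.End ℂ 𝔉.domain) : Prop :=
  ∀ φ ψ : 𝔉.domain, ∃ W, 𝔉.IsJointDist A φ ψ W ∧ ⟪(φ : H), (P ψ : H)⟫_ℂ = W h

/-- The domain is invariant under all polynomial insertions with compact joint kernels. -/
def HasJointInsertions : Prop :=
  ∀ (n : ℕ) (A : Fin n → 𝔉.F) (h : JTest n), ∃ P, 𝔉.IsInsertion A h P

/-- The represented polynomial algebra `𝔓_c(K)` of Section 8.7: finite sums of finite ordered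
products of fields smeared by compact smooth joint kernels supported in `K^n`, as operators on the
domain.  It contains `localAlg K`. -/
def jointAlg (K : Set M4) : Subalgebra ℂ (Module.End ℂ 𝔉.domain) :=
  Algebra.adjoin ℂ {P | ∃ (n : ℕ) (A : Fin n → 𝔉.F) (h : JTest n),
    (∀ x ∈ tsupport h, ∀ i, x i ∈ K) ∧ 𝔉.IsInsertion A h P}

/-- The component of dimension `Δ` of a label. -/
def comp (Δ : ℝ) (A : 𝔉.F) : 𝔉.F :=
  ((LinearEquiv.ofBijective (DirectSum.coeLinearMap 𝔉.grade) 𝔉.grade_internal).symm A Δ : 𝔉.F)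

/-- The even (Bose) part of a label. -/
def evenPart (A : 𝔉.F) : 𝔉.F := (1 / 2 : ℂ) • (A + 𝔉.par A)

/-- The Hermitian part of a label. -/
def hermPart (A : 𝔉.F) : 𝔉.F := (1 / 2 : ℂ) • (A + 𝔉.adj A)

/-- `□ A = ∂^μ ∂_μ A`. -/
def box (A : 𝔉.F) : 𝔉.F := ∑ μ, (eta μ : ℂ) • 𝔉.der μ (𝔉.der μ A)

/-- `∂^μ V_μ`. -/
def div (V : Fin 4 → 𝔉.F) : 𝔉.F := ∑ μ, (eta μ : ℂ) • 𝔉.der μ (V μ)

/-- `T^μ{}_μ`. -/
def trace (T : Fin 4 → Fin 4 → 𝔉.F) : 𝔉.F := ∑ μ, (eta μ : ℂ) • T μ μ

/-- Iterated derivatives `∂_{μ_1} ⋯ ∂_{μ_k} A`. -/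
def iterDer (l : List (Fin 4)) (A : 𝔉.F) : 𝔉.F := l.foldr (fun μ X => 𝔉.der μ X) A

/-- The span of all derivatives of the members of `S`. -/
def derSpan (S : Set 𝔉.F) : Submodule ℂ 𝔉.F :=
  Submodule.span ℂ {X | ∃ l : List (Fin 4), ∃ A ∈ S, X = 𝔉.iterDer l A}

/-- `A` is a Lorentz vector field `A_μ`: `U(Λ) A_μ(x) U(Λ)^{-1} = Λ^β{}_μ A_β(Λ x)`. -/
def IsVector (V : Fin 4 → 𝔉.F) : Prop :=
  ∀ Λ μ, 𝔉.rho Λ (V μ) = ∑ β, (lorentz Λ β μ : ℂ) • V β

/-- `T` is a Lorentz tensor field `T_{μν}`. -/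
def IsTensor (T : Fin 4 → Fin 4 → 𝔉.F) : Prop :=
  ∀ Λ μ ν, 𝔉.rho Λ (T μ ν) = ∑ α, ∑ β, ((lorentz Λ α μ * lorentz Λ β ν : ℝ) : ℂ) • T α β

/-- Compatible affiliated realisations (Proposition 8.8 and the paragraphs after it): one closed
extension of `A(f)`, with adjoint extending `A^†(\bar f)`, affiliated with `𝓜(R)` for every open
neighbourhood `R` of `supp f`; symmetric if `A` is Hermitian and `f` real. -/
def CompatiblyAffiliated : Prop :=
  ∀ (A : 𝔉.F) (f : Test), ∃ T : H →ₗ.[ℂ] H, T.IsClosed ∧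
    𝔉.pmap A f ≤ T ∧ 𝔉.pmap (𝔉.adj A) (conjT f) ≤ T† ∧
    (∀ R : Set M4, IsOpen R → tsupport f ⊆ R → AffiliatedWith T (B.alg R)) ∧
    (𝔉.adj A = A → conjT f = f → T ≤ T†)

/-- Compatible affiliated realisations of the compact polynomial insertions (Section 8.7, the two
paragraphs starting with "These compact polynomial insertions have compatible affiliated realizations
in the original net"): every insertion `P` with a compact joint kernel `h` has a closed extension
whose adjoint is defined on the whole common domain (where it is then the reversed adjoint polynomial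
`P^†`), affiliated with `𝓜(R)` for every open neighbourhood `R` of the localisation of `h`. -/
def JointlyAffiliated : Prop :=
  ∀ (n : ℕ) (A : Fin n → 𝔉.F) (h : JTest n) (P : Module.End ℂ 𝔉.domain), 𝔉.IsInsertion A h P →
    ∃ T : H →ₗ.[ℂ] H, T.IsClosed ∧
      (⟨𝔉.domain, 𝔉.domain.subtype ∘ₗ P⟩ : H →ₗ.[ℂ] H) ≤ T ∧ 𝔉.domain ≤ T†.domain ∧
      ∀ R : Set M4, IsOpen R → (∀ x ∈ tsupport h, ∀ i, x i ∈ R) → AffiliatedWith T (B.alg R)

end FieldSystem

/-! ## 6. Compact Cauchy slabs, charges and Ward identities -/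

/-- `F_μ` is the test one-form of a compact Cauchy slab surrounding `K`: on a neighbourhood of the
causal set `J⁺(K) ∪ J⁻(K)` (outside of which commutators with insertions in `K` vanish) it equals
`∂_μ ρ` for a time step `ρ`, equal to `1` on the late part of `J⁺(K)` and to `0` on the early part of
`J⁻(K)`.  ("The cutoff equals a time step on the relevant causal support", Section 5.2.)
The flux `∫ F^μ j_μ` of a conserved current through it is the unit-normalised local charge. -/
def IsSlabFor (K : Set M4) (F : Fin 4 → RTest) : Prop :=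
  ∃ ρ : M4 → ℝ, ContDiff ℝ ∞ ρ ∧
    (∃ N : Set M4, IsOpen N ∧ causalFuture K ∪ causalPast K ⊆ N ∧
      ∀ x ∈ N, ∀ μ, F μ x = fderiv ℝ ρ x (ev μ)) ∧
    (∃ C : Set M4, IsCompact C ∧ ∀ x ∈ causalFuture K, x ∉ C → ρ x = 1) ∧
    (∃ C : Set M4, IsCompact C ∧ ∀ x ∈ causalPast K, x ∉ C → ρ x = 0)

/-- `X` is a conformal Killing vector field of Minkowski space:
`∂_μ X_ν + ∂_ν X_μ = 2 σ η_{μν}`. -/
def IsConformalKilling (X : M4 → M4) : Prop :=
  ContDiff ℝ ∞ X ∧ ∃ σ : M4 → ℝ, ∀ x μ ν,
    eta ν * fderiv ℝ X x (ev μ) ν + eta μ * fderiv ℝ X x (ev ν) μ = 2 * σ x * etaM μ ν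

/-- `σ_X = (∂·X)/4`. -/
def sigmaOf (X : M4 → M4) (x : M4) : ℝ := (∑ μ, fderiv ℝ X x (ev μ) μ) / 4

namespace FieldSystem

variable {B : Background H} (𝔉 : FieldSystem B)

/-- The flux `∫ F^μ V_μ d⁴x` of a vector field through the slab. -/
def flux (V : Fin 4 → 𝔉.F) (F : Fin 4 → RTest) : Module.End ℂ 𝔉.domain :=
  ∑ μ, (eta μ : ℂ) • 𝔉.op (V μ) (toC (F μ))

/-- The local charge `Q_X(F) = ∫ F^μ X^ν T_{μν} d⁴x` of the current `X^ν T_{μν}`. -/
def charge (T : Fin 4 → Fin 4 → 𝔉.F) (X : M4 → M4) (F : Fin 4 → RTest) :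
    Module.End ℂ 𝔉.domain :=
  ∑ μ, ∑ ν, (eta μ : ℂ) • 𝔉.op (T μ ν) (mulT (fun x => X x ν) (toC (F μ)))

/-- The commutator on the invariant domain. -/
def comm (Q P : Module.End ℂ 𝔉.domain) : Module.End ℂ 𝔉.domain := Q * P - P * Q

/-- The affine (translation, orbital Lorentz and dilation) Ward identities of the stress tensor `T`
and virial field `V`, through compact Cauchy slabs, on the polynomial algebras `Pol K`:  for the affine
field `X(x) = c + M x + κ x` the local charge of `X^ν T_{μν} - κ V_μ` generates on the polynomial algebra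
of any enclosed region the physical transformation implemented by `U`,
`i [Q, P] = d/ds U(g_s) P U(g_s)^{-1}` at `s = 0`, where `g_s` has velocity `X`.
It is written for the inverse conjugation, `d/ds U(g_s)^{-1} P U(g_s) = - i [Q, P]`, as an identity of
matrix elements on the invariant domain.
`κ = 0, M = 0`: translations; `κ = 0, c = 0`: Lorentz transformations;
`c = 0, M = 0`: the dilation current `D_μ = x^ν T_{μν} - V_μ`. -/
def AffineWardOn (Pol : Set M4 → Subalgebra ℂ (Module.End ℂ 𝔉.domain))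
    (T : Fin 4 → Fin 4 → 𝔉.F) (V : Fin 4 → 𝔉.F) : Prop :=
  ∀ (γ : ℝ → Sim) (c : M4) (M : Matrix (Fin 4) (Fin 4) ℝ) (κ : ℝ), IsTangent γ c M κ →
  ∀ (K : Set M4) (F : Fin 4 → RTest), IsSlabFor K F →
  ∀ P ∈ Pol K, ∀ φ ψ : 𝔉.domain,
    HasDerivAt (fun s : ℝ => ⟪(𝔉.Uact (γ s) φ : H), (P (𝔉.Uact (γ s) ψ) : H)⟫_ℂ)
      ⟪(φ : H), (((-Complex.I) •
        𝔉.comm (𝔉.charge T (affineField c M κ) F - (κ : ℂ) • 𝔉.flux V F) P) ψ : H)⟫_ℂ 0

/-- Unbroken local conformal Ward identities of the currents `j_X = X^ν t_{μν}`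
(Section 8.7, equations (8.30), (8.31), (8.34), Proposition 8.9) on the represented polynomial
algebra: with `δ_X P = i [Q_X(F), P]` for a compact slab `F` enclosing the localisation of `P`,
* `δ_X` does not depend on the enclosing slab;
* `δ_X` is local: it maps `𝔓_c(O)` into itself for every open `O`;
* for affine `X` it is the physical Poincare and dilation action (no virial term is needed);
* the vacuum Ward identity `∑_i W(A_1, …, δ_X A_i, …, A_n) = 0` holds for every conformal Killing `X`;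
* `[δ_X, δ_Y] = - δ_{[X,Y]}`. -/
structure ConformalWard (t : Fin 4 → Fin 4 → 𝔉.F) : Prop where
  indep : ∀ X, IsConformalKilling X → ∀ K F F', IsSlabFor K F → IsSlabFor K F' →
    ∀ P ∈ 𝔉.jointAlg K, 𝔉.comm (𝔉.charge t X F) P = 𝔉.comm (𝔉.charge t X F') P
  preserve : ∀ X, IsConformalKilling X → ∀ K F, IsOpen K → IsSlabFor K F →
    ∀ P ∈ 𝔉.jointAlg K, 𝔉.comm (𝔉.charge t X F) P ∈ 𝔉.jointAlg K
  affine : 𝔉.AffineWardOn 𝔉.jointAlg t 0
  vacuum : ∀ X, IsConformalKilling X → ∀ K F, IsSlabFor K F → ∀ P ∈ 𝔉.jointAlg K,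
    ⟪B.Ω, (𝔉.comm (𝔉.charge t X F) P 𝔉.vac : H)⟫_ℂ = 0
  lie : ∀ X Y, IsConformalKilling X → IsConformalKilling Y →
    ∀ K F K' F', IsSlabFor K F → K ⊆ K' → (∀ μ, tsupport (F μ) ⊆ K') → IsSlabFor K' F' →
    ∀ P ∈ 𝔉.jointAlg K,
      𝔉.comm (𝔉.charge t X F') (𝔉.comm (𝔉.charge t Y F) P)
        - 𝔉.comm (𝔉.charge t Y F') (𝔉.comm (𝔉.charge t X F) P)
      = Complex.I • 𝔉.comm (𝔉.charge t (VectorField.lieBracket ℝ X Y) F) P

/-- The test function `- X^λ ∂_λ f - 2 σ_X f`, dual to `X^λ ∂_λ + 2 σ_X` in four dimensions. -/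
def _root_.Claimed.Open.R282.transportT (X : M4 → M4) (f : Test) : Test :=
  - (∑ l, mulT (fun x => X x l) (pd l f)) - (2 : ℂ) • mulT (sigmaOf X) f

/-- The primary transformation laws (8.32), (8.33) of `L` and of `t` under the Ward derivations:
`δ_X L = X·∂ L + 2 σ_X L`,
`δ_X t_{μν} = X·∂ t_{μν} + (∂_μ X^λ) t_{λν} + (∂_ν X^λ) t_{μλ} + 2 σ_X t_{μν}`. -/
structure PrimaryLaws (t : Fin 4 → Fin 4 → 𝔉.F) (L : 𝔉.F) : Prop where
  scalar : ∀ X, IsConformalKilling X → ∀ (f : Test) F, IsSlabFor (tsupport f) F →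
    Complex.I • 𝔉.comm (𝔉.charge t X F) (𝔉.op L f) = 𝔉.op L (transportT X f)
  tensor : ∀ X, IsConformalKilling X → ∀ (f : Test) F, IsSlabFor (tsupport f) F → ∀ μ ν,
    Complex.I • 𝔉.comm (𝔉.charge t X F) (𝔉.op (t μ ν) f) = 𝔉.op (t μ ν) (transportT X f)
      + ∑ l, 𝔉.op (t l ν) (mulT (fun x => fderiv ℝ X x (ev μ) l) f)
      + ∑ l, 𝔉.op (t μ l) (mulT (fun x => fderiv ℝ X x (ev ν) l) f)

end FieldSystem

/-! ## 7. The original currents -/

/-- The stress tensor and virial field of Assumption 2.1 among the original fields. -/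
structure StressData {B : Background H} (𝔉 : FieldSystem B) where
  /-- the stress tensor `T_{μν}` -/
  T : Fin 4 → Fin 4 → 𝔉.F
  /-- the virial field `V_μ` -/
  V : Fin 4 → 𝔉.F
  T_tensor : 𝔉.IsTensor T
  V_vector : 𝔉.IsVector V
  /-- `T_{μν} = T_{νμ}` -/
  T_symm : ∀ μ ν, T μ ν = T ν μ
  /-- `∂^μ T_{μν} = 0` -/
  T_cons : ∀ ν, 𝔉.div (fun μ => T μ ν) = 0
  /-- `T^μ{}_μ = ∂^μ V_μ`, equivalently `∂^μ D_μ = 0` for `D_μ = x^ν T_{μν} - V_μ` -/
  trace_eq : 𝔉.trace T = 𝔉.div V
  /-- translation and orbital Lorentz Ward identities of `T`, dilation Ward identity of `D` -/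
  ward : 𝔉.AffineWardOn 𝔉.localAlg T V

namespace StressData

variable {B : Background H} {𝔉 : FieldSystem B} (S : StressData 𝔉)

/-- `T^{(4)}`: the dimension-four component of the Hermitian part of the even part of `T`
(Section 2.3). -/
def T4 (μ ν : Fin 4) : 𝔉.F := 𝔉.comp 4 (𝔉.hermPart (𝔉.evenPart (S.T μ ν)))

/-- `V^{(3)}`: the dimension-three component of the Hermitian part of the even part of `V`. -/
def V3 (μ : Fin 4) : 𝔉.F := 𝔉.comp 3 (𝔉.hermPart (𝔉.evenPart (S.V μ)))

end StressData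

/-! ## 8. Admission of further fields to the physical theory -/

/-- The intrinsic membership criterion of Assumption 2.1.  `𝔊` extends `𝔉` by a finite family of
homogeneous finite-component point fields (and their derivatives) *in the same Hilbert space, with
the same vacuum, symmetries and net*: all the properties collected in `FieldSystem` (joint
distributions at every finite length on a common invariant domain, adjoints, covariance, locality and
statistics, localisation in arbitrarily small double cones through realisations affiliated with the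
original local algebras) hold for the enlarged family, the common domain contains the
vacuum-generated domain `𝓓_old` of `𝔉`, and the fields of `𝔉` keep their vacuum words. -/
structure Extension {B : Background H} (𝔉 𝔊 : FieldSystem B) where
  /-- inclusion of the labels -/
  ι : 𝔉.F →ₗ[ℂ] 𝔊.F
  ι_inj : Function.Injective ι
  ι_grade : ∀ Δ, ∀ A ∈ 𝔉.grade Δ, ι A ∈ 𝔊.grade Δ
  ι_adj : ∀ A, ι (𝔉.adj A) = 𝔊.adj (ι A)
  ι_der : ∀ μ A, ι (𝔉.der μ A) = 𝔊.der μ (ι A)
  ι_rho : ∀ Λ A, ι (𝔉.rho Λ A) = 𝔊.rho Λ (ι A)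
  ι_par : ∀ A, ι (𝔉.par A) = 𝔊.par (ι A)
  /-- the common invariant domain contains `𝓓_old` -/
  Dold_le : 𝔉.Dold ≤ 𝔊.domain
  /-- the old fields act on the old vacuum words as before -/
  agree : ∀ (n : ℕ) (A : Fin n → 𝔉.F) (f : Fin n → Test),
    (𝔊.word (fun i => ι (A i)) f 𝔊.vac : H) = (𝔉.word A f 𝔉.vac : H)
  /-- only a finite family of homogeneous fields, with derivatives, is added -/
  fin_gen : ∃ S : Finset 𝔊.F, (∀ G ∈ S, ∃ Δ, G ∈ 𝔊.grade Δ) ∧
    LinearMap.range ι ⊔ 𝔊.derSpan (S : Set 𝔊.F) = ⊤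

/-! ## 9. The theorem -/

/-- The improved tensor `t_{μν} = T_{μν} + (1/3)(∂_μ ∂_ν - η_{μν} □) L`. -/
def improved {B : Background H} (𝔊 : FieldSystem B) (T : Fin 4 → Fin 4 → 𝔊.F) (L : 𝔊.F)
    (μ ν : Fin 4) : 𝔊.F :=
  T μ ν + (1 / 3 : ℂ) • (𝔊.der μ (𝔊.der ν L) - (etaM μ ν : ℂ) • 𝔊.box L)

/-- The conclusion of Theorem 1.1 for the original fields `𝔉` with currents `S`. -/
def Conclusion {B : Background H} (𝔉 : FieldSystem B) (S : StressData 𝔉) : Prop :=
  -- the replacement `T ↦ T^{(4)}`, `V ↦ V^{(3)}` preserves the affine charges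
  𝔉.AffineWardOn 𝔉.jointAlg S.T4 S.V3 ∧
  -- a physical field `L` is admitted together with the original fields
  ∃ (𝔏 : FieldSystem B) (e : Extension 𝔉 𝔏) (L : 𝔏.F),
    LinearMap.range e.ι ⊔ 𝔏.derSpan {L} = ⊤ ∧
    -- Hermitian (Bose) scalar of dimension two
    L ∈ 𝔏.grade 2 ∧ 𝔏.adj L = L ∧ 𝔏.par L = L ∧ (∀ Λ, 𝔏.rho Λ L = L) ∧
    -- `∂^μ V^{(3)}_μ = □ L`
    e.ι (𝔉.div S.V3) = 𝔏.box L ∧
    -- the improved tensor is symmetric, conserved and traceless
    (∀ μ ν, improved 𝔏 (fun μ ν => e.ι (S.T4 μ ν)) L μ ν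
      = improved 𝔏 (fun μ ν => e.ι (S.T4 μ ν)) L ν μ) ∧
    (∀ ν, 𝔏.div (fun μ => improved 𝔏 (fun μ ν => e.ι (S.T4 μ ν)) L μ ν) = 0) ∧
    𝔏.trace (improved 𝔏 (fun μ ν => e.ι (S.T4 μ ν)) L) = 0 ∧
    -- polynomial insertions with joint kernels; compatible affiliated realisations in the original net
    𝔏.HasJointInsertions ∧ 𝔏.CompatiblyAffiliated ∧ 𝔏.JointlyAffiliated ∧
    -- unbroken local conformal Ward identities, extending the Poincare and dilation actions
    𝔏.ConformalWard (improved 𝔏 (fun μ ν => e.ι (S.T4 μ ν)) L) ∧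
    𝔏.PrimaryLaws (improved 𝔏 (fun μ ν => e.ι (S.T4 μ ν)) L) L ∧
    -- the same on every finite family admitted together with the original fields
    ∀ (𝔊 : FieldSystem B) (eG : Extension 𝔉 𝔊),
      ∃ (𝔎 : FieldSystem B) (e₁ : Extension 𝔊 𝔎) (e₂ : Extension 𝔏 𝔎),
        (∀ A, e₁.ι (eG.ι A) = e₂.ι (e.ι A)) ∧
        LinearMap.range e₁.ι ⊔ 𝔎.derSpan {e₂.ι L} = ⊤ ∧
        -- the enlarged domain contains the domain of `𝔏`, and all insertion actions agree there
        (∃ hle : 𝔏.domain ≤ 𝔎.domain, ∀ (A : 𝔏.F) (f : Test) (ψ : 𝔏.domain),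
          (𝔎.op (e₂.ι A) f ⟨ψ, hle ψ.2⟩ : H) = (𝔏.op A f ψ : H)) ∧
        𝔎.HasJointInsertions ∧ 𝔎.CompatiblyAffiliated ∧ 𝔎.JointlyAffiliated ∧
        𝔎.ConformalWard (fun μ ν => e₂.ι (improved 𝔏 (fun μ ν => e.ι (S.T4 μ ν)) L μ ν)) ∧
        𝔎.PrimaryLaws (fun μ ν => e₂.ι (improved 𝔏 (fun μ ν => e.ι (S.T4 μ ν)) L μ ν)) (e₂.ι L)

end

/-- **Theorem 1.1** (scale symmetry implies local conformal symmetry).  For every operational
physical theory in the sense of Assumption 2.1, the stress tensor admits a local symmetric conserved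
traceless improvement in the same physical theory, with unchanged affine charges, whose conformal
currents satisfy unbroken local Ward identities on the physical field algebra. -/
def Statement : Prop :=
  ∀ (H : Type) [NormedAddCommGroup H] [InnerProductSpace ℂ H] [CompleteSpace H]
    (B : Background H) (𝔉 : FieldSystem B), 𝔉.Cyclic → ∀ S : StressData 𝔉, Conclusion 𝔉 S

end Claimed.Open.R282
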